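import Mathlib
import Crest.Prelude.Def_QState
import Crest.Agent.GAD.LogDetRep

/-!
# Step (0) of the (AD4) proof: the determinant lemma and the log-det representation of `Psi4`

For rectangular `a b : Matrix d d' ℂ` and positive semidefinite `T0 T1 : Matrix d d ℂ`, the
block matrix `O4 a b T0 T1 = [[a aᴴ + T0, a bᴴ], [b aᴴ, b bᴴ + T1]]` (index `d ⊕ d`) satisfies,
for `s > 0`,

* (D1) `det (O4 + s) = det (T0 + s) * det (T1 + s) * det (1 + armMat a T0 s + armMat b T1 s)`,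
  `armMat a T s = aᴴ (T + s)⁻¹ a`;
* (D2) `det (a aᴴ + s) = s ^ |d| * det (1 + s⁻¹ • aᴴ a)`;
* (D3) `S(a aᴴ) + S(b bᴴ) + S(T0) + S(T1) - S(O4)` is represented (`LogDetRep … 0 0`) by
  `psi4Integrand`, the function
  `s ↦ ln det (1 + s⁻¹ aᴴ a) + ln det (1 + s⁻¹ bᴴ b) - ln det (1 + armMat a T0 s + armMat b T1 s)`.
-/

set_option autoImplicit false
set_option linter.unusedSectionVars false

open Crest.Quantum
open scoped ComplexOrder Matrix
open Filter Topology MeasureTheory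

namespace Crest.Agent.GAD

variable {d d' : Type*} [Fintype d] [DecidableEq d] [Fintype d'] [DecidableEq d']

/-- The block matrix `[[a aᴴ + T0, a bᴴ], [b aᴴ, b bᴴ + T1]]`, indexed by `d ⊕ d`. -/
def O4 (a b : Matrix d d' ℂ) (T0 T1 : Matrix d d ℂ) : Matrix (d ⊕ d) (d ⊕ d) ℂ :=
  Matrix.fromBlocks (a * aᴴ + T0) (a * bᴴ) (b * aᴴ) (b * bᴴ + T1)

/-- `aᴴ (T + s)⁻¹ a`, a `d' × d'` matrix. -/
noncomputable def armMat (a : Matrix d d' ℂ) (T : Matrix d d ℂ) (s : ℝ) : Matrix d' d' ℂ :=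
  aᴴ * (T + (s : ℂ) • (1 : Matrix d d ℂ))⁻¹ * a

/-! ### Positivity bookkeeping -/

theorem posDef_add_smul_one {T : Matrix d d ℂ} (hT : T.PosSemidef) {s : ℝ} (hs : 0 < s) :
    (T + (s : ℂ) • (1 : Matrix d d ℂ)).PosDef := by
  refine Matrix.PosDef.posSemidef_add hT ?_
  have h1 : (1 : Matrix d d ℂ).PosDef := Matrix.PosDef.one
  have hs' : (0 : ℂ) < (s : ℂ) := by exact_mod_cast hs
  exact h1.smul hs'

theorem posSemidef_armMat (a : Matrix d d' ℂ) {T : Matrix d d ℂ} (hT : T.PosSemidef) {s : ℝ}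
    (hs : 0 < s) : (armMat a T s).PosSemidef := by
  unfold armMat
  exact (posDef_add_smul_one hT hs).inv.posSemidef.conjTranspose_mul_mul_same a

theorem posDef_one_add {P : Matrix d' d' ℂ} (hP : P.PosSemidef) : (1 + P).PosDef :=
  Matrix.PosDef.add_posSemidef Matrix.PosDef.one hP

/-- The determinant of a positive definite matrix is a positive real number. -/
theorem det_eq_ofReal_re_of_posDef {n : Type*} [Fintype n] [DecidableEq n] {M : Matrix n n ℂ}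
    (hM : M.PosDef) : M.det = ((M.det.re : ℝ) : ℂ) ∧ 0 < M.det.re := by
  have h := hM.det_pos
  have h2 := Complex.pos_iff.mp h
  refine ⟨?_, h2.1⟩
  apply Complex.ext
  · simp
  · simp [← h2.2]

/-! ### (D1) the matrix determinant lemma for `O4` -/

theorem O4_add_smul_one (a b : Matrix d d' ℂ) (T0 T1 : Matrix d d ℂ) (s : ℝ) :
    O4 a b T0 T1 + (s : ℂ) • (1 : Matrix (d ⊕ d) (d ⊕ d) ℂ) =
      Matrix.fromBlocks (T0 + (s : ℂ) • (1 : Matrix d d ℂ)) 0 0 (T1 + (s : ℂ) • (1 : Matrix d d ℂ))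
        + Matrix.fromRows a b * Matrix.fromCols aᴴ bᴴ := by
  rw [Matrix.fromRows_mul_fromCols, Matrix.fromBlocks_add, O4, ← Matrix.fromBlocks_one,
    Matrix.fromBlocks_smul, Matrix.fromBlocks_add]
  congr 1
  · abel
  · simp
  · simp
  · abel

theorem det_O4_add_smul_one (a b : Matrix d d' ℂ) {T0 T1 : Matrix d d ℂ} (hT0 : T0.PosSemidef)
    (hT1 : T1.PosSemidef) {s : ℝ} (hs : 0 < s) :
    (O4 a b T0 T1 + (s : ℂ) • (1 : Matrix (d ⊕ d) (d ⊕ d) ℂ)).det =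
      (T0 + (s : ℂ) • (1 : Matrix d d ℂ)).det * (T1 + (s : ℂ) • (1 : Matrix d d ℂ)).det *
        (1 + armMat a T0 s + armMat b T1 s).det := by
  set P0 := T0 + (s : ℂ) • (1 : Matrix d d ℂ) with hP0
  set P1 := T1 + (s : ℂ) • (1 : Matrix d d ℂ) with hP1
  have hP0pd : P0.PosDef := posDef_add_smul_one hT0 hs
  have hP1pd : P1.PosDef := posDef_add_smul_one hT1 hs
  have hu0 : IsUnit P0.det := (Matrix.isUnit_iff_isUnit_det _).mp hP0pd.isUnit
  have hu1 : IsUnit P1.det := (Matrix.isUnit_iff_isUnit_det _).mp hP1pd.isUnit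
  have hdetD : (Matrix.fromBlocks P0 0 0 P1).det = P0.det * P1.det := by
    rw [Matrix.det_fromBlocks_zero₂₁]
  have huD : IsUnit (Matrix.fromBlocks P0 (0 : Matrix d d ℂ) (0 : Matrix d d ℂ) P1).det := by
    rw [hdetD]; exact hu0.mul hu1
  have hinv : (Matrix.fromBlocks P0 (0 : Matrix d d ℂ) (0 : Matrix d d ℂ) P1)⁻¹ =
      Matrix.fromBlocks P0⁻¹ 0 0 P1⁻¹ := by
    apply Matrix.inv_eq_right_inv
    rw [Matrix.fromBlocks_multiply]
    simp [Matrix.mul_nonsing_inv _ hu0, Matrix.mul_nonsing_inv _ hu1, Matrix.fromBlocks_one]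
  rw [O4_add_smul_one, Matrix.det_add_mul _ _ huD, hdetD, hinv]
  congr 1
  rw [Matrix.fromCols_mul_fromBlocks, Matrix.fromCols_mul_fromRows]
  simp only [armMat, Matrix.mul_zero, add_zero, zero_add, add_assoc]
  rfl

/-! ### (D2) the Gram side -/

theorem det_mul_conjTranspose_add_smul_one (a : Matrix d d' ℂ) {s : ℝ} (hs : 0 < s) :
    (a * aᴴ + (s : ℂ) • (1 : Matrix d d ℂ)).det =
      (s : ℂ) ^ (Fintype.card d) * (1 + (s⁻¹ : ℂ) • (aᴴ * a)).det := by
  have hs' : (s : ℂ) ≠ 0 := by exact_mod_cast hs.ne'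
  have h1 : a * aᴴ + (s : ℂ) • (1 : Matrix d d ℂ) =
      (s : ℂ) • (1 + ((s⁻¹ : ℂ) • a) * aᴴ) := by
    rw [smul_add, Matrix.smul_mul, smul_smul, mul_inv_cancel₀ hs', one_smul, add_comm]
  rw [h1, Matrix.det_smul, Matrix.det_one_add_mul_comm, Matrix.mul_smul]

/-! ### (D3) the log-det representation of `-Psi4` -/

theorem posSemidef_fromBlocks_diag {A B : Matrix d d ℂ} (hA : A.PosSemidef) (hB : B.PosSemidef) :
    (Matrix.fromBlocks A 0 0 B).PosSemidef := by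
  rw [Matrix.posSemidef_iff_dotProduct_mulVec]
  refine ⟨?_, fun x => ?_⟩
  · refine Matrix.IsHermitian.fromBlocks hA.1 ?_ hB.1
    simp
  · have hx : x = Sum.elim (x ∘ Sum.inl) (x ∘ Sum.inr) := by
      ext i; cases i <;> rfl
    have hstar : star (Sum.elim (x ∘ Sum.inl) (x ∘ Sum.inr)) =
        Sum.elim (star (x ∘ Sum.inl)) (star (x ∘ Sum.inr)) := by
      ext i; cases i <;> rfl
    rw [hx, Matrix.fromBlocks_mulVec, hstar, sumElim_dotProduct_sumElim]
    simp only [Matrix.zero_mulVec, add_zero, zero_add]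
    exact add_nonneg ((Matrix.posSemidef_iff_dotProduct_mulVec.mp hA).2 _)
      ((Matrix.posSemidef_iff_dotProduct_mulVec.mp hB).2 _)

theorem O4_eq (a b : Matrix d d' ℂ) (T0 T1 : Matrix d d ℂ) :
    O4 a b T0 T1 = Matrix.fromRows a b * (Matrix.fromRows a b)ᴴ + Matrix.fromBlocks T0 0 0 T1 := by
  rw [Matrix.conjTranspose_fromRows_eq_fromCols_conjTranspose, Matrix.fromRows_mul_fromCols,
    Matrix.fromBlocks_add, O4]
  simp

theorem posSemidef_O4 (a b : Matrix d d' ℂ) {T0 T1 : Matrix d d ℂ} (hT0 : T0.PosSemidef)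
    (hT1 : T1.PosSemidef) : (O4 a b T0 T1).PosSemidef := by
  rw [O4_eq]
  exact (Matrix.posSemidef_self_mul_conjTranspose _).add (posSemidef_fromBlocks_diag hT0 hT1)

theorem trace_O4 (a b : Matrix d d' ℂ) (T0 T1 : Matrix d d ℂ) :
    (O4 a b T0 T1).trace = (a * aᴴ).trace + (b * bᴴ).trace + T0.trace + T1.trace := by
  simp [O4, Matrix.trace, Fintype.sum_sum_type, Finset.sum_add_distrib]
  ring

/-- The integrand that represents `-Psi4`:
`ln det (1 + s⁻¹ aᴴ a) + ln det (1 + s⁻¹ bᴴ b) - ln det (1 + aᴴ (T0+s)⁻¹ a + bᴴ (T1+s)⁻¹ b)`. -/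
noncomputable def psi4Integrand (a b : Matrix d d' ℂ) (T0 T1 : Matrix d d ℂ) (s : ℝ) : ℝ :=
  Real.log ((1 + ((s : ℂ)⁻¹) • (aᴴ * a)).det.re) + Real.log ((1 + ((s : ℂ)⁻¹) • (bᴴ * b)).det.re)
    - Real.log ((1 + armMat a T0 s + armMat b T1 s).det.re)

theorem posDef_one_add_smul_gram (a : Matrix d d' ℂ) {s : ℝ} (hs : 0 < s) :
    (1 + ((s : ℂ)⁻¹) • (aᴴ * a)).PosDef := by
  refine posDef_one_add ?_
  have hs' : (0 : ℂ) ≤ (s : ℂ)⁻¹ := by
    have : (0 : ℝ) ≤ s⁻¹ := inv_nonneg.mpr hs.le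
    exact_mod_cast this
  exact (Matrix.posSemidef_conjTranspose_mul_self a).smul hs'

theorem posDef_one_add_armMat (a b : Matrix d d' ℂ) {T0 T1 : Matrix d d ℂ} (hT0 : T0.PosSemidef)
    (hT1 : T1.PosSemidef) {s : ℝ} (hs : 0 < s) :
    (1 + armMat a T0 s + armMat b T1 s).PosDef := by
  rw [add_assoc]
  exact posDef_one_add ((posSemidef_armMat a hT0 hs).add (posSemidef_armMat b hT1 hs))

/-- `ln det (a aᴴ + s) = |d| ln s + ln det (1 + s⁻¹ aᴴ a)` for `s > 0`. -/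
theorem log_det_gram_add (a : Matrix d d' ℂ) {s : ℝ} (hs : 0 < s) :
    Real.log ((a * aᴴ + (s : ℂ) • (1 : Matrix d d ℂ)).det.re) =
      (Fintype.card d : ℝ) * Real.log s + Real.log ((1 + ((s : ℂ)⁻¹) • (aᴴ * a)).det.re) := by
  obtain ⟨h1, h2⟩ := det_eq_ofReal_re_of_posDef (posDef_one_add_smul_gram a hs)
  rw [det_mul_conjTranspose_add_smul_one a hs, h1]
  have : ((s : ℂ) ^ (Fintype.card d) * (((1 + ((s : ℂ)⁻¹) • (aᴴ * a)).det.re : ℝ) : ℂ)).re =
      s ^ (Fintype.card d) * (1 + ((s : ℂ)⁻¹) • (aᴴ * a)).det.re := by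
    rw [← Complex.ofReal_pow, ← Complex.ofReal_mul, Complex.ofReal_re]
  rw [this, Real.log_mul (pow_pos hs _).ne' h2.ne', Real.log_pow]
  simp

/-- `ln det (O4 + s) = ln det (T0 + s) + ln det (T1 + s) + ln det (1 + A0 + A1)` for `s > 0`. -/
theorem log_det_O4_add (a b : Matrix d d' ℂ) {T0 T1 : Matrix d d ℂ} (hT0 : T0.PosSemidef)
    (hT1 : T1.PosSemidef) {s : ℝ} (hs : 0 < s) :
    Real.log ((O4 a b T0 T1 + (s : ℂ) • (1 : Matrix (d ⊕ d) (d ⊕ d) ℂ)).det.re) =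
      Real.log ((T0 + (s : ℂ) • (1 : Matrix d d ℂ)).det.re) +
        Real.log ((T1 + (s : ℂ) • (1 : Matrix d d ℂ)).det.re) +
        Real.log ((1 + armMat a T0 s + armMat b T1 s).det.re) := by
  obtain ⟨h0, h0'⟩ := det_eq_ofReal_re_of_posDef (posDef_add_smul_one hT0 hs)
  obtain ⟨h1, h1'⟩ := det_eq_ofReal_re_of_posDef (posDef_add_smul_one hT1 hs)
  obtain ⟨h2, h2'⟩ := det_eq_ofReal_re_of_posDef (posDef_one_add_armMat a b hT0 hT1 hs)
  rw [det_O4_add_smul_one a b hT0 hT1 hs, h0, h1, h2]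
  rw [← Complex.ofReal_mul, ← Complex.ofReal_mul, Complex.ofReal_re]
  simp only [Complex.ofReal_re]
  rw [Real.log_mul (mul_pos h0' h1').ne' h2'.ne', Real.log_mul h0'.ne' h1'.ne']

/-- **(D3)** `S(a aᴴ) + S(b bᴴ) + S(T0) + S(T1) - S(O4)` is represented, with dimension part `0`
and trace part `0`, by `psi4Integrand`. -/
theorem logDetRep_psi4 (a b : Matrix d d' ℂ) {T0 T1 : Matrix d d ℂ} (hT0 : T0.PosSemidef)
    (hT1 : T1.PosSemidef) :
    LogDetRep (vnEntropy (a * aᴴ) + vnEntropy (b * bᴴ) + vnEntropy T0 + vnEntropy T1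
        - vnEntropy (O4 a b T0 T1)) 0 0 (psi4Integrand a b T0 T1) := by
  have hX := logDetRep_vnEntropy (a * aᴴ) (Matrix.posSemidef_self_mul_conjTranspose a)
  have hU := logDetRep_vnEntropy (b * bᴴ) (Matrix.posSemidef_self_mul_conjTranspose b)
  have h0 := logDetRep_vnEntropy T0 hT0
  have h1 := logDetRep_vnEntropy T1 hT1
  have hO := logDetRep_vnEntropy (O4 a b T0 T1) (posSemidef_O4 a b hT0 hT1)
  have hL := logDetRep_log.const_mul (2 * (Fintype.card d : ℝ))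
  have H := ((((hX.add hU).add h0).add h1).sub hO).sub hL
  refine H.congr (by ring) ?_ ?_ ?_
  · rw [Fintype.card_sum]; push_cast; ring
  · rw [trace_O4]; simp only [Complex.add_re]; ring
  · intro s hs
    rw [log_det_gram_add a hs, log_det_gram_add b hs, log_det_O4_add a b hT0 hT1 hs]
    unfold psi4Integrand
    ring

end Crest.Agent.GAD
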