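import Mathlib
import Crest.Prelude.Def_QState
import Crest.Agent.GAD.LogDetRep
import Crest.Agent.GAD.Psi4Rep
import Crest.Agent.GAD.Fiedler
import Crest.Agent.GAD.AD4Lprime

/-!
# The top assembly of `(AD4)`

`AD4` (the `Prop` of `GAD/AD4Lprime.lean`) says `phi4 (traces) ≤ psi4 a b T0 T1`.  This file
reduces it to one real-variable inequality between two lower integrals (the conclusion of the
layer-cake theorem) for the sorted eigenvalues

* `gramEig a j` of `aᴴ a`, and
* `armEig a hT s j` of `armMat a T s = aᴴ (T + s)⁻¹ a`.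

Chain: `ofReal (-psi4) ≤ ∫⁻ ofReal (psi4Integrand)` (log-det representation, `GAD/Psi4Rep`),
`psi4Integrand ≤ ∑_j [ln (1 + x_j/s) + ln (1 + y_j/s) - ln (1 + α_j(s) + β_j(s))]` (Fiedler,
`GAD/Fiedler`), the layer-cake inequality (hypothesis `LCBound`), and the scalar side, where the
same representation for the `1 × 1` data is an equality with a nonnegative integrand.
-/

set_option autoImplicit false
set_option linter.unusedSectionVars false

open Crest.Quantum
open scoped ComplexOrder Matrix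
open Filter Topology MeasureTheory

namespace Crest.Agent.GAD

namespace AD4Top

variable {d d' : Type*} [Fintype d] [DecidableEq d] [Fintype d'] [DecidableEq d']

/-! ### The two families of sorted eigenvalues -/

theorem isHermitian_armMat (a : Matrix d d' ℂ) {T : Matrix d d ℂ} (hT : T.IsHermitian) (s : ℝ) :
    (armMat a T s).IsHermitian := by
  unfold armMat
  have h1 : ((s : ℂ) • (1 : Matrix d d ℂ)).IsHermitian := by
    rw [Matrix.IsHermitian, Matrix.conjTranspose_smul, Matrix.conjTranspose_one]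
    simp
  exact Matrix.isHermitian_conjTranspose_mul_mul a (hT.add h1).inv

/-- The decreasingly sorted eigenvalues of `aᴴ a`. -/
noncomputable def gramEig (a : Matrix d d' ℂ) : Fin (Fintype.card d') → ℝ :=
  (Matrix.isHermitian_conjTranspose_mul_self a).eigenvalues₀

/-- The decreasingly sorted eigenvalues of `armMat a T s = aᴴ (T + s)⁻¹ a`. -/
noncomputable def armEig (a : Matrix d d' ℂ) {T : Matrix d d ℂ} (hT : T.IsHermitian) (s : ℝ) :
    Fin (Fintype.card d') → ℝ :=
  (isHermitian_armMat a hT s).eigenvalues₀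

theorem trace_re_nonneg_of_posSemidef {n : Type*} [Fintype n] {A : Matrix n n ℂ}
    (hA : A.PosSemidef) : 0 ≤ A.trace.re :=
  (Complex.nonneg_iff.mp hA.trace_nonneg).1

theorem gramEig_nonneg (a : Matrix d d' ℂ) (j : Fin (Fintype.card d')) : 0 ≤ gramEig a j :=
  Fiedler.eigenvalues₀_nonneg (Matrix.posSemidef_conjTranspose_mul_self a) j

theorem sum_gramEig (a : Matrix d d' ℂ) : ∑ j, gramEig a j = (a * aᴴ).trace.re := by
  have hP : (aᴴ * a).IsHermitian := Matrix.isHermitian_conjTranspose_mul_self a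
  unfold gramEig
  rw [Fiedler.sum_eigenvalues₀_eq hP, Matrix.trace_mul_comm, hP.trace_eq_sum_eigenvalues]
  simp

/-- `ln det (1 + s⁻¹ aᴴ a) = ∑_j ln (1 + x_j / s)`. -/
theorem log_det_one_add_smul_gram (a : Matrix d d' ℂ) {s : ℝ} (hs : 0 < s) :
    Real.log ((1 + ((s : ℂ)⁻¹) • (aᴴ * a)).det.re) = ∑ j, Real.log (1 + gramEig a j / s) := by
  have hP : (aᴴ * a).PosSemidef := Matrix.posSemidef_conjTranspose_mul_self a
  have hs' : (s : ℂ) ≠ 0 := by exact_mod_cast hs.ne'
  have h1 : (1 + ((s : ℂ)⁻¹) • (aᴴ * a)) =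
      ((s : ℂ)⁻¹) • (aᴴ * a + (s : ℂ) • (1 : Matrix d' d' ℂ)) := by
    rw [smul_add, smul_smul, inv_mul_cancel₀ hs', one_smul, add_comm]
  have h2 : (((s : ℂ)⁻¹) ^ (Fintype.card d') * ((∏ i, (hP.1.eigenvalues i + s) : ℝ) : ℂ)).re
      = ∏ i, (1 + hP.1.eigenvalues i / s) := by
    rw [← Complex.ofReal_inv, ← Complex.ofReal_pow, ← Complex.ofReal_mul, Complex.ofReal_re,
      ← Finset.card_univ, ← Finset.prod_const, ← Finset.prod_mul_distrib]
    refine Finset.prod_congr rfl (fun i _ => ?_)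
    field_simp
    ring
  rw [h1, Matrix.det_smul, ld_det_add_smul_one _ hP.1 s, h2, Real.log_prod]
  · unfold gramEig
    rw [← Equiv.sum_comp (Fintype.equivOfCardEq (Fintype.card_fin (Fintype.card d')))]
    refine Finset.sum_congr rfl (fun i _ => ?_)
    rw [Fiedler.eigenvalues_equiv]
  · intro i _
    have := hP.eigenvalues_nonneg i
    positivity

/-- **Fiedler step**: the integrand of the log-det representation is dominated by the
"sorted-eigenvalue" integrand. -/
theorem psi4Integrand_le (a b : Matrix d d' ℂ) {T0 T1 : Matrix d d ℂ} (hT0 : T0.PosSemidef)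
    (hT1 : T1.PosSemidef) {s : ℝ} (hs : 0 < s) :
    psi4Integrand a b T0 T1 s ≤
      ∑ j, (Real.log (1 + gramEig a j / s) + Real.log (1 + gramEig b j / s)
        - Real.log (1 + armEig a hT0.1 s j + armEig b hT1.1 s j)) := by
  have hF := fiedler_sum_log_le (𝕜 := ℂ) (posSemidef_armMat a hT0 hs) (posSemidef_armMat b hT1 hs)
  have hF' : ∑ j, Real.log (1 + armEig a hT0.1 s j + armEig b hT1.1 s j) ≤
      Real.log ((1 + armMat a T0 s + armMat b T1 s).det.re) := hF
  unfold psi4Integrand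
  rw [log_det_one_add_smul_gram a hs, log_det_one_add_smul_gram b hs, Finset.sum_sub_distrib,
    Finset.sum_add_distrib]
  linarith

/-! ### The scalar (`1 × 1`) side -/

/-- The `1 × 1` matrix with entry `c` (the shape used in `phi4`). -/
noncomputable def sc (c : ℝ) : Matrix Unit Unit ℂ := Matrix.of fun _ _ => ((c : ℝ) : ℂ)

theorem posSemidef_sc {c : ℝ} (hc : 0 ≤ c) : (sc c).PosSemidef := by
  have e : sc c = Matrix.diagonal fun _ : Unit => ((c : ℝ) : ℂ) := by
    ext i j; simp [sc]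
  rw [e]
  refine Matrix.PosSemidef.diagonal (fun _ => ?_)
  show (0 : ℂ) ≤ ((c : ℝ) : ℂ)
  exact_mod_cast hc

/-- The integrand on the right-hand side of the layer-cake bound. -/
noncomputable def scalarIntegrand (x y w0 w1 s : ℝ) : ℝ :=
  Real.log (1 + x / s) + Real.log (1 + y / s) - Real.log (1 + x / (s + w0) + y / (s + w1))

theorem scalarIntegrand_nonneg {x y w0 w1 s : ℝ} (hx : 0 ≤ x) (hy : 0 ≤ y) (hw0 : 0 ≤ w0)
    (hw1 : 0 ≤ w1) (hs : 0 < s) : 0 ≤ scalarIntegrand x y w0 w1 s := by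
  unfold scalarIntegrand
  have h1 : 0 < 1 + x / s := by positivity
  have h2 : 0 < 1 + y / s := by positivity
  have h3 : 0 < 1 + x / (s + w0) + y / (s + w1) := by positivity
  rw [← Real.log_mul h1.ne' h2.ne', sub_nonneg]
  refine Real.log_le_log h3 ?_
  have e1 : x / (s + w0) ≤ x / s := div_le_div_of_nonneg_left hx hs (by linarith)
  have e2 : y / (s + w1) ≤ y / s := div_le_div_of_nonneg_left hy hs (by linarith)
  have e3 : 0 ≤ x / s * (y / s) := by positivity
  nlinarith

/-- The log-det integrand of the `1 × 1` data is the scalar integrand. -/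
theorem psi4Integrand_sc {x y w0 w1 s : ℝ} (hx : 0 ≤ x) (hy : 0 ≤ y) (hw0 : 0 ≤ w0)
    (hw1 : 0 ≤ w1) (hs : 0 < s) :
    psi4Integrand (sc (Real.sqrt x)) (sc (Real.sqrt y)) (sc w0) (sc w1) s =
      scalarIntegrand x y w0 w1 s := by
  have hinv : ∀ w : ℝ, 0 ≤ w → (sc w + (s : ℂ) • (1 : Matrix Unit Unit ℂ))⁻¹ =
      Matrix.of fun _ _ => (((s + w)⁻¹ : ℝ) : ℂ) := by
    intro w hw
    rw [Matrix.inv_subsingleton]
    ext i j
    simp [sc, Ring.inverse_eq_inv', add_comm]
  have hgram : ∀ z : ℝ, 0 ≤ z → ((1 : Matrix Unit Unit ℂ) +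
      ((s : ℂ)⁻¹) • ((sc (Real.sqrt z))ᴴ * sc (Real.sqrt z))).det.re = 1 + z / s := by
    intro z hz
    rw [Matrix.det_unique]
    simp only [sc, Matrix.add_apply, Matrix.one_apply_eq, Matrix.smul_apply, Matrix.mul_apply,
      Matrix.conjTranspose_apply, Matrix.of_apply, Finset.univ_unique, Finset.sum_singleton,
      smul_eq_mul, Complex.star_def, Complex.conj_ofReal]
    rw [← Complex.ofReal_mul, Real.mul_self_sqrt hz, ← Complex.ofReal_inv, ← Complex.ofReal_mul]
    simp only [Complex.add_re, Complex.one_re, Complex.ofReal_re]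
    ring
  have harm : ((1 : Matrix Unit Unit ℂ) + armMat (sc (Real.sqrt x)) (sc w0) s +
      armMat (sc (Real.sqrt y)) (sc w1) s).det.re = 1 + x / (s + w0) + y / (s + w1) := by
    rw [Matrix.det_unique]
    unfold armMat
    rw [hinv w0 hw0, hinv w1 hw1]
    simp only [sc, Matrix.add_apply, Matrix.one_apply_eq, Matrix.mul_apply,
      Matrix.conjTranspose_apply, Matrix.of_apply, Finset.univ_unique, Finset.sum_singleton,
      Complex.star_def, Complex.conj_ofReal]
    have e1 : ((Real.sqrt x : ℝ) : ℂ) * (((s + w0)⁻¹ : ℝ) : ℂ) * ((Real.sqrt x : ℝ) : ℂ) =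
        ((x / (s + w0) : ℝ) : ℂ) := by
      rw [← Complex.ofReal_mul, ← Complex.ofReal_mul]
      congr 1
      have := Real.mul_self_sqrt hx
      field_simp
      nlinarith
    have e2 : ((Real.sqrt y : ℝ) : ℂ) * (((s + w1)⁻¹ : ℝ) : ℂ) * ((Real.sqrt y : ℝ) : ℂ) =
        ((y / (s + w1) : ℝ) : ℂ) := by
      rw [← Complex.ofReal_mul, ← Complex.ofReal_mul]
      congr 1
      have := Real.mul_self_sqrt hy
      field_simp
      nlinarith
    rw [e1, e2]
    simp only [Complex.add_re, Complex.one_re, Complex.ofReal_re]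
  unfold psi4Integrand scalarIntegrand
  rw [hgram x hx, hgram y hy, harm]

/-! ### The assembly -/

/-- The layer-cake bound (conclusion of `lc_main`), as a `Prop` in the sorted-eigenvalue data. -/
def LCBound {J : Type*} [Fintype J] (x y : J → ℝ) (al be : J → ℝ → ℝ) (w0 w1 : ℝ) : Prop :=
  ∫⁻ s in Set.Ioi (0:ℝ), ENNReal.ofReal (∑ j, (Real.log (1 + x j / s) + Real.log (1 + y j / s)
      - Real.log (1 + al j s + be j s)))
    ≤ ∫⁻ s in Set.Ioi (0:ℝ), ENNReal.ofReal (Real.log (1 + (∑ j, x j) / s)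
      + Real.log (1 + (∑ j, y j) / s)
      - Real.log (1 + (∑ j, x j) / (s + w0) + (∑ j, y j) / (s + w1)))

/-- **(AD4) from the layer-cake bound**, for one quadruple `(a, b, T0, T1)`. -/
theorem phi4_le_psi4_of_lc (a b : Matrix d d' ℂ) {T0 T1 : Matrix d d ℂ} (hT0 : T0.PosSemidef)
    (hT1 : T1.PosSemidef)
    (hLC : LCBound (gramEig a) (gramEig b) (fun j s => armEig a hT0.1 s j)
      (fun j s => armEig b hT1.1 s j) T0.trace.re T1.trace.re) :
    phi4 (a * aᴴ).trace.re (b * bᴴ).trace.re T0.trace.re T1.trace.re ≤ psi4 a b T0 T1 := by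
  have hx : 0 ≤ (a * aᴴ).trace.re :=
    trace_re_nonneg_of_posSemidef (Matrix.posSemidef_self_mul_conjTranspose a)
  have hy : 0 ≤ (b * bᴴ).trace.re :=
    trace_re_nonneg_of_posSemidef (Matrix.posSemidef_self_mul_conjTranspose b)
  have hw0 : 0 ≤ T0.trace.re := trace_re_nonneg_of_posSemidef hT0
  have hw1 : 0 ≤ T1.trace.re := trace_re_nonneg_of_posSemidef hT1
  -- matrix side
  have hm := (logDetRep_psi4 a b hT0 hT1).ofReal_le_lintegral
  -- scalar side
  have hrep := logDetRep_psi4 (sc (Real.sqrt (a * aᴴ).trace.re)) (sc (Real.sqrt (b * bᴴ).trace.re))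
    (posSemidef_sc hw0) (posSemidef_sc hw1)
  have hnn : ∀ s : ℝ, 0 < s → 0 ≤ psi4Integrand (sc (Real.sqrt (a * aᴴ).trace.re))
      (sc (Real.sqrt (b * bᴴ).trace.re)) (sc T0.trace.re) (sc T1.trace.re) s := by
    intro s hs
    rw [psi4Integrand_sc hx hy hw0 hw1 hs]
    exact scalarIntegrand_nonneg hx hy hw0 hw1 hs
  have hsc := hrep.lintegral_eq_ofReal hnn
  have hS0 := hrep.nonneg rfl rfl hnn
  -- Fiedler, pointwise
  have hmid : ∫⁻ s in Set.Ioi (0:ℝ), ENNReal.ofReal (psi4Integrand a b T0 T1 s) ≤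
      ∫⁻ s in Set.Ioi (0:ℝ), ENNReal.ofReal (∑ j, (Real.log (1 + gramEig a j / s)
        + Real.log (1 + gramEig b j / s) - Real.log (1 + armEig a hT0.1 s j + armEig b hT1.1 s j))) :=
    setLIntegral_mono' measurableSet_Ioi
      (fun s hs => ENNReal.ofReal_le_ofReal (psi4Integrand_le a b hT0 hT1 hs))
  -- the right-hand side of the layer-cake bound is the scalar integrand
  have hR : ∫⁻ s in Set.Ioi (0:ℝ), ENNReal.ofReal (Real.log (1 + (∑ j, gramEig a j) / s)
      + Real.log (1 + (∑ j, gramEig b j) / s)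
      - Real.log (1 + (∑ j, gramEig a j) / (s + T0.trace.re) + (∑ j, gramEig b j) / (s + T1.trace.re)))
      = ∫⁻ s in Set.Ioi (0:ℝ), ENNReal.ofReal (psi4Integrand (sc (Real.sqrt (a * aᴴ).trace.re))
      (sc (Real.sqrt (b * bᴴ).trace.re)) (sc T0.trace.re) (sc T1.trace.re) s) := by
    refine setLIntegral_congr_fun measurableSet_Ioi (fun s hs => ?_)
    rw [psi4Integrand_sc hx hy hw0 hw1 hs, sum_gramEig, sum_gramEig]
    rfl
  have hfin := (hm.trans hmid).trans (hLC.trans (hR.trans hsc).le)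
  have hle := (ENNReal.ofReal_le_ofReal_iff hS0).mp hfin
  unfold phi4 psi4
  unfold O4 sc at hle
  linarith

/-! ### The two remaining inputs, as `Prop`s -/

/-- The statement of the layer-cake theorem (`lc_main`) at the index types `Fin n`. -/
def LCMain : Prop :=
  ∀ (n : ℕ) (x y : Fin n → ℝ), (∀ j, 0 ≤ x j) → (∀ j, 0 ≤ y j) →
    ∀ (al be : Fin n → ℝ → ℝ),
      (∀ j, AEMeasurable (al j) (volume.restrict (Set.Ioi 0))) →
      (∀ j, AEMeasurable (be j) (volume.restrict (Set.Ioi 0))) →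
      (∀ j s, 0 < s → 0 ≤ al j s ∧ al j s ≤ x j / s) →
      (∀ j s, 0 < s → 0 ≤ be j s ∧ be j s ≤ y j / s) →
    ∀ (w0 w1 : ℝ), 0 ≤ w0 → 0 ≤ w1 →
      (∀ u, 0 < u → ENNReal.ofReal ((∑ j, x j) / u - w0) ≤
        ∫⁻ s in Set.Ioi (0:ℝ), ((Finset.univ.filter fun j => u < al j s).card : ENNReal)) →
      (∀ v, 0 < v → ENNReal.ofReal ((∑ j, y j) / v - w1) ≤
        ∫⁻ s in Set.Ioi (0:ℝ), ((Finset.univ.filter fun j => v < be j s).card : ENNReal)) →
      LCBound x y al be w0 w1

/-- The three facts about the sorted eigenvalues `armEig a hT s j` of `aᴴ (T + s)⁻¹ a` that the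
layer-cake theorem consumes: measurability in `s`, the bound `0 ≤ α_j(s) ≤ x_j / s`, and the
counting (inertia) bound `∫ #{j | u < α_j(s)} ds ≥ tr (a aᴴ) / u - tr T`. -/
structure ArmFacts (a : Matrix d d' ℂ) {T : Matrix d d ℂ} (hT : T.PosSemidef) : Prop where
  meas : ∀ j, AEMeasurable (fun s => armEig a hT.1 s j) (volume.restrict (Set.Ioi 0))
  bound : ∀ j s, 0 < s → 0 ≤ armEig a hT.1 s j ∧ armEig a hT.1 s j ≤ gramEig a j / s
  count : ∀ u, 0 < u → ENNReal.ofReal ((∑ j, gramEig a j) / u - T.trace.re) ≤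
    ∫⁻ s in Set.Ioi (0:ℝ), ((Finset.univ.filter fun j => u < armEig a hT.1 s j).card : ENNReal)

/-- **(AD4)** from the layer-cake theorem and the three eigenvalue facts. -/
theorem ad4_of (hLC : LCMain)
    (hArm : ∀ (d d' : Type) [Fintype d] [DecidableEq d] [Fintype d'] [DecidableEq d']
      (a : Matrix d d' ℂ) (T : Matrix d d ℂ) (hT : T.PosSemidef), ArmFacts a hT) : AD4 := by
  intro d d' _ _ _ _ a b T0 T1 hT0 hT1
  have h0 := hArm d d' a T0 hT0
  have h1 := hArm d d' b T1 hT1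
  exact phi4_le_psi4_of_lc a b hT0 hT1
    (hLC _ (gramEig a) (gramEig b) (gramEig_nonneg a) (gramEig_nonneg b) _ _ h0.meas h1.meas
      h0.bound h1.bound _ _ (trace_re_nonneg_of_posSemidef hT0) (trace_re_nonneg_of_posSemidef hT1)
      h0.count h1.count)

end AD4Top

end Crest.Agent.GAD
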