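import Mathlib

/-
helper67 — row 341 (S0534/S0535), lane B: INERTIA / COUNT module for step (3) of the (AD4) proof
(board #1597).  Mathlib only.  Everything lives in the namespace `Crest.Agent.GAD.Count67`.

Main statements (A Hermitian, `countGt hA c` = number of eigenvalues `> c`):
* `finrank_le_countGt`, `exists_submodule_countGt` : min-max in counting form;
* `countGt_le_countGt_of_map`, `countGt_le_countGt_of_imp`, `countGt_mono`, `countGt_anti`;
* `countGt_pencil_eq` : Sylvester inertia for `aᴴ P⁻¹ a` versus `a aᴴ - u P`;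
* `countGt_A0_eq_Hmat` : `#{λ_k(aᴴ (T+s)⁻¹ a) > u} = #{λ_k(a aᴴ/u - T) > s}`;
* `lintegral_countGt`, `ofReal_trace_le_lintegral_countGt` : `∫₀^∞ #{λ_k(H) > s} ds = ∑ (λ_k)₊ ≥ tr H`;
* `ofReal_le_lintegral_card_A0` : the hypothesis (h4)/(hc0) of the real-variable assembly;
* `card_filter_eigenvalues₀` : bridge to Mathlib's sorted `eigenvalues₀`.
-/

set_option autoImplicit false
set_option linter.unusedSectionVars false

namespace Crest.Agent.GAD.Count67

open Matrix
open scoped ComplexOrder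

section Basic

variable {n : Type*} [Fintype n]

/-- The real quadratic form `x ↦ re (x† A x)` of a complex matrix. -/
noncomputable def qf (A : Matrix n n ℂ) (x : n → ℂ) : ℝ := (star x ⬝ᵥ A *ᵥ x).re

/-- The squared Euclidean norm `re (x† x) = ∑ |x i|²`. -/
noncomputable def nsq (x : n → ℂ) : ℝ := (star x ⬝ᵥ x).re

lemma nsq_eq_sum (x : n → ℂ) : nsq x = ∑ i, Complex.normSq (x i) := by
  simp [nsq, dotProduct, Complex.normSq_apply]

lemma nsq_nonneg (x : n → ℂ) : 0 ≤ nsq x := by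
  rw [nsq_eq_sum]; exact Finset.sum_nonneg fun i _ => Complex.normSq_nonneg _

lemma nsq_eq_zero {x : n → ℂ} : nsq x = 0 ↔ x = 0 := by
  rw [nsq_eq_sum, Finset.sum_eq_zero_iff_of_nonneg fun i _ => Complex.normSq_nonneg _]
  constructor
  · intro h; funext i; simpa using h i (Finset.mem_univ i)
  · rintro rfl i _; simp

lemma nsq_pos {x : n → ℂ} (hx : x ≠ 0) : 0 < nsq x :=
  lt_of_le_of_ne (nsq_nonneg x) fun h => hx (nsq_eq_zero.mp h.symm)

@[simp] lemma nsq_zero : nsq (0 : n → ℂ) = 0 := nsq_eq_zero.mpr rfl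

@[simp] lemma qf_zero_vec (A : Matrix n n ℂ) : qf A 0 = 0 := by simp [qf]

lemma qf_add (A B : Matrix n n ℂ) (x : n → ℂ) : qf (A + B) x = qf A x + qf B x := by
  simp [qf, add_mulVec, dotProduct_add]

lemma qf_sub (A B : Matrix n n ℂ) (x : n → ℂ) : qf (A - B) x = qf A x - qf B x := by
  simp [qf, sub_mulVec, dotProduct_sub]

lemma qf_smul (c : ℝ) (A : Matrix n n ℂ) (x : n → ℂ) : qf ((c : ℂ) • A) x = c * qf A x := by
  simp [qf, smul_mulVec, dotProduct_smul]

lemma qf_one [DecidableEq n] (x : n → ℂ) : qf (1 : Matrix n n ℂ) x = nsq x := by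
  simp [qf, nsq]

lemma qf_nonneg {A : Matrix n n ℂ} (hA : A.PosSemidef) (x : n → ℂ) : 0 ≤ qf A x :=
  hA.re_dotProduct_nonneg x

/-- `qf (Lᴴ M L) x = qf M (L x)` for a rectangular `L`. -/
lemma qf_conj {m : Type*} [Fintype m] (M : Matrix m m ℂ) (L : Matrix m n ℂ) (x : n → ℂ) :
    qf (Lᴴ * M * L) x = qf M (L *ᵥ x) := by
  simp only [qf]
  rw [star_mulVec, ← mulVec_mulVec, ← mulVec_mulVec, dotProduct_mulVec]

lemma nsq_mulVec {m : Type*} [Fintype m] [DecidableEq m] (L : Matrix m n ℂ) (x : n → ℂ) :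
    nsq (L *ᵥ x) = qf (Lᴴ * L) x := by
  have := qf_conj (1 : Matrix m m ℂ) L x
  rw [Matrix.mul_one] at this
  rw [this, qf_one]

end Basic

section Spectral

variable {n : Type*} [Fintype n] [DecidableEq n]

/-- Coordinates of `x` in the eigenbasis of the Hermitian matrix `A`. -/
noncomputable def eigCoord {A : Matrix n n ℂ} (hA : A.IsHermitian) (x : n → ℂ) : n → ℂ :=
  star (hA.eigenvectorUnitary : Matrix n n ℂ) *ᵥ x

lemma nsq_eq_sum_eig {A : Matrix n n ℂ} (hA : A.IsHermitian) (x : n → ℂ) :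
    nsq x = ∑ i, Complex.normSq (eigCoord hA x i) := by
  rw [← nsq_eq_sum, eigCoord, nsq_mulVec, star_eq_conjTranspose, conjTranspose_conjTranspose]
  have h : (hA.eigenvectorUnitary : Matrix n n ℂ) * (hA.eigenvectorUnitary : Matrix n n ℂ)ᴴ = 1 := by
    rw [← star_eq_conjTranspose]; exact Unitary.coe_mul_star_self _
  rw [h, qf_one]

lemma qf_eq_sum_eig {A : Matrix n n ℂ} (hA : A.IsHermitian) (x : n → ℂ) :
    qf A x = ∑ i, hA.eigenvalues i * Complex.normSq (eigCoord hA x i) := by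
  have hs := hA.spectral_theorem
  rw [Unitary.conjStarAlgAut_apply] at hs
  have h1 : qf A x = qf (diagonal (RCLike.ofReal ∘ hA.eigenvalues : n → ℂ)) (eigCoord hA x) := by
    conv_lhs => rw [hs]
    rw [eigCoord, ← qf_conj, star_eq_conjTranspose, conjTranspose_conjTranspose]
  rw [h1]
  simp only [qf, dotProduct, mulVec_diagonal, Function.comp_apply, Pi.star_apply, Complex.re_sum]
  refine Finset.sum_congr rfl fun i _ => ?_
  simp [Complex.normSq_apply]
  ring

end Spectral


section Count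

variable {n : Type*} [Fintype n] [DecidableEq n]

/-- Number of eigenvalues (with multiplicity) of the Hermitian matrix `A` that are `> c`. -/
noncomputable def countGt {A : Matrix n n ℂ} (hA : A.IsHermitian) (c : ℝ) : ℕ :=
  (Finset.univ.filter fun i => c < hA.eigenvalues i).card

/-- **Min-max, counting form (upper bound on dimensions).** If the form of `A` is `> c` on the
nonzero vectors of a subspace `V`, then `A` has at least `dim V` eigenvalues `> c`. -/
theorem finrank_le_countGt {A : Matrix n n ℂ} (hA : A.IsHermitian) (c : ℝ)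
    (V : Submodule ℂ (n → ℂ)) (hV : ∀ x ∈ V, x ≠ 0 → c * nsq x < qf A x) :
    Module.finrank ℂ V ≤ countGt hA c := by
  classical
  set S : Finset n := Finset.univ.filter fun i => c < hA.eigenvalues i with hS
  -- the coordinates along the eigenvectors with eigenvalue `> c`
  let φ : (n → ℂ) →ₗ[ℂ] (S → ℂ) :=
    (LinearMap.funLeft ℂ ℂ (Subtype.val : S → n)).comp
      (Matrix.mulVecLin (star (hA.eigenvectorUnitary : Matrix n n ℂ)))
  have hφ : ∀ x (i : S), φ x i = eigCoord hA x i.1 := fun x i => rfl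
  have hinj : Function.Injective (φ.comp V.subtype) := by
    rw [← LinearMap.ker_eq_bot, LinearMap.ker_eq_bot']
    rintro ⟨x, hx⟩ h0
    by_contra hne
    have hx0 : x ≠ 0 := fun h => hne (by simp [h])
    have hlt := hV x hx hx0
    have hzero : ∀ i ∈ S, eigCoord hA x i = 0 := by
      intro i hi
      have := congrFun h0 ⟨i, hi⟩
      simpa [hφ] using this
    rw [qf_eq_sum_eig hA, nsq_eq_sum_eig hA, Finset.mul_sum] at hlt
    have hle : ∑ i, hA.eigenvalues i * Complex.normSq (eigCoord hA x i)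
        ≤ ∑ i, c * Complex.normSq (eigCoord hA x i) := by
      refine Finset.sum_le_sum fun i _ => ?_
      by_cases hi : i ∈ S
      · simp [hzero i hi]
      · have : hA.eigenvalues i ≤ c := by
          simpa [hS] using hi
        exact mul_le_mul_of_nonneg_right this (Complex.normSq_nonneg _)
    exact absurd hlt (not_lt.mpr hle)
  have h1 := LinearMap.finrank_le_finrank_of_injective hinj
  have h2 : Module.finrank ℂ (S → ℂ) = S.card := by
    rw [Module.finrank_fintype_fun_eq_card, Fintype.card_coe]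
  rw [h2] at h1
  exact h1

lemma exists_pos_le_of_finset {ι : Type*} (S : Finset ι) (f : ι → ℝ) (h : ∀ i ∈ S, 0 < f i) :
    ∃ δ > 0, ∀ i ∈ S, δ ≤ f i := by
  rcases S.eq_empty_or_nonempty with rfl | hne
  · exact ⟨1, one_pos, by simp⟩
  · obtain ⟨j, hj, hmin⟩ := S.exists_min_image f hne
    exact ⟨f j, h j hj, hmin⟩

/-- **Min-max, counting form (existence).** There is a subspace of dimension `countGt hA c` on
which the form of `A` is `≥ c + δ` for some `δ > 0`. -/
theorem exists_submodule_countGt {A : Matrix n n ℂ} (hA : A.IsHermitian) (c : ℝ) :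
    ∃ (V : Submodule ℂ (n → ℂ)) (δ : ℝ), 0 < δ ∧ Module.finrank ℂ V = countGt hA c ∧
      ∀ x ∈ V, (c + δ) * nsq x ≤ qf A x := by
  classical
  set S : Finset n := Finset.univ.filter fun i => c < hA.eigenvalues i with hS
  obtain ⟨δ, hδ, hδS⟩ := exists_pos_le_of_finset S (fun i => hA.eigenvalues i - c)
    (fun i hi => by
      have : c < hA.eigenvalues i := by simpa [hS] using hi
      linarith)
  -- extension by zero, then rotate to the eigenbasis
  let ext : (S → ℂ) →ₗ[ℂ] (n → ℂ) :=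
    { toFun := fun w i => if h : i ∈ S then w ⟨i, h⟩ else 0
      map_add' := by
        intro w w'; funext i; by_cases h : i ∈ S <;> simp [h]
      map_smul' := by
        intro r w; funext i; by_cases h : i ∈ S <;> simp [h] }
  have hext_mem : ∀ w (i : n) (h : i ∈ S), ext w i = w ⟨i, h⟩ := fun w i h => by
    show (if h : i ∈ S then w ⟨i, h⟩ else 0) = _
    simp [h]
  have hext_not : ∀ w (i : n), i ∉ S → ext w i = 0 := fun w i h => by
    show (if h : i ∈ S then w ⟨i, h⟩ else 0) = _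
    simp [h]
  let ψ : (S → ℂ) →ₗ[ℂ] (n → ℂ) :=
    (Matrix.mulVecLin (hA.eigenvectorUnitary : Matrix n n ℂ)).comp ext
  have hcoord : ∀ w, eigCoord hA (ψ w) = ext w := by
    intro w
    show star (hA.eigenvectorUnitary : Matrix n n ℂ) *ᵥ
      ((hA.eigenvectorUnitary : Matrix n n ℂ) *ᵥ ext w) = ext w
    rw [mulVec_mulVec, Unitary.coe_star_mul_self, one_mulVec]
  have hinj : Function.Injective ψ := by
    rw [← LinearMap.ker_eq_bot, LinearMap.ker_eq_bot']
    intro w hw
    have h0 : ext w = 0 := by rw [← hcoord, hw]; simp [eigCoord]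
    funext i
    have := congrFun h0 i.1
    rw [hext_mem w i.1 i.2] at this
    simpa using this
  refine ⟨LinearMap.range ψ, δ, hδ, ?_, ?_⟩
  · rw [LinearMap.finrank_range_of_inj hinj, Module.finrank_fintype_fun_eq_card, Fintype.card_coe]
    rfl
  · rintro x ⟨w, rfl⟩
    rw [qf_eq_sum_eig hA, nsq_eq_sum_eig hA, Finset.mul_sum, hcoord]
    refine Finset.sum_le_sum fun i _ => ?_
    by_cases hi : i ∈ S
    · have := hδS i hi
      exact mul_le_mul_of_nonneg_right (by linarith) (Complex.normSq_nonneg _)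
    · simp [hext_not w i hi]


/-- **Transfer of counts along a linear map.** If `L` maps every vector on which the form of `A`
is `> c` to a vector on which the form of `B` is `> c'`, then `B` has at least as many eigenvalues
`> c'` as `A` has eigenvalues `> c`. -/
theorem countGt_le_countGt_of_map {m : Type*} [Fintype m] [DecidableEq m]
    {A : Matrix n n ℂ} (hA : A.IsHermitian) {B : Matrix m m ℂ} (hB : B.IsHermitian) (c c' : ℝ)
    (L : (n → ℂ) →ₗ[ℂ] (m → ℂ))
    (h : ∀ x, c * nsq x < qf A x → c' * nsq (L x) < qf B (L x)) :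
    countGt hA c ≤ countGt hB c' := by
  obtain ⟨V, δ, hδ, hfin, hV⟩ := exists_submodule_countGt hA c
  have hpos : ∀ x ∈ V, x ≠ 0 → c * nsq x < qf A x := by
    intro x hx hx0
    have := hV x hx
    have hn := nsq_pos hx0
    nlinarith
  have hinj : Function.Injective (L.comp V.subtype) := by
    rw [← LinearMap.ker_eq_bot, LinearMap.ker_eq_bot']
    rintro ⟨x, hx⟩ h0
    by_contra hne
    have hx0 : x ≠ 0 := fun h => hne (by simp [h])
    have := h x (hpos x hx hx0)
    have h0' : L x = 0 := h0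
    rw [h0'] at this
    simp at this
  rw [← hfin, ← LinearMap.finrank_range_of_inj hinj]
  apply finrank_le_countGt hB c'
  rintro z ⟨⟨x, hx⟩, rfl⟩ hz
  have hx0 : x ≠ 0 := by
    rintro rfl
    exact hz (by simp)
  exact h x (hpos x hx hx0)

/-- Comparison of counts on the same space. -/
theorem countGt_le_countGt_of_imp {A B : Matrix n n ℂ} (hA : A.IsHermitian) (hB : B.IsHermitian)
    (c c' : ℝ) (h : ∀ x, c * nsq x < qf A x → c' * nsq x < qf B x) :
    countGt hA c ≤ countGt hB c' :=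
  countGt_le_countGt_of_map hA hB c c' LinearMap.id h

/-- The count does not depend on the proof of hermiticity, nor on the matrix up to equality. -/
theorem countGt_congr {A B : Matrix n n ℂ} (hA : A.IsHermitian) (hB : B.IsHermitian) (h : A = B)
    (c : ℝ) : countGt hA c = countGt hB c := by
  subst h; rfl

/-- **Loewner monotonicity of the counting function.** -/
theorem countGt_mono {A B : Matrix n n ℂ} (hA : A.IsHermitian) (hB : B.IsHermitian)
    (hAB : (B - A).PosSemidef) (c : ℝ) : countGt hA c ≤ countGt hB c := by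
  apply countGt_le_countGt_of_imp
  intro x hx
  have h1 := qf_nonneg hAB x
  rw [qf_sub] at h1
  linarith

/-- The counting function is antitone in the threshold. -/
theorem countGt_anti {A : Matrix n n ℂ} (hA : A.IsHermitian) {c c' : ℝ} (h : c ≤ c') :
    countGt hA c' ≤ countGt hA c := by
  apply Finset.card_le_card
  intro i hi
  simp only [Finset.mem_filter, Finset.mem_univ, true_and] at hi ⊢
  exact lt_of_le_of_lt h hi


end Count

section Inertia

variable {d e : Type*} [Fintype d] [DecidableEq d] [Fintype e] [DecidableEq e]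

omit [DecidableEq e] in
lemma inertia_aux1 (a : Matrix d e ℂ) (P : Matrix d d ℂ) (hP : IsUnit P.det) (u : ℝ) :
    (a * aᴴ - (u : ℂ) • P) * P⁻¹ * (a * aᴴ - (u : ℂ) • P)
      = a * (aᴴ * P⁻¹ * a) * aᴴ - ((2 * u : ℝ) : ℂ) • (a * aᴴ) + ((u * u : ℝ) : ℂ) • P := by
  have h1 : P * P⁻¹ = 1 := Matrix.mul_nonsing_inv P hP
  have h2 : P⁻¹ * P = 1 := Matrix.nonsing_inv_mul P hP
  have e1 : (a * aᴴ - (u : ℂ) • P) * P⁻¹ = a * aᴴ * P⁻¹ - (u : ℂ) • (1 : Matrix d d ℂ) := by
    rw [Matrix.sub_mul, Matrix.smul_mul, h1]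
  rw [e1, Matrix.sub_mul, Matrix.mul_sub, Matrix.mul_sub, Matrix.smul_mul, Matrix.one_mul,
    Matrix.mul_smul, Matrix.mul_assoc (a * aᴴ) P⁻¹ P, h2, Matrix.mul_one, Matrix.smul_mul,
    Matrix.one_mul, smul_smul]
  have e2 : a * aᴴ * P⁻¹ * (a * aᴴ) = a * (aᴴ * P⁻¹ * a) * aᴴ := by
    simp only [Matrix.mul_assoc]
  rw [e2]
  push_cast
  module


omit [Fintype d] [DecidableEq d] in
lemma inertia_aux2 (B : Matrix e e ℂ) (hB : B.IsHermitian) (u : ℝ) :
    (B - (u : ℂ) • (1 : Matrix e e ℂ))ᴴ * (B - (u : ℂ) • (1 : Matrix e e ℂ))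
      = B * B - ((2 * u : ℝ) : ℂ) • B + ((u * u : ℝ) : ℂ) • (1 : Matrix e e ℂ) := by
  have h : (B - (u : ℂ) • (1 : Matrix e e ℂ))ᴴ = B - (u : ℂ) • (1 : Matrix e e ℂ) := by
    rw [conjTranspose_sub, conjTranspose_smul, conjTranspose_one, hB.eq]
    simp
  rw [h, Matrix.sub_mul, Matrix.mul_sub, Matrix.mul_sub, Matrix.smul_mul, Matrix.one_mul,
    Matrix.mul_smul, Matrix.mul_one, Matrix.smul_mul, Matrix.one_mul, smul_smul]
  push_cast
  module

omit [DecidableEq e] in
lemma inertia_aux3 (a : Matrix d e ℂ) (P : Matrix d d ℂ) (hP : IsUnit P.det)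
    (hPh : P⁻¹.IsHermitian) (u : ℝ) :
    (P⁻¹ * a)ᴴ * (a * aᴴ - (u : ℂ) • P) * (P⁻¹ * a)
      = (aᴴ * P⁻¹ * a) * (aᴴ * P⁻¹ * a) - (u : ℂ) • (aᴴ * P⁻¹ * a) := by
  have h1 : P * P⁻¹ = 1 := Matrix.mul_nonsing_inv P hP
  rw [conjTranspose_mul, hPh.eq, Matrix.mul_sub, Matrix.sub_mul, Matrix.mul_smul, Matrix.smul_mul]
  congr 1
  · simp only [Matrix.mul_assoc]
  · congr 1
    rw [Matrix.mul_assoc aᴴ P⁻¹ P, Matrix.mul_assoc, Matrix.mul_assoc, ← Matrix.mul_assoc P P⁻¹ a,
      h1, Matrix.one_mul, Matrix.mul_assoc]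

/-- **Inertia, direction 1.** For `P` positive definite and `u > 0`: the number of positive
eigenvalues of `a aᴴ - u P` is at most the number of eigenvalues `> u` of `aᴴ P⁻¹ a`. -/
theorem countGt_pencil_le (a : Matrix d e ℂ) {P : Matrix d d ℂ} (hP : P.PosDef) {u : ℝ}
    (hu : 0 < u) (h1 : (a * aᴴ - (u : ℂ) • P).IsHermitian) (h2 : (aᴴ * P⁻¹ * a).IsHermitian) :
    countGt h1 0 ≤ countGt h2 u := by
  apply countGt_le_countGt_of_map h1 h2 0 u (Matrix.mulVecLin aᴴ)
  intro x hx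
  rw [Matrix.mulVecLin_apply, nsq_mulVec, ← qf_conj, conjTranspose_conjTranspose]
  have hpsd := hP.inv.posSemidef.conjTranspose_mul_mul_same (a * aᴴ - (u : ℂ) • P)
  rw [h1.eq, inertia_aux1 a P ((Matrix.isUnit_iff_isUnit_det P).mp hP.isUnit) u] at hpsd
  have h0 := qf_nonneg hpsd x
  rw [qf_add, qf_sub, qf_smul, qf_smul] at h0
  rw [qf_sub, qf_smul, zero_mul] at hx
  nlinarith

/-- **Inertia, direction 2.** -/
theorem countGt_le_pencil (a : Matrix d e ℂ) {P : Matrix d d ℂ} (hP : P.PosDef) {u : ℝ}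
    (hu : 0 < u) (h1 : (a * aᴴ - (u : ℂ) • P).IsHermitian) (h2 : (aᴴ * P⁻¹ * a).IsHermitian) :
    countGt h2 u ≤ countGt h1 0 := by
  apply countGt_le_countGt_of_map h2 h1 u 0 (Matrix.mulVecLin (P⁻¹ * a))
  intro z hz
  rw [Matrix.mulVecLin_apply, ← qf_conj, inertia_aux3 a P ((Matrix.isUnit_iff_isUnit_det P).mp hP.isUnit) hP.inv.isHermitian u,
    zero_mul, qf_sub, qf_smul]
  have hpsd := posSemidef_conjTranspose_mul_self
    (aᴴ * P⁻¹ * a - (u : ℂ) • (1 : Matrix e e ℂ))
  rw [inertia_aux2 _ h2 u] at hpsd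
  have h0 := qf_nonneg hpsd z
  rw [qf_add, qf_sub, qf_smul, qf_smul, qf_one] at h0
  nlinarith

/-- **Sylvester inertia for the resolvent compression**: for `P` positive definite, `u > 0`,
`#{eigenvalues of aᴴ P⁻¹ a that are > u} = #{positive eigenvalues of a aᴴ - u P}`. -/
theorem countGt_pencil_eq (a : Matrix d e ℂ) {P : Matrix d d ℂ} (hP : P.PosDef) {u : ℝ}
    (hu : 0 < u) (h1 : (a * aᴴ - (u : ℂ) • P).IsHermitian) (h2 : (aᴴ * P⁻¹ * a).IsHermitian) :
    countGt h2 u = countGt h1 0 :=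
  le_antisymm (countGt_le_pencil a hP hu h1 h2) (countGt_pencil_le a hP hu h1 h2)

end Inertia

section Sorted

variable {n : Type*} [Fintype n] [DecidableEq n]

/-- Bridge to Mathlib's sorted eigenvalues `eigenvalues₀`. -/
theorem card_filter_eigenvalues₀ {A : Matrix n n ℂ} (hA : A.IsHermitian) (c : ℝ) :
    (Finset.univ.filter fun k : Fin (Fintype.card n) => c < hA.eigenvalues₀ k).card
      = countGt hA c := by
  unfold countGt
  symm
  apply Finset.card_bij (fun i _ => (Fintype.equivOfCardEq (Fintype.card_fin _)).symm i)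
  · intro i hi
    rw [Finset.mem_filter] at hi ⊢
    exact ⟨Finset.mem_univ _, hi.2⟩
  · intro i _ j _ h
    exact (Equiv.injective _) h
  · intro k hk
    rw [Finset.mem_filter] at hk
    refine ⟨(Fintype.equivOfCardEq (Fintype.card_fin _)) k, ?_, by simp⟩
    rw [Finset.mem_filter]
    refine ⟨Finset.mem_univ _, ?_⟩
    show c < hA.eigenvalues₀ ((Fintype.equivOfCardEq (Fintype.card_fin _)).symm
      ((Fintype.equivOfCardEq (Fintype.card_fin _)) k))
    rw [Equiv.symm_apply_apply]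
    exact hk.2

/-- The counting function as a sum of indicators. -/
theorem countGt_eq_sum {A : Matrix n n ℂ} (hA : A.IsHermitian) (c : ℝ) :
    (countGt hA c : ENNReal) = ∑ i, (if c < hA.eigenvalues i then (1 : ENNReal) else 0) := by
  unfold countGt
  rw [Finset.card_filter]
  push_cast
  rfl

end Sorted

section Integral

open MeasureTheory

lemma lintegral_Ioi_ite (c : ℝ) :
    ∫⁻ s in Set.Ioi (0 : ℝ), (if s < c then (1 : ENNReal) else 0) = ENNReal.ofReal c := by
  have h : (fun s : ℝ => if s < c then (1 : ENNReal) else 0)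
      = Set.indicator (Set.Iio c) (fun _ => 1) := by
    funext s; simp [Set.indicator, Set.mem_Iio]
  rw [h, lintegral_indicator measurableSet_Iio, setLIntegral_one,
    Measure.restrict_apply measurableSet_Iio]
  have h2 : Set.Iio c ∩ Set.Ioi (0 : ℝ) = Set.Ioo 0 c := by
    ext x; simp [and_comm]
  rw [h2, Real.volume_Ioo, sub_zero]

variable {n : Type*} [Fintype n] [DecidableEq n]

/-- `∫₀^∞ #{k : λ_k(H) > s} ds = ∑_k (λ_k(H))₊`. -/
theorem lintegral_countGt {H : Matrix n n ℂ} (hH : H.IsHermitian) :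
    ∫⁻ s in Set.Ioi (0 : ℝ), (countGt hH s : ENNReal) = ∑ i, ENNReal.ofReal (hH.eigenvalues i) := by
  simp_rw [countGt_eq_sum]
  rw [lintegral_finsetSum]
  · exact Finset.sum_congr rfl fun i _ => lintegral_Ioi_ite _
  · intro i _
    exact Measurable.ite measurableSet_Iio measurable_const measurable_const

lemma ofReal_sum_le {ι : Type*} (S : Finset ι) (f : ι → ℝ) :
    ENNReal.ofReal (∑ i ∈ S, f i) ≤ ∑ i ∈ S, ENNReal.ofReal (f i) := by
  classical
  induction S using Finset.induction_on with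
  | empty => simp
  | insert i S hi ih =>
    rw [Finset.sum_insert hi, Finset.sum_insert hi]
    exact (ENNReal.ofReal_add_le).trans (add_le_add le_rfl ih)

/-- `∫₀^∞ #{k : λ_k(H) > s} ds ≥ tr H`. -/
theorem ofReal_trace_le_lintegral_countGt {H : Matrix n n ℂ} (hH : H.IsHermitian) :
    ENNReal.ofReal H.trace.re ≤ ∫⁻ s in Set.Ioi (0 : ℝ), (countGt hH s : ENNReal) := by
  rw [lintegral_countGt hH]
  have h : H.trace.re = ∑ i, hH.eigenvalues i := by
    rw [hH.trace_eq_sum_eigenvalues]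
    simp
  rw [h]
  exact ofReal_sum_le _ _

end Integral

section Pencil

open MeasureTheory

variable {d e : Type*} [Fintype d] [DecidableEq d] [Fintype e] [DecidableEq e]

/-- The resolvent compression `A0(s) = aᴴ (T + s)⁻¹ a` of step (0)/(3). -/
noncomputable def A0 (a : Matrix d e ℂ) (T : Matrix d d ℂ) (s : ℝ) : Matrix e e ℂ :=
  aᴴ * (T + (s : ℂ) • (1 : Matrix d d ℂ))⁻¹ * a

/-- The Hermitian pencil `a aᴴ - u (T + s)`. -/
noncomputable def pencil (a : Matrix d e ℂ) (T : Matrix d d ℂ) (u s : ℝ) : Matrix d d ℂ :=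
  a * aᴴ - (u : ℂ) • (T + (s : ℂ) • (1 : Matrix d d ℂ))

/-- The Hermitian matrix `H(u) = a aᴴ / u - T` whose eigenvalues are the `ξ_k(u)`. -/
noncomputable def Hmat (a : Matrix d e ℂ) (T : Matrix d d ℂ) (u : ℝ) : Matrix d d ℂ :=
  ((1 / u : ℝ) : ℂ) • (a * aᴴ) - T

omit [DecidableEq e] in
lemma isHermitian_add_smul_one {T : Matrix d d ℂ} (hT : T.IsHermitian) (s : ℝ) :
    (T + (s : ℂ) • (1 : Matrix d d ℂ)).IsHermitian := by
  apply hT.add
  rw [Matrix.IsHermitian, conjTranspose_smul, conjTranspose_one]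
  simp

lemma isHermitian_A0 (a : Matrix d e ℂ) {T : Matrix d d ℂ} (hT : T.IsHermitian) (s : ℝ) :
    (A0 a T s).IsHermitian :=
  isHermitian_conjTranspose_mul_mul a (isHermitian_add_smul_one hT s).inv

omit [DecidableEq e] in
lemma isHermitian_pencil (a : Matrix d e ℂ) {T : Matrix d d ℂ} (hT : T.IsHermitian) (u s : ℝ) :
    (pencil a T u s).IsHermitian := by
  apply (isHermitian_mul_conjTranspose_self a).sub
  rw [Matrix.IsHermitian, conjTranspose_smul, (isHermitian_add_smul_one hT s).eq]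
  simp

omit [DecidableEq d] [DecidableEq e] in
lemma isHermitian_Hmat (a : Matrix d e ℂ) {T : Matrix d d ℂ} (hT : T.IsHermitian) (u : ℝ) :
    (Hmat a T u).IsHermitian := by
  apply IsHermitian.sub _ hT
  rw [Matrix.IsHermitian, conjTranspose_smul, (isHermitian_mul_conjTranspose_self a).eq]
  simp

omit [DecidableEq e] in
lemma posDef_add_smul_one {T : Matrix d d ℂ} (hT : T.PosSemidef) {s : ℝ} (hs : 0 < s) :
    (T + (s : ℂ) • (1 : Matrix d d ℂ)).PosDef := by
  apply Matrix.PosDef.posSemidef_add hT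
  exact Matrix.PosDef.one.smul (a := (s : ℂ)) (by exact_mod_cast hs)

omit [DecidableEq e] in
lemma qf_pencil (a : Matrix d e ℂ) (T : Matrix d d ℂ) (u s : ℝ) (x : d → ℂ) :
    qf (pencil a T u s) x = qf (a * aᴴ) x - u * (qf T x + s * nsq x) := by
  unfold pencil
  rw [qf_sub, qf_smul, qf_add, qf_smul, qf_one]

omit [DecidableEq d] [DecidableEq e] in
lemma qf_Hmat (a : Matrix d e ℂ) (T : Matrix d d ℂ) (u : ℝ) (x : d → ℂ) :
    qf (Hmat a T u) x = (1 / u) * qf (a * aᴴ) x - qf T x := by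
  unfold Hmat
  rw [qf_sub, qf_smul]

/-- **Inertia** in the form used by step (3): for `T` PSD, `s, u > 0`,
`#{k : λ_k(aᴴ (T+s)⁻¹ a) > u} = #{positive eigenvalues of a aᴴ - u (T + s)}`. -/
theorem countGt_A0_eq_pencil (a : Matrix d e ℂ) {T : Matrix d d ℂ} (hT : T.PosSemidef)
    {s u : ℝ} (hs : 0 < s) (hu : 0 < u) :
    countGt (isHermitian_A0 a hT.isHermitian s) u
      = countGt (isHermitian_pencil a hT.isHermitian u s) 0 :=
  countGt_pencil_eq a (posDef_add_smul_one hT hs) hu _ _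

omit [DecidableEq e] in
/-- `#{positive eigenvalues of a aᴴ - u (T + s)} = #{k : λ_k(a aᴴ / u - T) > s}` for `u > 0`. -/
theorem countGt_pencil_eq_Hmat (a : Matrix d e ℂ) {T : Matrix d d ℂ} (hT : T.IsHermitian)
    {u : ℝ} (hu : 0 < u) (s : ℝ) :
    countGt (isHermitian_pencil a hT u s) 0 = countGt (isHermitian_Hmat a hT u) s := by
  apply le_antisymm
  · apply countGt_le_countGt_of_imp
    intro x hx
    rw [qf_pencil, zero_mul] at hx
    rw [qf_Hmat]
    have h1 : qf (a * aᴴ) x = u * ((1 / u) * qf (a * aᴴ) x) := by field_simp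
    rw [h1] at hx
    nlinarith
  · apply countGt_le_countGt_of_imp
    intro x hx
    rw [qf_Hmat] at hx
    rw [qf_pencil, zero_mul]
    have h1 : qf (a * aᴴ) x = u * ((1 / u) * qf (a * aᴴ) x) := by field_simp
    rw [h1]
    nlinarith

/-- **Step (3) of the (AD4) proof.** For `T` PSD, `s, u > 0`:
`#{k : λ_k(aᴴ (T+s)⁻¹ a) > u} = #{k : λ_k(a aᴴ / u - T) > s}`. -/
theorem countGt_A0_eq_Hmat (a : Matrix d e ℂ) {T : Matrix d d ℂ} (hT : T.PosSemidef)
    {s u : ℝ} (hs : 0 < s) (hu : 0 < u) :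
    countGt (isHermitian_A0 a hT.isHermitian s) u = countGt (isHermitian_Hmat a hT.isHermitian u) s :=
  (countGt_A0_eq_pencil a hT hs hu).trans (countGt_pencil_eq_Hmat a hT.isHermitian hu s)

omit [DecidableEq d] [DecidableEq e] in
lemma trace_Hmat (a : Matrix d e ℂ) (T : Matrix d d ℂ) (u : ℝ) :
    (Hmat a T u).trace.re = (a * aᴴ).trace.re / u - T.trace.re := by
  unfold Hmat
  rw [trace_sub, trace_smul, Complex.sub_re, smul_eq_mul, Complex.re_ofReal_mul]
  ring

/-- **(h4)/(hc0): the one-sided inertia + trace bound**, in countGt form. -/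
theorem ofReal_le_lintegral_countGt_A0 (a : Matrix d e ℂ) {T : Matrix d d ℂ} (hT : T.PosSemidef)
    {u : ℝ} (hu : 0 < u) :
    ENNReal.ofReal ((a * aᴴ).trace.re / u - T.trace.re)
      ≤ ∫⁻ s in Set.Ioi (0 : ℝ), (countGt (isHermitian_A0 a hT.isHermitian s) u : ENNReal) := by
  rw [← trace_Hmat]
  refine (ofReal_trace_le_lintegral_countGt (isHermitian_Hmat a hT.isHermitian u)).trans ?_
  apply setLIntegral_mono' measurableSet_Ioi
  intro s hs
  rw [countGt_A0_eq_Hmat a hT hs hu]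

/-- **(h4)/(hc0)** in the `eigenvalues₀` (sorted, `Fin (card e)`-indexed) form. -/
theorem ofReal_le_lintegral_card_A0 (a : Matrix d e ℂ) {T : Matrix d d ℂ} (hT : T.PosSemidef)
    {u : ℝ} (hu : 0 < u) :
    ENNReal.ofReal ((a * aᴴ).trace.re / u - T.trace.re)
      ≤ ∫⁻ s in Set.Ioi (0 : ℝ),
          ((Finset.univ.filter fun k : Fin (Fintype.card e) =>
            u < (isHermitian_A0 a hT.isHermitian s).eigenvalues₀ k).card : ENNReal) := by
  simp_rw [card_filter_eigenvalues₀]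
  exact ofReal_le_lintegral_countGt_A0 a hT hu

end Pencil

/-! ## v2: shift / scale, sorted eigenvalues (Weyl), Loewner facts for `A0 s` -/

section Shift

variable {n : Type*} [Fintype n] [DecidableEq n]

theorem countGt_eq_of_iff {A B : Matrix n n ℂ} (hA : A.IsHermitian) (hB : B.IsHermitian)
    (c c' : ℝ) (h : ∀ x, c * nsq x < qf A x ↔ c' * nsq x < qf B x) :
    countGt hA c = countGt hB c' :=
  le_antisymm (countGt_le_countGt_of_imp hA hB c c' fun x => (h x).mp)
    (countGt_le_countGt_of_imp hB hA c' c fun x => (h x).mpr)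

/-- Shift: `#{λ(H - c) > c'} = #{λ(H) > c' + c}`. -/
theorem countGt_sub_smul_one {H : Matrix n n ℂ} (hH : H.IsHermitian) (c c' : ℝ)
    (h : (H - (c : ℂ) • (1 : Matrix n n ℂ)).IsHermitian) :
    countGt h c' = countGt hH (c' + c) := by
  apply countGt_eq_of_iff
  intro x
  rw [qf_sub, qf_smul, qf_one]
  constructor <;> intro hx <;> linarith

/-- Scaling by `r > 0`: `#{λ(r H) > r c} = #{λ(H) > c}`. -/
theorem countGt_smul {H : Matrix n n ℂ} (hH : H.IsHermitian) {r : ℝ} (hr : 0 < r) (c : ℝ)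
    (h : ((r : ℂ) • H).IsHermitian) :
    countGt h (r * c) = countGt hH c := by
  apply countGt_eq_of_iff
  intro x
  rw [qf_smul]
  constructor <;> intro hx
  · nlinarith
  · nlinarith

end Shift

section SortedMono

lemma lt_iff_lt_card_of_antitone {m : ℕ} (α : Fin m → ℝ) (hα : Antitone α) (c : ℝ) (k : Fin m) :
    c < α k ↔ (k : ℕ) < (Finset.univ.filter fun j => c < α j).card := by
  constructor
  · intro hk
    have hsub : Finset.Iic k ⊆ Finset.univ.filter fun j => c < α j := by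
      intro j hj
      rw [Finset.mem_Iic] at hj
      rw [Finset.mem_filter]
      exact ⟨Finset.mem_univ _, lt_of_lt_of_le hk (hα hj)⟩
    have := Finset.card_le_card hsub
    rw [Fin.card_Iic] at this
    omega
  · intro hk
    by_contra hc
    have hsub : (Finset.univ.filter fun j => c < α j) ⊆ Finset.Iio k := by
      intro j hj
      rw [Finset.mem_filter] at hj
      rw [Finset.mem_Iio]
      by_contra hjk
      exact hc (lt_of_lt_of_le hj.2 (hα (not_lt.mp hjk)))
    have := Finset.card_le_card hsub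
    rw [Fin.card_Iio] at this
    omega

lemma sorted_le_of_count_le {m : ℕ} (α β : Fin m → ℝ) (hα : Antitone α) (hβ : Antitone β)
    (h : ∀ c, (Finset.univ.filter fun j => c < α j).card ≤ (Finset.univ.filter fun j => c < β j).card)
    (k : Fin m) : α k ≤ β k := by
  by_contra hk
  have hk' : β k < α k := not_le.mp hk
  have h1 := (lt_iff_lt_card_of_antitone α hα (β k) k).mp hk'
  have h2 := (lt_iff_lt_card_of_antitone β hβ (β k) k).mpr (lt_of_lt_of_le h1 (h (β k)))
  exact lt_irrefl _ h2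

variable {n : Type*} [Fintype n] [DecidableEq n]

/-- `c < λ_k↓(H) ↔ k < #{λ(H) > c}` for Mathlib's sorted eigenvalues. -/
theorem lt_eigenvalues₀_iff {H : Matrix n n ℂ} (hH : H.IsHermitian) (c : ℝ)
    (k : Fin (Fintype.card n)) : c < hH.eigenvalues₀ k ↔ (k : ℕ) < countGt hH c := by
  rw [← card_filter_eigenvalues₀]
  exact lt_iff_lt_card_of_antitone _ hH.eigenvalues₀_antitone c k

/-- **Weyl monotonicity** of Mathlib's sorted eigenvalues, from the counting functions. -/
theorem eigenvalues₀_le_of_countGt_le {A B : Matrix n n ℂ} (hA : A.IsHermitian)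
    (hB : B.IsHermitian) (h : ∀ c, countGt hA c ≤ countGt hB c) (k : Fin (Fintype.card n)) :
    hA.eigenvalues₀ k ≤ hB.eigenvalues₀ k := by
  apply sorted_le_of_count_le _ _ hA.eigenvalues₀_antitone hB.eigenvalues₀_antitone
  intro c
  rw [card_filter_eigenvalues₀, card_filter_eigenvalues₀]
  exact h c

/-- **Weyl monotonicity**: `A ≤ B` (Loewner) implies `λ_k↓(A) ≤ λ_k↓(B)`. -/
theorem eigenvalues₀_mono {A B : Matrix n n ℂ} (hA : A.IsHermitian) (hB : B.IsHermitian)
    (hAB : (B - A).PosSemidef) (k : Fin (Fintype.card n)) :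
    hA.eigenvalues₀ k ≤ hB.eigenvalues₀ k :=
  eigenvalues₀_le_of_countGt_le hA hB (fun c => countGt_mono hA hB hAB c) k

/-- Sorted eigenvalues in terms of the unsorted ones. -/
theorem eigenvalues₀_eq_eigenvalues {H : Matrix n n ℂ} (hH : H.IsHermitian)
    (k : Fin (Fintype.card n)) :
    hH.eigenvalues₀ k = hH.eigenvalues ((Fintype.equivOfCardEq (Fintype.card_fin _)) k) := by
  unfold Matrix.IsHermitian.eigenvalues
  rw [Equiv.symm_apply_apply]

end SortedMono

section Loewner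

variable {d e : Type*} [Fintype d] [DecidableEq d] [Fintype e] [DecidableEq e]

/-- `A0 s` is positive semidefinite for `T` PSD and `s > 0`. -/
lemma posSemidef_A0 (a : Matrix d e ℂ) {T : Matrix d d ℂ} (hT : T.PosSemidef) {s : ℝ}
    (hs : 0 < s) : (A0 a T s).PosSemidef :=
  (posDef_add_smul_one hT hs).inv.posSemidef.conjTranspose_mul_mul_same a

lemma eigenvalues₀_A0_nonneg (a : Matrix d e ℂ) {T : Matrix d d ℂ} (hT : T.PosSemidef) {s : ℝ}
    (hs : 0 < s) (k : Fin (Fintype.card e)) :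
    0 ≤ (isHermitian_A0 a hT.isHermitian s).eigenvalues₀ k := by
  rw [eigenvalues₀_eq_eigenvalues]
  exact (posSemidef_A0 a hT hs).eigenvalues_nonneg _

lemma qf_A0 (a : Matrix d e ℂ) (T : Matrix d d ℂ) (s : ℝ) (x : e → ℂ) :
    qf (A0 a T s) x = qf (T + (s : ℂ) • (1 : Matrix d d ℂ))⁻¹ (a *ᵥ x) := by
  unfold A0
  rw [qf_conj]

/-- `s (T + s)⁻¹ ≤ 1` as quadratic forms, for `T` PSD and `s > 0`. -/
lemma qf_inv_add_smul_one_le {T : Matrix d d ℂ} (hT : T.PosSemidef) {s : ℝ} (hs : 0 < s)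
    (y : d → ℂ) : s * qf (T + (s : ℂ) • (1 : Matrix d d ℂ))⁻¹ y ≤ nsq y := by
  set P := T + (s : ℂ) • (1 : Matrix d d ℂ) with hP
  have hPD : P.PosDef := posDef_add_smul_one hT hs
  have hdet : IsUnit P.det := (Matrix.isUnit_iff_isUnit_det P).mp hPD.isUnit
  have hPh : Pᴴ = P := hPD.isHermitian.eq
  set w := P⁻¹ *ᵥ y with hw
  have hy : y = P *ᵥ w := by
    rw [hw, mulVec_mulVec, Matrix.mul_nonsing_inv P hdet, one_mulVec]
  have h1 : qf P⁻¹ y = qf P w := by
    rw [hy, ← qf_conj, hPh, Matrix.mul_assoc, Matrix.nonsing_inv_mul P hdet, Matrix.mul_one]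
  have h2 : nsq y = qf (P * P) w := by
    rw [hy, nsq_mulVec, hPh]
  have h3 : P * P = Tᴴ * T + ((2 * s : ℝ) : ℂ) • T + ((s * s : ℝ) : ℂ) • (1 : Matrix d d ℂ) := by
    rw [hP, hT.isHermitian.eq, Matrix.add_mul, Matrix.mul_add, Matrix.mul_add, Matrix.smul_mul,
      Matrix.mul_smul, Matrix.one_mul, Matrix.mul_one, Matrix.smul_mul, Matrix.one_mul, smul_smul]
    push_cast
    module
  rw [h1, h2, h3, hP, qf_add, qf_add, qf_add, qf_smul, qf_smul, qf_smul, qf_one]
  have h4 := qf_nonneg (posSemidef_conjTranspose_mul_self T) w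
  have h5 := qf_nonneg hT w
  nlinarith

/-- `A0 s ≤ aᴴ a / s` at the level of quadratic forms. -/
lemma qf_A0_le (a : Matrix d e ℂ) {T : Matrix d d ℂ} (hT : T.PosSemidef) {s : ℝ} (hs : 0 < s)
    (x : e → ℂ) : s * qf (A0 a T s) x ≤ qf (aᴴ * a) x := by
  rw [qf_A0, ← nsq_mulVec]
  exact qf_inv_add_smul_one_le hT hs _

/-- **(h3)**: `#{λ(A0 s) > c} ≤ #{λ(aᴴ a) > c s}`. -/
theorem countGt_A0_le (a : Matrix d e ℂ) {T : Matrix d d ℂ} (hT : T.PosSemidef) {s : ℝ}
    (hs : 0 < s) (c : ℝ) :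
    countGt (isHermitian_A0 a hT.isHermitian s) c
      ≤ countGt (isHermitian_conjTranspose_mul_self a) (c * s) := by
  apply countGt_le_countGt_of_imp
  intro x hx
  have := qf_A0_le a hT hs x
  nlinarith

/-- **(hal)**: `λ_k↓(A0 s) ≤ λ_k↓(aᴴ a) / s`. -/
theorem eigenvalues₀_A0_le (a : Matrix d e ℂ) {T : Matrix d d ℂ} (hT : T.PosSemidef) {s : ℝ}
    (hs : 0 < s) (k : Fin (Fintype.card e)) :
    (isHermitian_A0 a hT.isHermitian s).eigenvalues₀ k
      ≤ (isHermitian_conjTranspose_mul_self a).eigenvalues₀ k / s := by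
  by_contra hk
  have hk' := not_le.mp hk
  have h1 := (lt_eigenvalues₀_iff _ _ k).mp hk'
  have h2 := lt_of_lt_of_le h1 (countGt_A0_le a hT hs _)
  have h3 := (lt_eigenvalues₀_iff _ _ k).mpr h2
  rw [div_mul_cancel₀ _ hs.ne'] at h3
  exact lt_irrefl _ h3

/-- Resolvent identity `(P + δ)⁻¹ = P⁻¹ - δ (P (P + δ))⁻¹`. -/
lemma inv_add_smul_one_eq {P : Matrix d d ℂ} (hP : IsUnit P.det) (δ : ℝ)
    (hP' : IsUnit (P + (δ : ℂ) • (1 : Matrix d d ℂ)).det) :
    (P + (δ : ℂ) • (1 : Matrix d d ℂ))⁻¹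
      = P⁻¹ - (δ : ℂ) • (P * (P + (δ : ℂ) • (1 : Matrix d d ℂ)))⁻¹ := by
  apply Matrix.inv_eq_right_inv
  rw [Matrix.mul_inv_rev, Matrix.mul_sub, Matrix.mul_smul,
    Matrix.mul_nonsing_inv_cancel_left _ _ hP', Matrix.add_mul, Matrix.mul_nonsing_inv P hP,
    Matrix.smul_mul, Matrix.one_mul]
  abel

/-- The resolvent is antitone: `(T + s')⁻¹ ≤ (T + s)⁻¹` for `0 < s ≤ s'`, as quadratic forms. -/
lemma qf_inv_anti {T : Matrix d d ℂ} (hT : T.PosSemidef) {s s' : ℝ} (hs : 0 < s) (hss : s ≤ s')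
    (y : d → ℂ) :
    qf (T + (s' : ℂ) • (1 : Matrix d d ℂ))⁻¹ y ≤ qf (T + (s : ℂ) • (1 : Matrix d d ℂ))⁻¹ y := by
  set P := T + (s : ℂ) • (1 : Matrix d d ℂ) with hP
  have hPD : P.PosDef := posDef_add_smul_one hT hs
  have hs' : 0 < s' := lt_of_lt_of_le hs hss
  have hPD' : (T + (s' : ℂ) • (1 : Matrix d d ℂ)).PosDef := posDef_add_smul_one hT hs'
  have e1 : T + (s' : ℂ) • (1 : Matrix d d ℂ) = P + ((s' - s : ℝ) : ℂ) • (1 : Matrix d d ℂ) := by
    rw [hP]; push_cast; module
  rw [e1] at hPD' ⊢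
  rw [inv_add_smul_one_eq ((Matrix.isUnit_iff_isUnit_det P).mp hPD.isUnit) _
    ((Matrix.isUnit_iff_isUnit_det _).mp hPD'.isUnit), qf_sub, qf_smul]
  have hpsd : (P * (P + ((s' - s : ℝ) : ℂ) • (1 : Matrix d d ℂ))).PosSemidef := by
    have e2 : P * (P + ((s' - s : ℝ) : ℂ) • (1 : Matrix d d ℂ))
        = Pᴴ * P + ((s' - s : ℝ) : ℂ) • P := by
      rw [hPD.isHermitian.eq, Matrix.mul_add, Matrix.mul_smul, Matrix.mul_one]
    rw [e2]
    apply (posSemidef_conjTranspose_mul_self P).add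
    exact hPD.posSemidef.smul (a := ((s' - s : ℝ) : ℂ)) (by exact_mod_cast sub_nonneg.mpr hss)
  have h0 := qf_nonneg hpsd.inv y
  have : 0 ≤ s' - s := sub_nonneg.mpr hss
  nlinarith

/-- `#{λ(A0 s') > c} ≤ #{λ(A0 s) > c}` for `0 < s ≤ s'`. -/
theorem countGt_A0_anti (a : Matrix d e ℂ) {T : Matrix d d ℂ} (hT : T.PosSemidef) {s s' : ℝ}
    (hs : 0 < s) (hss : s ≤ s') (c : ℝ) :
    countGt (isHermitian_A0 a hT.isHermitian s') c ≤ countGt (isHermitian_A0 a hT.isHermitian s) c := by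
  apply countGt_le_countGt_of_imp
  intro x hx
  rw [qf_A0] at hx ⊢
  exact lt_of_lt_of_le hx (qf_inv_anti hT hs hss _)

/-- **(h2)**: the sorted eigenvalues of `A0 s` are antitone in `s` on `(0, ∞)`. -/
theorem antitoneOn_eigenvalues₀_A0 (a : Matrix d e ℂ) {T : Matrix d d ℂ} (hT : T.PosSemidef)
    (k : Fin (Fintype.card e)) :
    AntitoneOn (fun s : ℝ => (isHermitian_A0 a hT.isHermitian s).eigenvalues₀ k) (Set.Ioi 0) := by
  intro s hs s' _ hss
  exact eigenvalues₀_le_of_countGt_le _ _ (fun c => countGt_A0_anti a hT hs hss c) k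

end Loewner

end Crest.Agent.GAD.Count67
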