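import Mathlib
import Crest.Prelude.Def_QState
import Crest.Agent.GAD.LogDetRep
import Crest.Agent.GAD.Step0
import Crest.Agent.GAD.Fiedler
import Crest.Agent.GAD.AD4Lprime

/-!
# Row 341: matrix-side glue for `(AD4)`

`ad4_of_asm_sc` derives the four-piece inequality `AD4` (the `Prop` of `GAD/AD4Lprime.lean`)
from

* step (0) (`GAD/Step0.lean`: `-Ψ₄ = ∫_0^∞ g(s) ds`),
* Fiedler's inequality (`GAD/Fiedler.lean`), pointwise in `s`,
* an abstract real-variable bound `(ASM)` for the sorted eigenvalues of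
  `A0(s) = aᴴ (T0 + s)⁻¹ a`, `A1(s) = bᴴ (T1 + s)⁻¹ b`, and
* the scalar identity `(SC)` (the `1 × 1` case with equalities).
-/

set_option autoImplicit false
set_option linter.unusedSectionVars false

open Crest.Quantum
open scoped ComplexOrder Matrix ENNReal
open Filter Topology MeasureTheory

namespace Crest.Agent.GAD.AD4Glue

/-- Sorted (decreasing) eigenvalues of a matrix as a total function: Mathlib's `eigenvalues₀`
for Hermitian matrices, `0` otherwise. -/
noncomputable def sEig {n : Type*} [Fintype n] [DecidableEq n] (M : Matrix n n ℂ) :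
    Fin (Fintype.card n) → ℝ :=
  if h : M.IsHermitian then h.eigenvalues₀ else 0

theorem sEig_eq {n : Type*} [Fintype n] [DecidableEq n] {M : Matrix n n ℂ} (h : M.IsHermitian) :
    sEig M = h.eigenvalues₀ := dif_pos h

section Matrix

variable {d e : Type*} [Fintype d] [DecidableEq d] [Fintype e] [DecidableEq e]

theorem psd_trace_re_nonneg {A : Matrix d d ℂ} (hA : A.PosSemidef) : 0 ≤ A.trace.re :=
  (Complex.nonneg_iff.mp hA.trace_nonneg).1

theorem step0Res_posSemidef (a : Matrix d e ℂ) {T : Matrix d d ℂ} (hT : T.PosSemidef) {s : ℝ}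
    (hs : 0 < s) : (step0Res a T s).PosSemidef := by
  have h1 : ((s : ℂ) • (1 : Matrix d d ℂ)).PosDef := by
    have : (0 : ℂ) < (s : ℂ) := by exact_mod_cast hs
    exact Matrix.PosDef.one.smul this
  have h2 : (T + (s : ℂ) • (1 : Matrix d d ℂ)).PosDef := Matrix.PosDef.posSemidef_add hT h1
  exact h2.inv.posSemidef.conjTranspose_mul_mul_same a

/-- `log det (1 + M / s) = ∑_k log (1 + λ_k / s)` over the sorted eigenvalues. -/
theorem log_det_one_add_inv_smul (M : Matrix e e ℂ) (hM : M.PosSemidef) {s : ℝ} (hs : 0 < s) :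
    Real.log ((1 + (s : ℂ)⁻¹ • M).det.re) = ∑ k, Real.log (1 + sEig M k / s) := by
  have hs' : (s : ℂ) ≠ 0 := by exact_mod_cast hs.ne'
  have h1 : (1 : Matrix e e ℂ) + (s : ℂ)⁻¹ • M = (s : ℂ)⁻¹ • (M + (s : ℂ) • 1) := by
    rw [smul_add, smul_smul, inv_mul_cancel₀ hs', one_smul, add_comm]
  have h2 : ((s : ℂ)⁻¹ ^ Fintype.card e * ((∏ i, (hM.1.eigenvalues i + s) : ℝ) : ℂ))
      = ((∏ i, (1 + hM.1.eigenvalues i / s) : ℝ) : ℂ) := by
    push_cast
    rw [← Finset.card_univ, ← Finset.prod_const, ← Finset.prod_mul_distrib]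
    refine Finset.prod_congr rfl (fun i _ => ?_)
    field_simp
    ring
  rw [h1, Matrix.det_smul, ld_det_add_smul_one M hM.1 s, h2, Complex.ofReal_re,
    Real.log_prod, sEig_eq hM.1,
    ← Equiv.sum_comp (Fintype.equivOfCardEq (Fintype.card_fin (Fintype.card e)))]
  · exact Finset.sum_congr rfl (fun k _ => by rw [Fiedler.eigenvalues_equiv])
  · intro i _
    have := hM.eigenvalues_nonneg i
    positivity

/-- Pointwise (in `s`) Fiedler bound for the step-(0) integrand. -/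
theorem step0Integrand_le (a b : Matrix d e ℂ) {T0 T1 : Matrix d d ℂ}
    (hT0 : T0.PosSemidef) (hT1 : T1.PosSemidef) {s : ℝ} (hs : 0 < s) :
    step0Integrand a b T0 T1 s ≤
      ∑ k, (Real.log (1 + sEig (aᴴ * a) k / s) + Real.log (1 + sEig (bᴴ * b) k / s)
        - Real.log (1 + sEig (step0Res a T0 s) k + sEig (step0Res b T1 s) k)) := by
  have hA0 := step0Res_posSemidef a hT0 hs
  have hA1 := step0Res_posSemidef b hT1 hs
  have hF := fiedler_sum_log_le (𝕜 := ℂ) hA0 hA1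
  rw [Finset.sum_sub_distrib, Finset.sum_add_distrib, sEig_eq hA0.1, sEig_eq hA1.1,
    ← log_det_one_add_inv_smul _ (Matrix.posSemidef_conjTranspose_mul_self a) hs,
    ← log_det_one_add_inv_smul _ (Matrix.posSemidef_conjTranspose_mul_self b) hs]
  unfold step0Integrand
  have hre : RCLike.re (1 + step0Res a T0 s + step0Res b T1 s).det
      = (1 + step0Res a T0 s + step0Res b T1 s).det.re := rfl
  rw [hre] at hF
  linarith

end Matrix

/-! ### The `1 × 1` instance -/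

section Scalar

/-- `1 × 1` matrix with entry `c`. -/
noncomputable def sc (c : ℝ) : Matrix Unit Unit ℂ := Matrix.of fun _ _ => ((c : ℝ) : ℂ)

theorem sc_eq_smul (c : ℝ) : sc c = ((c : ℝ) : ℂ) • (1 : Matrix Unit Unit ℂ) := by
  ext i j
  simp [sc]

theorem sc_posSemidef {c : ℝ} (hc : 0 ≤ c) : (sc c).PosSemidef := by
  rw [sc_eq_smul]
  exact Matrix.PosSemidef.one.smul (by exact_mod_cast hc)

theorem sc_inv_shift {w s : ℝ} (h : w + s ≠ 0) :
    (sc w + (s : ℂ) • (1 : Matrix Unit Unit ℂ))⁻¹ = sc (w + s)⁻¹ := by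
  apply Matrix.inv_eq_right_inv
  ext i j
  have h' : ((w : ℂ) + (s : ℂ)) ≠ 0 := by exact_mod_cast h
  simp [sc, Matrix.mul_apply]
  field_simp

theorem sc_integrand {x y w0 w1 s : ℝ} (hx : 0 ≤ x) (hy : 0 ≤ y) (hw0 : 0 ≤ w0) (hw1 : 0 ≤ w1)
    (hs : 0 < s) :
    step0Integrand (sc (Real.sqrt x)) (sc (Real.sqrt y)) (sc w0) (sc w1) s
      = Real.log (1 + x / s) + Real.log (1 + y / s)
        - Real.log (1 + x / (w0 + s) + y / (w1 + s)) := by
  have h0 : w0 + s ≠ 0 := by positivity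
  have h1 : w1 + s ≠ 0 := by positivity
  have hxs : ((Real.sqrt x : ℝ) : ℂ) * ((Real.sqrt x : ℝ) : ℂ) = ((x : ℝ) : ℂ) := by
    rw [← Complex.ofReal_mul, Real.mul_self_sqrt hx]
  have hys : ((Real.sqrt y : ℝ) : ℂ) * ((Real.sqrt y : ℝ) : ℂ) = ((y : ℝ) : ℂ) := by
    rw [← Complex.ofReal_mul, Real.mul_self_sqrt hy]
  have e1 : (1 + (s : ℂ)⁻¹ • ((sc (Real.sqrt x))ᴴ * sc (Real.sqrt x))).det
      = ((1 + x / s : ℝ) : ℂ) := by
    rw [Matrix.det_unique]
    simp [sc, Matrix.mul_apply, hxs]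
    ring
  have e2 : (1 + (s : ℂ)⁻¹ • ((sc (Real.sqrt y))ᴴ * sc (Real.sqrt y))).det
      = ((1 + y / s : ℝ) : ℂ) := by
    rw [Matrix.det_unique]
    simp [sc, Matrix.mul_apply, hys]
    ring
  have e3 : (1 + step0Res (sc (Real.sqrt x)) (sc w0) s
      + step0Res (sc (Real.sqrt y)) (sc w1) s).det
      = ((1 + x / (w0 + s) + y / (w1 + s) : ℝ) : ℂ) := by
    rw [Matrix.det_unique]
    unfold step0Res
    rw [sc_inv_shift h0, sc_inv_shift h1]
    simp only [sc, Matrix.add_apply, Matrix.one_apply_eq, Matrix.mul_apply,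
      Matrix.conjTranspose_apply, Matrix.of_apply, Finset.univ_unique, Finset.sum_singleton,
      Complex.star_def, Complex.conj_ofReal]
    push_cast
    have hx' : ((Real.sqrt x : ℝ) : ℂ) * ((w0 : ℂ) + (s : ℂ))⁻¹ * ((Real.sqrt x : ℝ) : ℂ)
        = (x : ℂ) / ((w0 : ℂ) + (s : ℂ)) := by
      rw [mul_right_comm, hxs]; rfl
    have hy' : ((Real.sqrt y : ℝ) : ℂ) * ((w1 : ℂ) + (s : ℂ))⁻¹ * ((Real.sqrt y : ℝ) : ℂ)
        = (y : ℂ) / ((w1 : ℂ) + (s : ℂ)) := by
      rw [mul_right_comm, hys]; rfl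
    rw [hx', hy']
  unfold step0Integrand
  rw [e1, e2, e3, Complex.ofReal_re, Complex.ofReal_re, Complex.ofReal_re]

theorem sc_integrand_nonneg {x y w0 w1 s : ℝ} (hx : 0 ≤ x) (hy : 0 ≤ y) (hw0 : 0 ≤ w0)
    (hw1 : 0 ≤ w1) (hs : 0 < s) :
    0 ≤ Real.log (1 + x / s) + Real.log (1 + y / s)
        - Real.log (1 + x / (w0 + s) + y / (w1 + s)) := by
  have h0 : 0 < w0 + s := by positivity
  have h1 : 0 < w1 + s := by positivity
  have hxs : 0 ≤ x / s := by positivity
  have hys : 0 ≤ y / s := by positivity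
  have hx0 : x / (w0 + s) ≤ x / s := div_le_div_of_nonneg_left hx hs (by linarith)
  have hy0 : y / (w1 + s) ≤ y / s := div_le_div_of_nonneg_left hy hs (by linarith)
  have hpos : 0 < 1 + x / (w0 + s) + y / (w1 + s) := by positivity
  rw [← Real.log_mul (by positivity) (by positivity), sub_nonneg]
  apply Real.log_le_log hpos
  nlinarith [mul_nonneg hxs hys]

/-- The scalar side: `-Φ₄` is represented by the explicit `1 × 1` integrand. -/
theorem phi4_logDetRep {x y w0 w1 : ℝ} (hx : 0 ≤ x) (hy : 0 ≤ y) (hw0 : 0 ≤ w0)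
    (hw1 : 0 ≤ w1) :
    LogDetRep (-phi4 x y w0 w1) 0 0 (fun s => Real.log (1 + x / s) + Real.log (1 + y / s)
        - Real.log (1 + x / (w0 + s) + y / (w1 + s))) := by
  have h := step0_logDetRep (sc (Real.sqrt x)) (sc (Real.sqrt y)) (sc_posSemidef hw0)
    (sc_posSemidef hw1)
  refine h.congr ?_ rfl rfl (fun s hs => sc_integrand hx hy hw0 hw1 hs)
  unfold phi4 psi4 step0O sc
  ring

end Scalar

/-! ### The glue -/

/-- **(AD4) from the abstract real-variable bound `(ASM)` and the scalar identity `(SC)`.** -/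
theorem ad4_of_asm_sc (I4 : ℝ → ℝ → ℝ → ℝ → ℝ≥0∞)
    (hSC : ∀ x y w0 w1 : ℝ, 0 ≤ x → 0 ≤ y → 0 ≤ w0 → 0 ≤ w1 →
      ∫⁻ s in Set.Ioi (0:ℝ), ENNReal.ofReal (Real.log (1 + x / s) + Real.log (1 + y / s)
        - Real.log (1 + x / (w0 + s) + y / (w1 + s))) = I4 x y w0 w1)
    (hASM : ∀ (d e : Type) [Fintype d] [DecidableEq d] [Fintype e] [DecidableEq e]
      (a b : Matrix d e ℂ) (T0 T1 : Matrix d d ℂ), T0.PosSemidef → T1.PosSemidef →
      ∫⁻ s in Set.Ioi (0:ℝ), ENNReal.ofReal (∑ k, (Real.log (1 + sEig (aᴴ * a) k / s)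
          + Real.log (1 + sEig (bᴴ * b) k / s)
          - Real.log (1 + sEig (step0Res a T0 s) k + sEig (step0Res b T1 s) k)))
        ≤ I4 (a * aᴴ).trace.re (b * bᴴ).trace.re T0.trace.re T1.trace.re) :
    AD4 := by
  intro d e _ _ _ _ a b T0 T1 hT0 hT1
  have hx : 0 ≤ (a * aᴴ).trace.re :=
    psd_trace_re_nonneg (Matrix.posSemidef_self_mul_conjTranspose a)
  have hy : 0 ≤ (b * bᴴ).trace.re :=
    psd_trace_re_nonneg (Matrix.posSemidef_self_mul_conjTranspose b)
  have hw0 : 0 ≤ T0.trace.re := psd_trace_re_nonneg hT0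
  have hw1 : 0 ≤ T1.trace.re := psd_trace_re_nonneg hT1
  -- matrix side
  have hM : ENNReal.ofReal (-psi4 a b T0 T1)
      ≤ ∫⁻ s in Set.Ioi (0:ℝ), ENNReal.ofReal (step0Integrand a b T0 T1 s) := by
    have h := step0_ofReal_le_lintegral a b hT0 hT1
    have e : -psi4 a b T0 T1 = vnEntropy (a * aᴴ) + vnEntropy (b * bᴴ) + vnEntropy T0
        + vnEntropy T1 - vnEntropy (step0O a b T0 T1) := by
      unfold psi4 step0O; ring
    rw [e]; exact h
  have hF : ∫⁻ s in Set.Ioi (0:ℝ), ENNReal.ofReal (step0Integrand a b T0 T1 s)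
      ≤ ∫⁻ s in Set.Ioi (0:ℝ), ENNReal.ofReal (∑ k, (Real.log (1 + sEig (aᴴ * a) k / s)
          + Real.log (1 + sEig (bᴴ * b) k / s)
          - Real.log (1 + sEig (step0Res a T0 s) k + sEig (step0Res b T1 s) k))) :=
    setLIntegral_mono' measurableSet_Ioi
      (fun s hs => ENNReal.ofReal_le_ofReal (step0Integrand_le a b hT0 hT1 hs))
  -- scalar side
  have hrep := phi4_logDetRep hx hy hw0 hw1
  have hnn := fun s (hs : 0 < s) => sc_integrand_nonneg hx hy hw0 hw1 hs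
  have hS := hrep.lintegral_eq_ofReal hnn
  have hS0 : 0 ≤ -phi4 (a * aᴴ).trace.re (b * bᴴ).trace.re T0.trace.re T1.trace.re :=
    hrep.nonneg rfl rfl hnn
  have hchain : ENNReal.ofReal (-psi4 a b T0 T1)
      ≤ ENNReal.ofReal (-phi4 (a * aᴴ).trace.re (b * bᴴ).trace.re T0.trace.re T1.trace.re) := by
    rw [← hS, hSC _ _ _ _ hx hy hw0 hw1]
    exact hM.trans (hF.trans (hASM d e a b T0 T1 hT0 hT1))
  have := (ENNReal.ofReal_le_ofReal_iff hS0).1 hchain
  linarith

end Crest.Agent.GAD.AD4Glue
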