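import Mathlib
import Crest.Agent.GAD.AD4Glue
import Crest.Agent.GAD.Assembly
import Crest.Agent.GAD.Count67

/-!
# Row 341: `ad4 : AD4` (the four-piece entropy inequality, helper94 #1597)

`Crest.Agent.GAD.AD4Glue.ad4 : Crest.Agent.GAD.AD4` closes the chain
Step0 (helper88) + Fiedler (helper95) + layer cake / Tonelli assembly and scalar identity
(helper60: `lintegral_decoupled_le_of_antitoneOn`, `lintegral_scalar_eq`) + counting / inertia /
Weyl facts for `aᴴ (T + s)⁻¹ a` (helper67: `Count67`) via `ad4_of_asm_sc` (`GAD/AD4Glue.lean`).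
-/

set_option autoImplicit false
set_option linter.unusedSectionVars false

open Crest.Quantum
open scoped ComplexOrder Matrix ENNReal
open Filter Topology MeasureTheory

namespace Crest.Agent.GAD.AD4Glue

section Inst

variable {d e : Type} [Fintype d] [DecidableEq d] [Fintype e] [DecidableEq e]

theorem sum_sEig_gram (a : Matrix d e ℂ) :
    ∑ k, sEig (aᴴ * a) k = (a * aᴴ).trace.re := by
  have hH : (aᴴ * a).IsHermitian := Matrix.isHermitian_conjTranspose_mul_self a
  rw [sEig_eq hH, Fiedler.sum_eigenvalues₀_eq hH, Matrix.trace_mul_comm,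
    hH.trace_eq_sum_eigenvalues]
  simp

/-- the matrix instance of `(ASM)`. -/
theorem asm_matrix (a b : Matrix d e ℂ) (T0 T1 : Matrix d d ℂ) (hT0 : T0.PosSemidef)
    (hT1 : T1.PosSemidef) :
    ∫⁻ s in Set.Ioi (0:ℝ), ENNReal.ofReal (∑ k, (Real.log (1 + sEig (aᴴ * a) k / s)
          + Real.log (1 + sEig (bᴴ * b) k / s)
          - Real.log (1 + sEig (step0Res a T0 s) k + sEig (step0Res b T1 s) k)))
        ≤ I4 (a * aᴴ).trace.re (b * bᴴ).trace.re T0.trace.re T1.trace.re := by
  have hHa : (aᴴ * a).IsHermitian := Matrix.isHermitian_conjTranspose_mul_self a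
  have hHb : (bᴴ * b).IsHermitian := Matrix.isHermitian_conjTranspose_mul_self b
  have hal : ∀ s : ℝ, sEig (step0Res a T0 s)
      = (Count67.isHermitian_A0 a hT0.isHermitian s).eigenvalues₀ := fun s =>
    sEig_eq (M := step0Res a T0 s) (Count67.isHermitian_A0 a hT0.isHermitian s)
  have hbe : ∀ s : ℝ, sEig (step0Res b T1 s)
      = (Count67.isHermitian_A0 b hT1.isHermitian s).eigenvalues₀ := fun s =>
    sEig_eq (M := step0Res b T1 s) (Count67.isHermitian_A0 b hT1.isHermitian s)
  have key := lintegral_decoupled_le_of_antitoneOn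
    (sEig (aᴴ * a)) (sEig (bᴴ * b))
    (fun s k => sEig (step0Res a T0 s) k) (fun s k => sEig (step0Res b T1 s) k)
    T0.trace.re T1.trace.re
    (fun j => by
      rw [sEig_eq hHa]
      exact Fiedler.eigenvalues₀_nonneg (Matrix.posSemidef_conjTranspose_mul_self a) j)
    (fun j => by
      rw [sEig_eq hHb]
      exact Fiedler.eigenvalues₀_nonneg (Matrix.posSemidef_conjTranspose_mul_self b) j)
    (fun s hs k => by rw [hal s]; exact Count67.eigenvalues₀_A0_nonneg a hT0 hs k)
    (fun s hs k => by rw [hbe s]; exact Count67.eigenvalues₀_A0_nonneg b hT1 hs k)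
    (fun k => by simp only [hal]; exact Count67.antitoneOn_eigenvalues₀_A0 a hT0 k)
    (fun k => by simp only [hbe]; exact Count67.antitoneOn_eigenvalues₀_A0 b hT1 k)
    (fun s hs u hu => by
      apply Finset.card_le_card
      intro k hk
      simp only [Finset.mem_filter, Finset.mem_univ, true_and] at hk ⊢
      rw [hal s] at hk
      have h := Count67.eigenvalues₀_A0_le a hT0 hs k
      rw [sEig_eq hHa]
      have h2 : u < hHa.eigenvalues₀ k / s := lt_of_lt_of_le hk h
      exact (lt_div_iff₀ hs).1 h2)
    (fun s hs u hu => by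
      apply Finset.card_le_card
      intro k hk
      simp only [Finset.mem_filter, Finset.mem_univ, true_and] at hk ⊢
      rw [hbe s] at hk
      have h := Count67.eigenvalues₀_A0_le b hT1 hs k
      rw [sEig_eq hHb]
      have h2 : u < hHb.eigenvalues₀ k / s := lt_of_lt_of_le hk h
      exact (lt_div_iff₀ hs).1 h2)
    (fun u hu => by
      rw [sum_sEig_gram a]
      simp only [hal]
      exact Count67.ofReal_le_lintegral_card_A0 a hT0 hu)
    (fun u hu => by
      rw [sum_sEig_gram b]
      simp only [hbe]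
      exact Count67.ofReal_le_lintegral_card_A0 b hT1 hu)
  rw [sum_sEig_gram a, sum_sEig_gram b] at key
  refine le_trans (le_of_eq ?_) key
  refine setLIntegral_congr_fun measurableSet_Ioi (fun s _ => ?_)
  simp only [Finset.sum_sub_distrib, Finset.sum_add_distrib]

end Inst

/-- **(AD4)**: the four-piece entropy inequality (helper94, board #1597). -/
theorem ad4 : AD4 :=
  ad4_of_asm_sc I4 lintegral_scalar_eq
    (fun _ _ _ _ _ _ a b T0 T1 hT0 hT1 => asm_matrix a b T0 T1 hT0 hT1)

end Crest.Agent.GAD.AD4Glue
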