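import Mathlib
import Crest.Prelude.Def_QState
import Crest.Agent.GAD.Step0
import Crest.Agent.GAD.Step0Scalar
import Crest.Agent.GAD.Fiedler
import Crest.Agent.GAD.Inertia
import Crest.Agent.GAD.Assembly
import Crest.Agent.GAD.AD4Lprime

/-!
# Row 341: `(AD4)` assembled directly from the landed modules

`ad4 : AD4` from

* `Step0` / `Step0Scalar` (helper88): the entropy defect as an `s`-integral and the reduction of
  `(AD4)` to one `lintegral` inequality (`step0_AD4_of_lintegral_le`);
* `Fiedler` (helper95): `∑ log (1 + α_k + β_k) ≤ log det (1 + A + B)` for sorted eigenvalues;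
* `Inertia` (helper24): the spectral package `al`, `pp` for `A₀(s) = aᴴ (T + s)⁻¹ a`;
* `Assembly` (helper60): the matrix-free Tonelli assembly `lintegral_decoupled_le_of_antitoneOn`
  and the scalar identity `lintegral_scalar_eq`.
-/

set_option autoImplicit false
set_option linter.unusedSectionVars false

open Crest.Quantum Matrix MeasureTheory
open scoped ComplexOrder ENNReal

namespace Crest.Agent.GAD.AD4Direct

section

variable {d e : Type*} [Fintype d] [DecidableEq d] [Fintype e] [DecidableEq e]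

/-- `log det (1 + s⁻¹ aᴴ a) = ∑ log (1 + p_j / s)`, `p` the sorted eigenvalues of `aᴴ a`. -/
theorem log_det_gram (a : Matrix d e ℂ) {s : ℝ} (hs : 0 < s) :
    Real.log ((1 + (s : ℂ)⁻¹ • (aᴴ * a)).det.re) = ∑ j, Real.log (1 + Inertia.pp a j / s) := by
  have hH : (aᴴ * a).IsHermitian := Matrix.isHermitian_conjTranspose_mul_self a
  have hsC : (s : ℂ) ≠ 0 := Complex.ofReal_ne_zero.mpr hs.ne'
  have h1 : (1 + (s : ℂ)⁻¹ • (aᴴ * a)) = (s : ℂ)⁻¹ • (aᴴ * a + (s : ℂ) • (1 : Matrix e e ℂ)) := by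
    rw [smul_add, smul_smul, inv_mul_cancel₀ hsC, one_smul, add_comm]
  have h2 : (aᴴ * a + (s : ℂ) • (1 : Matrix e e ℂ)).det
      = ∏ j, (((hH.eigenvalues j + s : ℝ)) : ℂ) :=
    Fiedler.det_add_smul_one_eq_prod (𝕜 := ℂ) hH s
  have h3 : (1 + (s : ℂ)⁻¹ • (aᴴ * a)).det = ((∏ j, (1 + hH.eigenvalues j / s) : ℝ) : ℂ) := by
    rw [h1, Matrix.det_smul, h2, ← Finset.card_univ, ← Finset.prod_const, ← Finset.prod_mul_distrib]
    push_cast
    refine Finset.prod_congr rfl fun j _ => ?_
    field_simp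
    ring
  have hpos : ∀ j, 0 < 1 + hH.eigenvalues j / s := fun j => by
    have := (Matrix.posSemidef_conjTranspose_mul_self a).eigenvalues_nonneg j
    positivity
  rw [h3, Complex.ofReal_re, Real.log_prod (fun j _ => (hpos j).ne')]
  unfold Inertia.pp
  rw [← Equiv.sum_comp (Fintype.equivOfCardEq (Fintype.card_fin (Fintype.card e)))]
  refine Finset.sum_congr rfl fun i _ => ?_
  rw [Fiedler.eigenvalues_equiv hH i]

/-- Pointwise in `s > 0`: the step-(0) integrand is bounded by the sorted-eigenvalue expression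
(Fiedler). -/
theorem step0Integrand_le (a b : Matrix d e ℂ) {T0 T1 : Matrix d d ℂ}
    (hT0 : T0.PosSemidef) (hT1 : T1.PosSemidef) {s : ℝ} (hs : 0 < s) :
    step0Integrand a b T0 T1 s
      ≤ (∑ j, Real.log (1 + Inertia.pp a j / s)) + (∑ j, Real.log (1 + Inertia.pp b j / s))
        - ∑ k, Real.log (1 + Inertia.al a hT0.1 s k + Inertia.al b hT1.1 s k) := by
  unfold step0Integrand
  rw [log_det_gram a hs, log_det_gram b hs]
  have hF := fiedler_sum_log_le (𝕜 := ℂ) (Inertia.resA_posSemidef a hT0 hs)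
    (Inertia.resA_posSemidef b hT1 hs)
  have hF' : ∑ k, Real.log (1 + Inertia.al a hT0.1 s k + Inertia.al b hT1.1 s k)
      ≤ Real.log ((1 + step0Res a T0 s + step0Res b T1 s).det.re) := hF
  linarith

/-- The single `lintegral` inequality to which `(AD4)` has been reduced. -/
theorem mid (a b : Matrix d e ℂ) {T0 T1 : Matrix d d ℂ}
    (hT0 : T0.PosSemidef) (hT1 : T1.PosSemidef) :
    ∫⁻ s in Set.Ioi (0:ℝ), ENNReal.ofReal (step0Integrand a b T0 T1 s)
      ≤ ∫⁻ s in Set.Ioi (0:ℝ), ENNReal.ofReal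
          (step0ScalarIntegrand (a * aᴴ).trace.re (b * bᴴ).trace.re T0.trace.re T1.trace.re s) := by
  have hx : 0 ≤ (a * aᴴ).trace.re :=
    (Complex.nonneg_iff.mp (Matrix.posSemidef_self_mul_conjTranspose a).trace_nonneg).1
  have hy : 0 ≤ (b * bᴴ).trace.re :=
    (Complex.nonneg_iff.mp (Matrix.posSemidef_self_mul_conjTranspose b).trace_nonneg).1
  have hw0 : 0 ≤ T0.trace.re := (Complex.nonneg_iff.mp hT0.trace_nonneg).1
  have hw1 : 0 ≤ T1.trace.re := (Complex.nonneg_iff.mp hT1.trace_nonneg).1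
  have step1 : ∫⁻ s in Set.Ioi (0:ℝ), ENNReal.ofReal (step0Integrand a b T0 T1 s)
      ≤ ∫⁻ s in Set.Ioi (0:ℝ), ENNReal.ofReal
          ((∑ j, Real.log (1 + Inertia.pp a j / s)) + (∑ j, Real.log (1 + Inertia.pp b j / s))
            - ∑ k, Real.log (1 + Inertia.al a hT0.1 s k + Inertia.al b hT1.1 s k)) :=
    setLIntegral_mono' measurableSet_Ioi fun s hs =>
      ENNReal.ofReal_le_ofReal (step0Integrand_le a b hT0 hT1 hs)
  have step2 := lintegral_decoupled_le_of_antitoneOn (Inertia.pp a) (Inertia.pp b)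
    (fun s => Inertia.al a hT0.1 s) (fun s => Inertia.al b hT1.1 s) T0.trace.re T1.trace.re
    (Inertia.pp_nonneg a) (Inertia.pp_nonneg b)
    (fun s hs k => Inertia.al_nonneg a hT0 hs k) (fun s hs k => Inertia.al_nonneg b hT1 hs k)
    (Inertia.al_antitoneOn a hT0) (Inertia.al_antitoneOn b hT1)
    (fun s hs u _ => by
      have h := Inertia.card_al_le a hT0 hs u
      rwa [Fintype.card_subtype, Fintype.card_subtype] at h)
    (fun s hs u _ => by
      have h := Inertia.card_al_le b hT1 hs u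
      rwa [Fintype.card_subtype, Fintype.card_subtype] at h)
    (fun u hu => by
      have h := Inertia.ofReal_le_lintegral_card_al a hT0 hu
      simp only [Fintype.card_subtype] at h
      rwa [Inertia.sum_pp])
    (fun u hu => by
      have h := Inertia.ofReal_le_lintegral_card_al b hT1 hu
      simp only [Fintype.card_subtype] at h
      rwa [Inertia.sum_pp])
  rw [Inertia.sum_pp, Inertia.sum_pp] at step2
  have step3 := lintegral_scalar_eq (a * aᴴ).trace.re (b * bᴴ).trace.re T0.trace.re T1.trace.re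
    hx hy hw0 hw1
  calc ∫⁻ s in Set.Ioi (0:ℝ), ENNReal.ofReal (step0Integrand a b T0 T1 s)
      ≤ _ := step1
    _ ≤ _ := step2
    _ = _ := step3.symm

end

/-- **(AD4)**: `Φ₄(traces) ≤ Ψ₄(a, b, T0, T1)` for all rectangular `a, b` and PSD `T0, T1`. -/
theorem ad4 : AD4 := by
  intro d d' _ _ _ _ a b T0 T1 hT0 hT1
  have h := step0_AD4_of_lintegral_le a b hT0 hT1 (mid a b hT0 hT1)
  unfold step0ScalarDefect step0O at h
  unfold phi4 psi4
  linarith

end Crest.Agent.GAD.AD4Direct
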