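/-
Row 341 (GADC), helper95.  Fixed-`s` Fiedler step of the (AD4) proof (#1597 step (1)):

for `s > 0` and PSD leaves `T0`, `T1`,
  `psi4Integrand a b T0 T1 s ≤ ∑_j [ log (1 + x_j / s) + log (1 + y_j / s) - log (1 + al_j(s) + be_j(s)) ]`
where `x`, `y` are the sorted eigenvalues of `aᴴ a`, `bᴴ b` and `al(s)`, `be(s)` the sorted
eigenvalues of `A0(s) = aᴴ (T0 + s)⁻¹ a`, `A1(s) = bᴴ (T1 + s)⁻¹ b` (Mathlib's `eigenvalues₀`).
The right-hand side is exactly the left integrand of the matrix-free layer-cake assembly.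
Also: the same statement for `step0Integrand` (Step0.lean), and the `lintegral` consequence.
-/
import Mathlib
import Crest.Agent.GAD.Fiedler
import Crest.Agent.GAD.Psi4Rep
import Crest.Agent.GAD.Step0

set_option autoImplicit false

open scoped ComplexOrder Matrix
open Finset MeasureTheory

namespace Crest.Agent.GAD.FiedlerStep

open Crest.Agent.GAD Crest.Agent.GAD.Fiedler

variable {d d' : Type*} [Fintype d] [DecidableEq d] [Fintype d'] [DecidableEq d']

/-- Sorted (decreasing) eigenvalues of a matrix, `0` if it is not Hermitian. -/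
noncomputable def sortedEig {n : Type*} [Fintype n] [DecidableEq n] (H : Matrix n n ℂ) :
    Fin (Fintype.card n) → ℝ :=
  if h : H.IsHermitian then h.eigenvalues₀ else 0

theorem sortedEig_eq {n : Type*} [Fintype n] [DecidableEq n] {H : Matrix n n ℂ}
    (h : H.IsHermitian) : sortedEig H = h.eigenvalues₀ := dif_pos h

theorem sortedEig_antitone {n : Type*} [Fintype n] [DecidableEq n] (H : Matrix n n ℂ) :
    Antitone (sortedEig H) := by
  unfold sortedEig
  split_ifs with h
  · exact h.eigenvalues₀_antitone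
  · exact antitone_const

theorem sortedEig_nonneg {n : Type*} [Fintype n] [DecidableEq n] {H : Matrix n n ℂ}
    (h : H.PosSemidef) (j : Fin (Fintype.card n)) : 0 ≤ sortedEig H j := by
  rw [sortedEig_eq h.isHermitian]; exact eigenvalues₀_nonneg h j

/-- Sorted eigenvalues of the Gram matrix `aᴴ a`. -/
noncomputable def gramEig (a : Matrix d d' ℂ) : Fin (Fintype.card d') → ℝ := sortedEig (aᴴ * a)

/-- Sorted eigenvalues of `A(s) = aᴴ (T + s)⁻¹ a`. -/
noncomputable def armEig (a : Matrix d d' ℂ) (T : Matrix d d ℂ) (s : ℝ) :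
    Fin (Fintype.card d') → ℝ := sortedEig (armMat a T s)

omit [DecidableEq d] in
theorem gramEig_nonneg (a : Matrix d d' ℂ) (j : Fin (Fintype.card d')) : 0 ≤ gramEig a j :=
  sortedEig_nonneg (Matrix.posSemidef_conjTranspose_mul_self a) j

theorem armEig_nonneg (a : Matrix d d' ℂ) {T : Matrix d d ℂ} (hT : T.PosSemidef) {s : ℝ}
    (hs : 0 < s) (j : Fin (Fintype.card d')) : 0 ≤ armEig a T s j :=
  sortedEig_nonneg (posSemidef_armMat a hT hs) j

/-- `log det (1 + s⁻¹ H) = ∑_j log (1 + λ_j / s)` for PSD `H`, `s > 0` (sorted eigenvalues). -/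
theorem log_det_one_add_inv_smul {n : Type*} [Fintype n] [DecidableEq n] {H : Matrix n n ℂ}
    (hH : H.PosSemidef) {s : ℝ} (hs : 0 < s) :
    Real.log ((1 + ((s : ℂ)⁻¹) • H).det.re) = ∑ j, Real.log (1 + sortedEig H j / s) := by
  have hHh := hH.isHermitian
  have hs' : (s : ℂ) ≠ 0 := Complex.ofReal_ne_zero.mpr hs.ne'
  have h1 : (1 : Matrix n n ℂ) + ((s : ℂ)⁻¹) • H
      = ((s : ℂ)⁻¹) • (H + (s : ℂ) • (1 : Matrix n n ℂ)) := by
    rw [smul_add, smul_smul, inv_mul_cancel₀ hs', one_smul, add_comm]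
  have h2 : ((1 : Matrix n n ℂ) + ((s : ℂ)⁻¹) • H).det
      = ((∏ j, (1 + sortedEig H j / s) : ℝ) : ℂ) := by
    have hdet : (H + (s : ℂ) • (1 : Matrix n n ℂ)).det
        = ∏ j, ((hHh.eigenvalues j + s : ℝ) : ℂ) := by
      have h := det_add_smul_one_eq_prod (𝕜 := ℂ) hHh s
      simpa using h
    rw [h1, Matrix.det_smul, hdet, sortedEig_eq hHh]
    have hcard : ((s : ℂ)⁻¹) ^ Fintype.card n
        = ∏ _j : Fin (Fintype.card n), ((s : ℂ)⁻¹) := by simp
    rw [← Equiv.prod_comp (Fintype.equivOfCardEq (Fintype.card_fin (Fintype.card n)))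
      (fun j => (((hHh.eigenvalues j + s : ℝ)) : ℂ))]
    rw [hcard, ← Finset.prod_mul_distrib]
    push_cast
    apply Finset.prod_congr rfl
    intro j _
    rw [eigenvalues_equiv]
    field_simp
    ring
  rw [h2]
  have hre : (((∏ j, (1 + sortedEig H j / s) : ℝ) : ℂ)).re = ∏ j, (1 + sortedEig H j / s) :=
    Complex.ofReal_re _
  rw [hre, Real.log_prod]
  intro j _
  have := sortedEig_nonneg hH j
  have : 0 < 1 + sortedEig H j / s := by positivity
  exact this.ne'

/-- **Fixed-`s` Fiedler step** for `psi4Integrand`. -/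
theorem psi4Integrand_le_sum (a b : Matrix d d' ℂ) {T0 T1 : Matrix d d ℂ}
    (hT0 : T0.PosSemidef) (hT1 : T1.PosSemidef) {s : ℝ} (hs : 0 < s) :
    psi4Integrand a b T0 T1 s ≤
      ∑ j, (Real.log (1 + gramEig a j / s) + Real.log (1 + gramEig b j / s)
        - Real.log (1 + armEig a T0 s j + armEig b T1 s j)) := by
  have hA := posSemidef_armMat a hT0 hs
  have hB := posSemidef_armMat b hT1 hs
  have hF := fiedler_sum_log_le (𝕜 := ℂ) hA hB
  unfold psi4Integrand
  rw [log_det_one_add_inv_smul (Matrix.posSemidef_conjTranspose_mul_self a) hs,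
    log_det_one_add_inv_smul (Matrix.posSemidef_conjTranspose_mul_self b) hs,
    Finset.sum_sub_distrib, Finset.sum_add_distrib]
  have e : ∑ j, Real.log (1 + armEig a T0 s j + armEig b T1 s j)
      = ∑ j, Real.log (1 + hA.isHermitian.eigenvalues₀ j + hB.isHermitian.eigenvalues₀ j) := by
    simp only [armEig, sortedEig_eq hA.isHermitian, sortedEig_eq hB.isHermitian]
  rw [e]
  have hF' : ∑ j, Real.log (1 + hA.isHermitian.eigenvalues₀ j + hB.isHermitian.eigenvalues₀ j)
      ≤ Real.log ((1 + armMat a T0 s + armMat b T1 s).det.re) := hF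
  simp only [gramEig]
  linarith

/-- The same for `step0Integrand` (Step0.lean): the two integrands coincide. -/
theorem step0Integrand_eq_psi4Integrand (a b : Matrix d d' ℂ) (T0 T1 : Matrix d d ℂ) (s : ℝ) :
    step0Integrand a b T0 T1 s = psi4Integrand a b T0 T1 s := rfl

theorem step0Integrand_le_sum (a b : Matrix d d' ℂ) {T0 T1 : Matrix d d ℂ}
    (hT0 : T0.PosSemidef) (hT1 : T1.PosSemidef) {s : ℝ} (hs : 0 < s) :
    step0Integrand a b T0 T1 s ≤
      ∑ j, (Real.log (1 + gramEig a j / s) + Real.log (1 + gramEig b j / s)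
        - Real.log (1 + armEig a T0 s j + armEig b T1 s j)) :=
  psi4Integrand_le_sum a b hT0 hT1 hs

/-! ### Raw forms (no auxiliary definitions), for the AD4 glue -/

theorem sortedEig_apply_eq_dite {n : Type*} [Fintype n] [DecidableEq n] (H : Matrix n n ℂ)
    (j : Fin (Fintype.card n)) :
    sortedEig H j = if h : H.IsHermitian then h.eigenvalues₀ j else 0 := by
  unfold sortedEig
  split_ifs <;> rfl

omit [DecidableEq d] in
theorem gramEig_eq (a : Matrix d d' ℂ) :
    gramEig a = (Matrix.isHermitian_conjTranspose_mul_self a).eigenvalues₀ :=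
  sortedEig_eq _

theorem armEig_eq_dite (a : Matrix d d' ℂ) (T : Matrix d d ℂ) (s : ℝ)
    (j : Fin (Fintype.card d')) :
    armEig a T s j = if h : (step0Res a T s).IsHermitian then h.eigenvalues₀ j else 0 :=
  sortedEig_apply_eq_dite _ j

/-- `∑_j x_j = tr (a aᴴ)` for the sorted eigenvalues `x` of `aᴴ a`. -/
theorem sum_gramEig (a : Matrix d d' ℂ) : ∑ j, gramEig a j = (a * aᴴ).trace.re := by
  have h := Matrix.isHermitian_conjTranspose_mul_self a
  rw [gramEig_eq, sum_eigenvalues₀_eq h, Matrix.trace_mul_comm, h.trace_eq_sum_eigenvalues]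
  simp

/-- **Row A4 (POINTWISE), raw form**: for `0 < s`,
`step0Integrand a b T0 T1 s ≤ ∑ j, (log (1 + x j / s) + log (1 + y j / s) - log (1 + al j s + be j s))`
with `x j`, `y j` the Mathlib-sorted eigenvalues of `aᴴ a`, `bᴴ b` and `al j s`, `be j s` those
of `step0Res a T0 s`, `step0Res b T1 s` (written with `dite`, `0` in the non-Hermitian case). -/
theorem step0Integrand_le_sum_raw (a b : Matrix d d' ℂ) {T0 T1 : Matrix d d ℂ}
    (hT0 : T0.PosSemidef) (hT1 : T1.PosSemidef) {s : ℝ} (hs : 0 < s) :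
    step0Integrand a b T0 T1 s ≤
      ∑ j, (Real.log (1 + (Matrix.isHermitian_conjTranspose_mul_self a).eigenvalues₀ j / s)
        + Real.log (1 + (Matrix.isHermitian_conjTranspose_mul_self b).eigenvalues₀ j / s)
        - Real.log (1 + (if h : (step0Res a T0 s).IsHermitian then h.eigenvalues₀ j else 0)
            + (if h : (step0Res b T1 s).IsHermitian then h.eigenvalues₀ j else 0))) := by
  have h := step0Integrand_le_sum a b hT0 hT1 hs
  simpa only [gramEig_eq, armEig_eq_dite] using h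

/-- Positive semidefiniteness of `step0Res a T s = aᴴ (T + s)⁻¹ a`. -/
theorem step0Res_posSemidef (a : Matrix d d' ℂ) {T : Matrix d d ℂ} (hT : T.PosSemidef) {s : ℝ}
    (hs : 0 < s) : (step0Res a T s).PosSemidef :=
  posSemidef_armMat a hT hs

/-- `lintegral` form: the integral of the matrix integrand is bounded by the integral of the
eigenvalue-sequence integrand (the left side of the layer-cake assembly). -/
theorem lintegral_psi4Integrand_le (a b : Matrix d d' ℂ) {T0 T1 : Matrix d d ℂ}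
    (hT0 : T0.PosSemidef) (hT1 : T1.PosSemidef) :
    ∫⁻ s in Set.Ioi (0 : ℝ), ENNReal.ofReal (psi4Integrand a b T0 T1 s) ≤
      ∫⁻ s in Set.Ioi (0 : ℝ), ENNReal.ofReal
        (∑ j, (Real.log (1 + gramEig a j / s) + Real.log (1 + gramEig b j / s)
          - Real.log (1 + armEig a T0 s j + armEig b T1 s j))) := by
  apply MeasureTheory.setLIntegral_mono' measurableSet_Ioi
  intro s hs
  exact ENNReal.ofReal_le_ofReal (psi4Integrand_le_sum a b hT0 hT1 hs)

/-- **(AD4), matrix side reduced to sequences**: with `Ψ = S(a aᴴ) + S(b bᴴ) + S(T0) + S(T1)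
- S(O4)` (the negative of `Psi4`),
`ofReal Ψ ≤ ∫⁻_{(0,∞)} ofReal (∑_j [log (1 + x_j/s) + log (1 + y_j/s) - log (1 + al_j(s) + be_j(s))]) ds`. -/
theorem ofReal_negPsi4_le_lintegral (a b : Matrix d d' ℂ) {T0 T1 : Matrix d d ℂ}
    (hT0 : T0.PosSemidef) (hT1 : T1.PosSemidef) :
    ENNReal.ofReal (Crest.Quantum.vnEntropy (a * aᴴ) + Crest.Quantum.vnEntropy (b * bᴴ)
        + Crest.Quantum.vnEntropy T0 + Crest.Quantum.vnEntropy T1
        - Crest.Quantum.vnEntropy (O4 a b T0 T1)) ≤
      ∫⁻ s in Set.Ioi (0 : ℝ), ENNReal.ofReal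
        (∑ j, (Real.log (1 + gramEig a j / s) + Real.log (1 + gramEig b j / s)
          - Real.log (1 + armEig a T0 s j + armEig b T1 s j))) :=
  le_trans (logDetRep_psi4 a b hT0 hT1).ofReal_le_lintegral
    (lintegral_psi4Integrand_le a b hT0 hT1)

end Crest.Agent.GAD.FiedlerStep
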