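/-
Row 341 (GADC), helper52.  Final glue for `(AD4)`:

  `Crest.Agent.GAD.Glue52.ad4 : Crest.Agent.GAD.AD4`

assembled from the landed modules
* `Step0Scalar.step0_AD4_of_lintegral_le` (helper88): `AD4` from ONE `lintegral` inequality,
* `FiedlerStep.step0Integrand_le_sum` (helper95): fixed-`s` Fiedler step,
* `Assembly.lintegral_decoupled_le_of_antitoneOn`, `lintegral_scalar_eq` (helper60): layer cake,
* `Inertia` package `al`, `pp` (h1)-(h4): matrix-side hypotheses of the assembly,
* `AD4Lprime.AD4` (helper33): the target `Prop`.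
-/
import Mathlib
import Crest.Agent.GAD.Assembly
import Crest.Agent.GAD.Inertia
import Crest.Agent.GAD.Step0Scalar
import Crest.Agent.GAD.FiedlerStep
import Crest.Agent.GAD.AD4Lprime

set_option autoImplicit false

open scoped ComplexOrder Matrix ENNReal
open MeasureTheory Set

namespace Crest.Agent.GAD.Glue52

open Crest.Agent.GAD Crest.Agent.GAD.FiedlerStep

variable {d d' : Type*} [Fintype d] [DecidableEq d] [Fintype d'] [DecidableEq d']

theorem gramEig_eq_pp (a : Matrix d d' ℂ) : gramEig a = Inertia.pp a :=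
  sortedEig_eq (Matrix.isHermitian_conjTranspose_mul_self a)

theorem armEig_eq_al (a : Matrix d d' ℂ) {T : Matrix d d ℂ} (hT : T.IsHermitian) (s : ℝ) :
    armEig a T s = Inertia.al a hT s :=
  sortedEig_eq (Inertia.resA_isHermitian a hT s)

/-- The decoupled `s`-integral is bounded by the scalar target `I4` at the traces. -/
theorem lintegral_sum_le_I4 (a b : Matrix d d' ℂ) {T0 T1 : Matrix d d ℂ}
    (hT0 : T0.PosSemidef) (hT1 : T1.PosSemidef) :
    ∫⁻ s in Ioi (0:ℝ), ENNReal.ofReal ((∑ j, Real.log (1 + Inertia.pp a j / s))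
        + (∑ j, Real.log (1 + Inertia.pp b j / s))
        - ∑ k, Real.log (1 + Inertia.al a hT0.1 s k + Inertia.al b hT1.1 s k))
      ≤ I4 (a * aᴴ).trace.re (b * bᴴ).trace.re T0.trace.re T1.trace.re := by
  have key := lintegral_decoupled_le_of_antitoneOn (Inertia.pp a) (Inertia.pp b)
    (fun s k => Inertia.al a hT0.1 s k) (fun s k => Inertia.al b hT1.1 s k)
    T0.trace.re T1.trace.re (Inertia.pp_nonneg a) (Inertia.pp_nonneg b)
    (fun s hs k => Inertia.al_nonneg a hT0 hs k) (fun s hs k => Inertia.al_nonneg b hT1 hs k)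
    (fun k => Inertia.al_antitoneOn a hT0 k) (fun k => Inertia.al_antitoneOn b hT1 k)
    (fun s hs u _ => by
      have h := Inertia.card_al_le a hT0 hs u
      rwa [Fintype.card_subtype, Fintype.card_subtype] at h)
    (fun s hs u _ => by
      have h := Inertia.card_al_le b hT1 hs u
      rwa [Fintype.card_subtype, Fintype.card_subtype] at h)
    (fun u hu => by
      have h := Inertia.ofReal_le_lintegral_card_al a hT0 hu
      rw [Inertia.sum_pp]
      refine h.trans (le_of_eq ?_)
      refine setLIntegral_congr_fun measurableSet_Ioi fun s _ => ?_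
      rw [Fintype.card_subtype])
    (fun u hu => by
      have h := Inertia.ofReal_le_lintegral_card_al b hT1 hu
      rw [Inertia.sum_pp]
      refine h.trans (le_of_eq ?_)
      refine setLIntegral_congr_fun measurableSet_Ioi fun s _ => ?_
      rw [Fintype.card_subtype])
  rwa [Inertia.sum_pp, Inertia.sum_pp] at key

/-- (MID): the `s`-integral of the matrix integrand is at most that of the scalar integrand. -/
theorem lintegral_step0Integrand_le (a b : Matrix d d' ℂ) {T0 T1 : Matrix d d ℂ}
    (hT0 : T0.PosSemidef) (hT1 : T1.PosSemidef) :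
    ∫⁻ s in Ioi (0:ℝ), ENNReal.ofReal (step0Integrand a b T0 T1 s)
      ≤ ∫⁻ s in Ioi (0:ℝ), ENNReal.ofReal
          (step0ScalarIntegrand (a * aᴴ).trace.re (b * bᴴ).trace.re T0.trace.re T1.trace.re s) := by
  have hx : 0 ≤ (a * aᴴ).trace.re :=
    (Complex.nonneg_iff.mp (Matrix.posSemidef_self_mul_conjTranspose a).trace_nonneg).1
  have hy : 0 ≤ (b * bᴴ).trace.re :=
    (Complex.nonneg_iff.mp (Matrix.posSemidef_self_mul_conjTranspose b).trace_nonneg).1
  have hw0 : 0 ≤ T0.trace.re := (Complex.nonneg_iff.mp hT0.trace_nonneg).1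
  have hw1 : 0 ≤ T1.trace.re := (Complex.nonneg_iff.mp hT1.trace_nonneg).1
  have hsc := lintegral_scalar_eq (a * aᴴ).trace.re (b * bᴴ).trace.re T0.trace.re T1.trace.re
    hx hy hw0 hw1
  have hR : ∫⁻ s in Ioi (0:ℝ), ENNReal.ofReal
      (step0ScalarIntegrand (a * aᴴ).trace.re (b * bᴴ).trace.re T0.trace.re T1.trace.re s)
      = I4 (a * aᴴ).trace.re (b * bᴴ).trace.re T0.trace.re T1.trace.re := hsc
  rw [hR]
  refine le_trans ?_ (lintegral_sum_le_I4 a b hT0 hT1)
  refine setLIntegral_mono' measurableSet_Ioi fun s hs => ?_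
  apply ENNReal.ofReal_le_ofReal
  have h := step0Integrand_le_sum a b hT0 hT1 (s := s) hs
  rw [gramEig_eq_pp, gramEig_eq_pp, armEig_eq_al a hT0.1, armEig_eq_al b hT1.1,
    Finset.sum_sub_distrib, Finset.sum_add_distrib] at h
  exact h

/-- **(AD4)**: `Φ₄ ≤ Ψ₄` at the traces, for rectangular `a, b` and PSD leaves `T0, T1`. -/
theorem ad4 : AD4 := by
  intro d d' _ _ _ _ a b T0 T1 hT0 hT1
  have h := step0_AD4_of_lintegral_le a b hT0 hT1 (lintegral_step0Integrand_le a b hT0 hT1)
  unfold step0ScalarDefect step0O at h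
  unfold phi4 psi4
  linarith

end Crest.Agent.GAD.Glue52
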