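import Crest.Agent.GAD.Assembly
import Crest.Agent.GAD.Step0Scalar
import Crest.Agent.GAD.Fiedler
import Crest.Agent.GAD.Inertia
import Crest.Agent.GAD.AD4Lprime

/-!
# Row 341: the four-piece inequality `(AD4)` (board #1597), final glue

`ad4_holds : AD4` from
* `Step0` / `Step0Scalar` (helper88): log-det representation, reduction to an `s`-integral bound;
* `Fiedler` (helper95): `∑ log (1 + α_k + β_k) ≤ log det (1 + A0 + A1)`;
* `Inertia` (helper24): the package (h1)-(h4) for the sorted eigenvalues of `aᴴ (T + s)⁻¹ a`;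
* `LayerCake` / `Assembly` (helper60): layer cake, Tonelli assembly, scalar identity.
-/

set_option autoImplicit false
open MeasureTheory Set
open scoped ENNReal Matrix ComplexOrder

namespace Crest.Agent.GAD.AD4Glue60

open Crest.Agent.GAD

variable {d e : Type*} [Fintype d] [DecidableEq d] [Fintype e] [DecidableEq e]

/-- `log det (1 + aᴴ a / s) = ∑ log (1 + p_k / s)` with `p = Inertia.pp a`. -/
theorem log_gram_eq_sum (a : Matrix d e ℂ) {s : ℝ} (hs : 0 < s) :
    Real.log ((1 + (s : ℂ)⁻¹ • (aᴴ * a)).det.re) = ∑ k, Real.log (1 + Inertia.pp a k / s) := by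
  have hH : (aᴴ * a).IsHermitian := Matrix.isHermitian_conjTranspose_mul_self a
  have hP : (aᴴ * a).PosSemidef := Matrix.posSemidef_conjTranspose_mul_self a
  have hs' : (s : ℂ) ≠ 0 := Complex.ofReal_ne_zero.mpr hs.ne'
  have h1 : (1 : Matrix e e ℂ) + (s : ℂ)⁻¹ • (aᴴ * a)
      = (s : ℂ)⁻¹ • (aᴴ * a + (s : ℂ) • (1 : Matrix e e ℂ)) := by
    rw [smul_add, smul_smul, inv_mul_cancel₀ hs', one_smul, add_comm]
  have h2 : (1 + (s : ℂ)⁻¹ • (aᴴ * a)).det = ((∏ i, (1 + hH.eigenvalues i / s) : ℝ) : ℂ) := by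
    rw [h1, Matrix.det_smul, ld_det_add_smul_one _ hH s]
    push_cast
    rw [← Finset.card_univ, ← Finset.prod_const, ← Finset.prod_mul_distrib]
    apply Finset.prod_congr rfl
    intro i _
    field_simp
    ring
  rw [h2, Complex.ofReal_re, Real.log_prod]
  · unfold Inertia.pp
    simp_rw [Inertia.eigenvalues₀_eq_eigenvalues hH]
    exact (Equiv.sum_comp (Fintype.equivOfCardEq (Fintype.card_fin _))
      (fun i => Real.log (1 + hH.eigenvalues i / s))).symm
  · intro i _
    have := hP.eigenvalues_nonneg i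
    positivity

/-- Fiedler at fixed `s > 0`: the Step-(0) integrand is at most the decoupled integrand. -/
theorem step0Integrand_le (a b : Matrix d e ℂ) {T0 T1 : Matrix d d ℂ} (hT0 : T0.PosSemidef)
    (hT1 : T1.PosSemidef) {s : ℝ} (hs : 0 < s) :
    step0Integrand a b T0 T1 s ≤ (∑ k, Real.log (1 + Inertia.pp a k / s))
      + (∑ k, Real.log (1 + Inertia.pp b k / s))
      - ∑ k, Real.log (1 + Inertia.al a hT0.1 s k + Inertia.al b hT1.1 s k) := by
  unfold step0Integrand
  rw [log_gram_eq_sum a hs, log_gram_eq_sum b hs]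
  have hA := Inertia.resA_posSemidef a hT0 hs
  have hB := Inertia.resA_posSemidef b hT1 hs
  have hF : ∑ k, Real.log (1 + Inertia.al a hT0.1 s k + Inertia.al b hT1.1 s k)
      ≤ Real.log ((1 + step0Res a T0 s + step0Res b T1 s).det.re) :=
    fiedler_sum_log_le (𝕜 := ℂ) hA hB
  linarith

/-- The `s`-integral bound needed by `step0_AD4_of_lintegral_le`. -/
theorem lintegral_step0_le (a b : Matrix d e ℂ) {T0 T1 : Matrix d d ℂ} (hT0 : T0.PosSemidef)
    (hT1 : T1.PosSemidef) :
    ∫⁻ s in Ioi (0:ℝ), ENNReal.ofReal (step0Integrand a b T0 T1 s)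
      ≤ ∫⁻ s in Ioi (0:ℝ), ENNReal.ofReal
          (step0ScalarIntegrand (a * aᴴ).trace.re (b * bᴴ).trace.re T0.trace.re T1.trace.re s) := by
  have hx : 0 ≤ (a * aᴴ).trace.re :=
    (Complex.nonneg_iff.mp (Matrix.posSemidef_self_mul_conjTranspose a).trace_nonneg).1
  have hy : 0 ≤ (b * bᴴ).trace.re :=
    (Complex.nonneg_iff.mp (Matrix.posSemidef_self_mul_conjTranspose b).trace_nonneg).1
  have hw0 : 0 ≤ T0.trace.re := (Complex.nonneg_iff.mp hT0.trace_nonneg).1
  have hw1 : 0 ≤ T1.trace.re := (Complex.nonneg_iff.mp hT1.trace_nonneg).1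
  have h1 : ∫⁻ s in Ioi (0:ℝ), ENNReal.ofReal (step0Integrand a b T0 T1 s)
      ≤ ∫⁻ s in Ioi (0:ℝ), ENNReal.ofReal ((∑ k, Real.log (1 + Inertia.pp a k / s))
        + (∑ k, Real.log (1 + Inertia.pp b k / s))
        - ∑ k, Real.log (1 + Inertia.al a hT0.1 s k + Inertia.al b hT1.1 s k)) := by
    apply setLIntegral_mono' measurableSet_Ioi
    intro s hs
    exact ENNReal.ofReal_le_ofReal (step0Integrand_le a b hT0 hT1 hs)
  have h2 := lintegral_decoupled_le_of_antitoneOn (Inertia.pp a) (Inertia.pp b)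
    (fun s => Inertia.al a hT0.1 s) (fun s => Inertia.al b hT1.1 s) T0.trace.re T1.trace.re
    (Inertia.pp_nonneg a) (Inertia.pp_nonneg b)
    (fun s hs k => Inertia.al_nonneg a hT0 hs k) (fun s hs k => Inertia.al_nonneg b hT1 hs k)
    (fun k => Inertia.al_antitoneOn a hT0 k) (fun k => Inertia.al_antitoneOn b hT1 k)
    (fun s hs u _ => by
      rw [← Fintype.card_subtype, ← Fintype.card_subtype]
      exact Inertia.card_al_le a hT0 hs u)
    (fun s hs u _ => by
      rw [← Fintype.card_subtype, ← Fintype.card_subtype]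
      exact Inertia.card_al_le b hT1 hs u)
    (fun u hu => by
      rw [Inertia.sum_pp]
      simp_rw [← Fintype.card_subtype]
      exact Inertia.ofReal_le_lintegral_card_al a hT0 hu)
    (fun u hu => by
      rw [Inertia.sum_pp]
      simp_rw [← Fintype.card_subtype]
      exact Inertia.ofReal_le_lintegral_card_al b hT1 hu)
  rw [Inertia.sum_pp, Inertia.sum_pp, ← lintegral_scalar_eq _ _ _ _ hx hy hw0 hw1] at h2
  exact h1.trans h2

/-- **(AD4)**: `Φ₄ (tr a aᴴ) (tr b bᴴ) (tr T0) (tr T1) ≤ Ψ₄ a b T0 T1` for all PSD leaves and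
all rectangular `a`, `b`. -/
theorem ad4_holds : AD4 := by
  intro d d' _ _ _ _ a b T0 T1 hT0 hT1
  have h := step0_AD4_of_lintegral_le a b hT0 hT1 (lintegral_step0_le a b hT0 hT1)
  have e : phi4 (a * aᴴ).trace.re (b * bᴴ).trace.re T0.trace.re T1.trace.re
      = - step0ScalarDefect (a * aᴴ).trace.re (b * bᴴ).trace.re T0.trace.re T1.trace.re := by
    unfold phi4 psi4 step0ScalarDefect step0O
    ring
  rw [e]
  unfold psi4
  unfold step0O at h
  linarith

end Crest.Agent.GAD.AD4Glue60
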