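import Mathlib

/-!
# Layer-cake / Tonelli core of the (AD4) proof (row 341, helper38)

Matrix-free real analysis: with `μ = du dv / (1+u+v)^2` on `(0,∞)^2`,
`log(1+p) + log(1+q) - log(1+a+b) = μ-integral of a {0,1,2}-valued kernel`
(for `0 ≤ a ≤ p`, `0 ≤ b ≤ q`), and a Tonelli comparison principle `lc_main`.
-/

set_option autoImplicit false

open MeasureTheory Set Filter
open scoped ENNReal Topology

namespace Crest.Agent.GAD.LC38

/-- Lebesgue measure on the open half-line `(0, ∞)`. -/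
noncomputable abbrev lcS : Measure ℝ := volume.restrict (Ioi (0:ℝ))

/-- The density `1/(1+u+v)^2`. -/
noncomputable def lcW (z : ℝ × ℝ) : ℝ≥0∞ := ENNReal.ofReal (1 / (1 + z.1 + z.2) ^ 2)

/-- The layer-cake kernel for `log(1+p) + log(1+q) - log(1+a+b)`. -/
noncomputable def lcK (p q a b : ℝ) (z : ℝ × ℝ) : ℝ≥0∞ :=
  (if a < z.1 ∧ z.1 ≤ p then 1 else 0) + (if b < z.2 ∧ z.2 ≤ q then 1 else 0)
    + (if z.1 ≤ a ∧ z.2 ≤ b then 1 else 0)

theorem lcW_measurable : Measurable lcW := by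
  unfold lcW; fun_prop

theorem lcW_swap (z : ℝ × ℝ) : lcW z.swap = lcW z := by
  unfold lcW; simp [add_right_comm]

/-- FTC in `lintegral` form on a compact interval. -/
theorem lint_Ioc_deriv (f f' : ℝ → ℝ) (c d : ℝ) (hcd : c ≤ d)
    (hderiv : ∀ x ∈ Icc c d, HasDerivAt f (f' x) x)
    (hcont : ContinuousOn f' (Icc c d)) (hnn : ∀ x ∈ Icc c d, 0 ≤ f' x) :
    ∫⁻ x in Ioc c d, ENNReal.ofReal (f' x) = ENNReal.ofReal (f d - f c) := by
  have hint : IntervalIntegrable f' volume c d := by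
    apply ContinuousOn.intervalIntegrable
    rwa [uIcc_of_le hcd]
  have h1 : ∫ x in c..d, f' x = f d - f c := by
    apply intervalIntegral.integral_eq_sub_of_hasDerivAt
    · intro x hx; rw [uIcc_of_le hcd] at hx; exact hderiv x hx
    · exact hint
  rw [← h1, intervalIntegral.integral_of_le hcd]
  rw [ofReal_integral_eq_lintegral_ofReal]
  · exact hint.1
  · rw [Filter.EventuallyLE, ae_restrict_iff' measurableSet_Ioc]
    exact Filter.Eventually.of_forall fun x hx => hnn x ⟨hx.1.le, hx.2⟩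

/-- `∫_0^∞ dv/(c+v)^2 = 1/c`. -/
theorem lint_Ioi_inv_sq (c : ℝ) (hc : 0 < c) :
    ∫⁻ v in Ioi (0:ℝ), ENNReal.ofReal (1 / (c + v) ^ 2) = ENNReal.ofReal (1 / c) := by
  have hderiv : ∀ x ∈ Ici (0:ℝ), HasDerivAt (fun v : ℝ => -(c + v)⁻¹) (1 / (c + x) ^ 2) x := by
    intro x hx
    have hx0 : (0:ℝ) ≤ x := hx
    have hne : c + x ≠ 0 := by positivity
    have h1 : HasDerivAt (fun v : ℝ => c + v) 1 x := by
      simpa using (hasDerivAt_id x).const_add c
    have h2 : HasDerivAt (fun v : ℝ => -(c + v)⁻¹) (-(-1 / (c + x) ^ 2)) x := (h1.inv hne).neg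
    exact h2.congr_deriv (by ring)
  have htend : Tendsto (fun v : ℝ => -(c + v)⁻¹) atTop (𝓝 0) := by
    have : Tendsto (fun v : ℝ => (c + v)⁻¹) atTop (𝓝 0) :=
      tendsto_inv_atTop_zero.comp (tendsto_atTop_add_const_left _ c tendsto_id)
    simpa using this.neg
  have hnn : ∀ x ∈ Ioi (0:ℝ), 0 ≤ 1 / (c + x) ^ 2 := fun x hx => by positivity
  have hint := integrableOn_Ioi_deriv_of_nonneg' hderiv hnn htend
  have h1 := integral_Ioi_of_hasDerivAt_of_tendsto' hderiv hint htend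
  rw [← ofReal_integral_eq_lintegral_ofReal hint]
  · rw [h1]; congr 1; simp
  · rw [Filter.EventuallyLE, ae_restrict_iff' measurableSet_Ioi]
    exact Filter.Eventually.of_forall hnn

theorem hasDerivAt_neg_inv_add (c x : ℝ) (hne : c + x ≠ 0) :
    HasDerivAt (fun v : ℝ => -(c + v)⁻¹) (1 / (c + x) ^ 2) x := by
  have h1 : HasDerivAt (fun v : ℝ => c + v) 1 x := by
    simpa using (hasDerivAt_id x).const_add c
  have h2 : HasDerivAt (fun v : ℝ => -(c + v)⁻¹) (-(-1 / (c + x) ^ 2)) x := (h1.inv hne).neg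
  exact h2.congr_deriv (by ring)

theorem hasDerivAt_log_add (c x : ℝ) (hne : c + x ≠ 0) :
    HasDerivAt (fun v : ℝ => Real.log (c + v)) (1 / (c + x)) x := by
  have h1 : HasDerivAt (fun v : ℝ => c + v) 1 x := by
    simpa using (hasDerivAt_id x).const_add c
  exact h1.log hne

theorem meas_ite_one {α : Type*} [MeasurableSpace α] {P : α → Prop} [DecidablePred P]
    (h : MeasurableSet {x | P x}) : Measurable (fun x => if P x then (1:ℝ≥0∞) else 0) :=
  Measurable.ite h measurable_const measurable_const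

/-- inner integral of the weight over the whole half-line -/
theorem lint_lcW_full (u : ℝ) (hu : 0 < u) :
    ∫⁻ v, lcW (u, v) ∂lcS = ENNReal.ofReal (1 / (1 + u)) := by
  unfold lcW
  exact lint_Ioi_inv_sq (1 + u) (by linarith)

/-- inner integral of the weight over `(0, b]` -/
theorem lint_lcW_Iic (u b : ℝ) (hu : 0 < u) (hb : 0 ≤ b) :
    ∫⁻ v, (if v ≤ b then lcW (u, v) else 0) ∂lcS
      = ENNReal.ofReal (1 / (1 + u) - 1 / (1 + u + b)) := by
  have h1 : (fun v => if v ≤ b then lcW (u, v) else 0)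
      = (Iic b).indicator (fun v => lcW (u, v)) := by
    funext v; simp [Set.indicator, Set.mem_Iic]
  rw [h1, lintegral_indicator measurableSet_Iic, Measure.restrict_restrict measurableSet_Iic]
  have h2 : Iic b ∩ Ioi (0:ℝ) = Ioc 0 b := by ext v; simp [and_comm]
  rw [h2]
  unfold lcW
  have key := lint_Ioc_deriv (fun v : ℝ => -(1 + u + v)⁻¹) (fun v => 1 / (1 + u + v) ^ 2) 0 b hb
    (fun x hx => hasDerivAt_neg_inv_add (1 + u) x (by have := hx.1; positivity))
    (continuousOn_const.div (Continuous.continuousOn (by fun_prop))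
      (fun x hx => by have := hx.1; positivity))
    (fun x hx => by have := hx.1; positivity)
  rw [key]
  congr 1
  simp only [add_zero, one_div]
  ring

theorem lc_piece1 (a p : ℝ) (ha : 0 ≤ a) (hap : a ≤ p) :
    ∫⁻ z, (if a < z.1 ∧ z.1 ≤ p then (1:ℝ≥0∞) else 0) * lcW z ∂(lcS.prod lcS)
      = ENNReal.ofReal (Real.log (1 + p) - Real.log (1 + a)) := by
  have hm : Measurable (fun z : ℝ × ℝ => (if a < z.1 ∧ z.1 ≤ p then (1:ℝ≥0∞) else 0) * lcW z) :=
    (meas_ite_one (show MeasurableSet {z : ℝ × ℝ | a < z.1 ∧ z.1 ≤ p} from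
      (measurableSet_lt measurable_const measurable_fst).inter
      (measurableSet_le measurable_fst measurable_const))).mul lcW_measurable
  rw [lintegral_prod _ hm.aemeasurable]
  have hin : ∀ᵐ u ∂lcS, ∫⁻ v, (if a < u ∧ u ≤ p then (1:ℝ≥0∞) else 0) * lcW (u, v) ∂lcS
      = (Ioc a p).indicator (fun u => ENNReal.ofReal (1 / (1 + u))) u := by
    rw [ae_restrict_iff' measurableSet_Ioi]
    refine Filter.Eventually.of_forall fun u hu => ?_
    rw [lintegral_const_mul' _ _ (by split_ifs <;> simp), lint_lcW_full u hu]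
    by_cases h : a < u ∧ u ≤ p
    · simp [Set.indicator, h]
    · simp [Set.indicator, h]
  rw [lintegral_congr_ae hin, lintegral_indicator measurableSet_Ioc,
    Measure.restrict_restrict measurableSet_Ioc]
  have h2 : Ioc a p ∩ Ioi (0:ℝ) = Ioc a p := by
    ext v; simp only [mem_inter_iff, mem_Ioc, mem_Ioi]; constructor
    · exact fun h => h.1
    · exact fun h => ⟨h, lt_of_le_of_lt ha h.1⟩
  rw [h2]
  have hpos : ∀ x ∈ Icc a p, (0:ℝ) < 1 + x := fun x hx => by have := hx.1; linarith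
  exact lint_Ioc_deriv (fun u => Real.log (1 + u)) (fun u => 1 / (1 + u)) a p hap
    (fun x hx => hasDerivAt_log_add 1 x (hpos x hx).ne')
    (continuousOn_const.div (Continuous.continuousOn (by fun_prop))
      (fun x hx => (hpos x hx).ne'))
    (fun x hx => one_div_nonneg.mpr (hpos x hx).le)

theorem lc_piece2 (b q : ℝ) (hb : 0 ≤ b) (hbq : b ≤ q) :
    ∫⁻ z, (if b < z.2 ∧ z.2 ≤ q then (1:ℝ≥0∞) else 0) * lcW z ∂(lcS.prod lcS)
      = ENNReal.ofReal (Real.log (1 + q) - Real.log (1 + b)) := by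
  rw [← lc_piece1 b q hb hbq, ← lintegral_prod_swap]
  refine lintegral_congr fun z => ?_
  rw [lcW_swap]; rfl

theorem lc_piece3 (a b : ℝ) (ha : 0 ≤ a) (hb : 0 ≤ b) :
    ∫⁻ z, (if z.1 ≤ a ∧ z.2 ≤ b then (1:ℝ≥0∞) else 0) * lcW z ∂(lcS.prod lcS)
      = ENNReal.ofReal (Real.log (1 + a) + Real.log (1 + b) - Real.log (1 + a + b)) := by
  have hm : Measurable (fun z : ℝ × ℝ => (if z.1 ≤ a ∧ z.2 ≤ b then (1:ℝ≥0∞) else 0) * lcW z) :=
    (meas_ite_one (show MeasurableSet {z : ℝ × ℝ | z.1 ≤ a ∧ z.2 ≤ b} from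
      (measurableSet_le measurable_fst measurable_const).inter
      (measurableSet_le measurable_snd measurable_const))).mul lcW_measurable
  rw [lintegral_prod _ hm.aemeasurable]
  have hin : ∀ᵐ u ∂lcS, ∫⁻ v, (if u ≤ a ∧ v ≤ b then (1:ℝ≥0∞) else 0) * lcW (u, v) ∂lcS
      = (Iic a).indicator (fun u => ENNReal.ofReal (1 / (1 + u) - 1 / (1 + u + b))) u := by
    rw [ae_restrict_iff' measurableSet_Ioi]
    refine Filter.Eventually.of_forall fun u hu => ?_
    by_cases h : u ≤ a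
    · have h3 : (fun v => (if u ≤ a ∧ v ≤ b then (1:ℝ≥0∞) else 0) * lcW (u, v))
          = fun v => if v ≤ b then lcW (u, v) else 0 := by
        funext v; by_cases hv : v ≤ b <;> simp [h, hv]
      rw [h3, lint_lcW_Iic u b hu hb]; simp [Set.indicator, h]
    · simp [Set.indicator, h]
  rw [lintegral_congr_ae hin, lintegral_indicator measurableSet_Iic,
    Measure.restrict_restrict measurableSet_Iic]
  have h2 : Iic a ∩ Ioi (0:ℝ) = Ioc 0 a := by ext v; simp [and_comm]
  rw [h2]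
  have key := lint_Ioc_deriv (fun u => Real.log (1 + u) - Real.log (1 + b + u))
    (fun u => 1 / (1 + u) - 1 / (1 + b + u)) 0 a ha
    (fun x hx => (hasDerivAt_log_add 1 x (by have := hx.1; positivity)).sub
      (hasDerivAt_log_add (1 + b) x (by have := hx.1; positivity)))
    ((continuousOn_const.div (Continuous.continuousOn (by fun_prop))
      (fun x hx => by have := hx.1; positivity)).sub
     (continuousOn_const.div (Continuous.continuousOn (by fun_prop))
      (fun x hx => by have := hx.1; positivity)))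
    (fun x hx => by
      have := hx.1
      exact sub_nonneg.mpr (one_div_le_one_div_of_le (by positivity) (by linarith)))
  have e1 : (fun u : ℝ => ENNReal.ofReal (1 / (1 + u) - 1 / (1 + u + b)))
      = fun u : ℝ => ENNReal.ofReal (1 / (1 + u) - 1 / (1 + b + u)) := by
    funext u; rw [add_right_comm]
  rw [e1, key]
  congr 1
  simp only [add_zero, Real.log_one]
  ring_nf

theorem lint_add3 {α : Type*} [MeasurableSpace α] (μ : Measure α) (f g h : α → ℝ≥0∞)
    (hf : Measurable f) (hg : Measurable g) :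
    ∫⁻ z, (f z + g z + h z) ∂μ = ∫⁻ z, f z ∂μ + ∫⁻ z, g z ∂μ + ∫⁻ z, h z ∂μ := by
  rw [lintegral_add_left (show Measurable (fun a => f a + g a) from hf.add hg),
    lintegral_add_left hf]

theorem lc_cell (p q a b : ℝ) (ha : 0 ≤ a) (hap : a ≤ p) (hb : 0 ≤ b) (hbq : b ≤ q) :
    ∫⁻ z, lcK p q a b z * lcW z ∂(lcS.prod lcS)
      = ENNReal.ofReal (Real.log (1 + p) + Real.log (1 + q) - Real.log (1 + a + b)) := by
  have hm1 : Measurable (fun z : ℝ × ℝ => (if a < z.1 ∧ z.1 ≤ p then (1:ℝ≥0∞) else 0) * lcW z) :=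
    (meas_ite_one (show MeasurableSet {z : ℝ × ℝ | a < z.1 ∧ z.1 ≤ p} from
      (measurableSet_lt measurable_const measurable_fst).inter
      (measurableSet_le measurable_fst measurable_const))).mul lcW_measurable
  have hm2 : Measurable (fun z : ℝ × ℝ => (if b < z.2 ∧ z.2 ≤ q then (1:ℝ≥0∞) else 0) * lcW z) :=
    (meas_ite_one (show MeasurableSet {z : ℝ × ℝ | b < z.2 ∧ z.2 ≤ q} from
      (measurableSet_lt measurable_const measurable_snd).inter
      (measurableSet_le measurable_snd measurable_const))).mul lcW_measurable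
  unfold lcK
  simp only [add_mul]
  rw [lint_add3 _ _ _ _ hm1 hm2, lc_piece1 a p ha hap,
    lc_piece2 b q hb hbq, lc_piece3 a b ha hb]
  have h1 : 0 ≤ Real.log (1 + p) - Real.log (1 + a) :=
    sub_nonneg.mpr (Real.log_le_log (by linarith) (by linarith))
  have h2 : 0 ≤ Real.log (1 + q) - Real.log (1 + b) :=
    sub_nonneg.mpr (Real.log_le_log (by linarith) (by linarith))
  have h3 : 0 ≤ Real.log (1 + a) + Real.log (1 + b) - Real.log (1 + a + b) := by
    rw [← Real.log_mul (by positivity) (by positivity)]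
    exact sub_nonneg.mpr (Real.log_le_log (by positivity) (by nlinarith))
  rw [← ENNReal.ofReal_add h1 h2, ← ENNReal.ofReal_add (add_nonneg h1 h2) h3]
  congr 1
  ring

theorem lcK_measurable_uncurry (p q a b : ℝ → ℝ) (hp : Measurable p) (hq : Measurable q)
    (ha : Measurable a) (hb : Measurable b) :
    Measurable (fun w : ℝ × (ℝ × ℝ) => lcK (p w.1) (q w.1) (a w.1) (b w.1) w.2) := by
  unfold lcK
  have m1 : Measurable (fun w : ℝ × (ℝ × ℝ) => w.2.1) := measurable_fst.comp measurable_snd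
  have m2 : Measurable (fun w : ℝ × (ℝ × ℝ) => w.2.2) := measurable_snd.comp measurable_snd
  have mp : Measurable (fun w : ℝ × (ℝ × ℝ) => p w.1) := hp.comp measurable_fst
  have mq : Measurable (fun w : ℝ × (ℝ × ℝ) => q w.1) := hq.comp measurable_fst
  have ma : Measurable (fun w : ℝ × (ℝ × ℝ) => a w.1) := ha.comp measurable_fst
  have mb : Measurable (fun w : ℝ × (ℝ × ℝ) => b w.1) := hb.comp measurable_fst
  refine ((meas_ite_one ?_).add (meas_ite_one ?_)).add (meas_ite_one ?_)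
  · exact (measurableSet_lt ma m1).inter (measurableSet_le m1 mp)
  · exact (measurableSet_lt mb m2).inter (measurableSet_le m2 mq)
  · exact (measurableSet_le m1 ma).inter (measurableSet_le m2 mb)

theorem lcK_measurable (p q a b : ℝ) : Measurable (lcK p q a b) := by
  have := (lcK_measurable_uncurry (fun _ => p) (fun _ => q) (fun _ => a) (fun _ => b)
    measurable_const measurable_const measurable_const measurable_const).comp
    (measurable_prodMk_left (x := (0:ℝ)))
  exact this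

/-- Tonelli step. -/
theorem lc_tonelli {J : Type*} [Fintype J] (p q a b : J → ℝ → ℝ)
    (hp : ∀ j, Measurable (p j)) (hq : ∀ j, Measurable (q j))
    (ha : ∀ j, Measurable (a j)) (hb : ∀ j, Measurable (b j))
    (h : ∀ j s, 0 < s → 0 ≤ a j s ∧ a j s ≤ p j s ∧ 0 ≤ b j s ∧ b j s ≤ q j s) :
    ∫⁻ s, ENNReal.ofReal (∑ j, (Real.log (1 + p j s) + Real.log (1 + q j s)
        - Real.log (1 + a j s + b j s))) ∂lcS
      = ∫⁻ z, (∫⁻ s, ∑ j, lcK (p j s) (q j s) (a j s) (b j s) z ∂lcS) * lcW z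
          ∂(lcS.prod lcS) := by
  have hnn : ∀ j s, 0 < s → 0 ≤ Real.log (1 + p j s) + Real.log (1 + q j s)
      - Real.log (1 + a j s + b j s) := by
    intro j s hs
    obtain ⟨h1, h2, h3, h4⟩ := h j s hs
    have hp0 : 0 ≤ p j s := h1.trans h2
    have hq0 : 0 ≤ q j s := h3.trans h4
    have e1 : Real.log (1 + a j s + b j s) ≤ Real.log ((1 + p j s) * (1 + q j s)) :=
      Real.log_le_log (by positivity) (by nlinarith)
    rw [Real.log_mul (by positivity) (by positivity)] at e1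
    linarith
  have step1 : ∀ᵐ s ∂lcS, ENNReal.ofReal (∑ j, (Real.log (1 + p j s) + Real.log (1 + q j s)
        - Real.log (1 + a j s + b j s)))
      = ∫⁻ z, ∑ j, lcK (p j s) (q j s) (a j s) (b j s) z * lcW z ∂(lcS.prod lcS) := by
    rw [ae_restrict_iff' measurableSet_Ioi]
    refine Filter.Eventually.of_forall fun s hs => ?_
    have hs' : (0:ℝ) < s := hs
    rw [ENNReal.ofReal_sum_of_nonneg (fun j _ => hnn j s hs'),
      lintegral_finsetSum (s := Finset.univ)
        (f := fun j z => lcK (p j s) (q j s) (a j s) (b j s) z * lcW z)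
        (fun j _ => ((lcK_measurable _ _ _ _).mul lcW_measurable))]
    refine Finset.sum_congr rfl fun j _ => ?_
    obtain ⟨h1, h2, h3, h4⟩ := h j s hs'
    rw [lc_cell _ _ _ _ h1 h2 h3 h4]
  rw [lintegral_congr_ae step1]
  have hmeas : Measurable (Function.uncurry fun (s : ℝ) (z : ℝ × ℝ) =>
      ∑ j, lcK (p j s) (q j s) (a j s) (b j s) z * lcW z) := by
    refine Finset.measurable_sum _ fun j _ => ?_
    exact (lcK_measurable_uncurry (p j) (q j) (a j) (b j) (hp j) (hq j) (ha j) (hb j)).mul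
      (lcW_measurable.comp measurable_snd)
  rw [lintegral_lintegral_swap hmeas.aemeasurable]
  refine lintegral_congr fun z => ?_
  simp_rw [← Finset.sum_mul]
  rw [lintegral_mul_const' _ _ (by unfold lcW; exact ENNReal.ofReal_ne_top)]

/-- integral over the half-line of the indicator of a condition which, on `s > 0`, says
`s ∈ Ioc c d`. -/
theorem lint_ite_Ioc (cond : ℝ → Prop) [DecidablePred cond] (c d : ℝ) (hc : 0 ≤ c)
    (h : ∀ s, 0 < s → (cond s ↔ c < s ∧ s ≤ d)) :
    ∫⁻ s, (if cond s then (1:ℝ≥0∞) else 0) ∂lcS = ENNReal.ofReal (d - c) := by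
  have h1 : ∀ᵐ s ∂lcS, (if cond s then (1:ℝ≥0∞) else 0)
      = (Ioc c d).indicator (fun _ => (1:ℝ≥0∞)) s := by
    rw [ae_restrict_iff' measurableSet_Ioi]
    refine Filter.Eventually.of_forall fun s hs => ?_
    by_cases hcnd : cond s
    · have := (h s hs).mp hcnd
      simp [hcnd, Set.indicator, this.1, this.2]
    · have : ¬ (c < s ∧ s ≤ d) := fun h' => hcnd ((h s hs).mpr h')
      simp [hcnd, Set.indicator, this]
  rw [lintegral_congr_ae h1, lintegral_indicator measurableSet_Ioc, lintegral_const, one_mul,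
    Measure.restrict_apply_univ, Measure.restrict_apply measurableSet_Ioc]
  have h2 : Ioc c d ∩ Ioi (0:ℝ) = Ioc c d := by
    ext v; simp only [mem_inter_iff, mem_Ioc, mem_Ioi]
    exact ⟨fun h => h.1, fun h => ⟨h, lt_of_le_of_lt hc h.1⟩⟩
  rw [h2, Real.volume_Ioc]

theorem lcK_add_le_left (p q a b : ℝ) (hap : a ≤ p) (hbq : b ≤ q) (z : ℝ × ℝ) :
    lcK p q a b z + (if z.1 ≤ a then 1 else 0)
      ≤ (if z.1 ≤ p then 1 else 0) + (if z.2 ≤ q then 1 else 0) := by
  unfold lcK
  simp only [lt_iff_not_ge]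
  have h13 : z.1 ≤ a → z.1 ≤ p := fun h => h.trans hap
  have h24 : z.2 ≤ b → z.2 ≤ q := fun h => h.trans hbq
  by_cases h1 : z.1 ≤ a <;> by_cases h2 : z.2 ≤ b <;> by_cases h3 : z.1 ≤ p <;>
    by_cases h4 : z.2 ≤ q <;> simp [h1, h2, h3, h4] at h13 h24 ⊢

theorem lcK_add_le_right (p q a b : ℝ) (hap : a ≤ p) (hbq : b ≤ q) (z : ℝ × ℝ) :
    lcK p q a b z + (if z.2 ≤ b then 1 else 0)
      ≤ (if z.1 ≤ p then 1 else 0) + (if z.2 ≤ q then 1 else 0) := by
  unfold lcK
  simp only [lt_iff_not_ge]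
  have h13 : z.1 ≤ a → z.1 ≤ p := fun h => h.trans hap
  have h24 : z.2 ≤ b → z.2 ≤ q := fun h => h.trans hbq
  by_cases h1 : z.1 ≤ a <;> by_cases h2 : z.2 ≤ b <;> by_cases h3 : z.1 ≤ p <;>
    by_cases h4 : z.2 ≤ q <;> simp [h1, h2, h3, h4] at h13 h24 ⊢

theorem lint_outer (c u : ℝ) (hu : 0 < u) :
    ∫⁻ s, (if u ≤ c / s then (1:ℝ≥0∞) else 0) ∂lcS = ENNReal.ofReal (c / u) := by
  have := lint_ite_Ioc (fun s => u ≤ c / s) 0 (c / u) le_rfl (fun s hs => by
    rw [le_div_iff₀ hs, le_div_iff₀ hu]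
    constructor
    · intro h; exact ⟨hs, by linarith [mul_comm u s]⟩
    · intro h; linarith [mul_comm u s, h.2])
  simpa using this

theorem ofReal_max_zero (a : ℝ) : ENNReal.ofReal (max a 0) = ENNReal.ofReal a := by
  rcases le_total a 0 with h | h
  · rw [max_eq_right h, ENNReal.ofReal_of_nonpos h, ENNReal.ofReal_zero]
  · rw [max_eq_left h]

/-- Upper bound for the `s`-integral of the kernel sum at fixed `(u, v)`. -/
theorem lc_upper {J : Type*} [Fintype J] (x y : J → ℝ) (hx : ∀ j, 0 ≤ x j) (hy : ∀ j, 0 ≤ y j)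
    (al be : J → ℝ → ℝ) (hal_m : ∀ j, Measurable (al j)) (hbe_m : ∀ j, Measurable (be j))
    (hal : ∀ j s, 0 < s → al j s ≤ x j / s) (hbe : ∀ j s, 0 < s → be j s ≤ y j / s)
    (w0 w1 : ℝ) (hw0 : 0 ≤ w0) (hw1 : 0 ≤ w1) (u v : ℝ) (hu : 0 < u) (hv : 0 < v)
    (hc0 : ENNReal.ofReal ((∑ j, x j) / u - w0)
      ≤ ∫⁻ s, ∑ j, (if u ≤ al j s then (1:ℝ≥0∞) else 0) ∂lcS)
    (hc1 : ENNReal.ofReal ((∑ j, y j) / v - w1)
      ≤ ∫⁻ s, ∑ j, (if v ≤ be j s then (1:ℝ≥0∞) else 0) ∂lcS) :
    ∫⁻ s, ∑ j, lcK (x j / s) (y j / s) (al j s) (be j s) (u, v) ∂lcS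
      ≤ ENNReal.ofReal (min w0 ((∑ j, x j) / u)) + ENNReal.ofReal (min w1 ((∑ j, y j) / v))
        + ENNReal.ofReal (min ((∑ j, x j) / u - w0) ((∑ j, y j) / v - w1)) := by
  set P := (∑ j, x j) / u with hP
  set Q := (∑ j, y j) / v with hQ
  have hP0 : 0 ≤ P := div_nonneg (Finset.sum_nonneg fun j _ => hx j) hu.le
  have hQ0 : 0 ≤ Q := div_nonneg (Finset.sum_nonneg fun j _ => hy j) hv.le
  have hT : ∫⁻ s, ∑ j, ((if u ≤ x j / s then (1:ℝ≥0∞) else 0)
        + (if v ≤ y j / s then (1:ℝ≥0∞) else 0)) ∂lcS = ENNReal.ofReal (P + Q) := by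
    have m1 : ∀ j, Measurable (fun s : ℝ => if u ≤ x j / s then (1:ℝ≥0∞) else 0) := fun j =>
      meas_ite_one (measurableSet_le measurable_const (measurable_const.div measurable_id))
    have m2 : ∀ j, Measurable (fun s : ℝ => if v ≤ y j / s then (1:ℝ≥0∞) else 0) := fun j =>
      meas_ite_one (measurableSet_le measurable_const (measurable_const.div measurable_id))
    rw [lintegral_finsetSum (s := Finset.univ)
      (f := fun j s => (if u ≤ x j / s then (1:ℝ≥0∞) else 0)
        + (if v ≤ y j / s then (1:ℝ≥0∞) else 0))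
      (fun j _ => (m1 j).add (m2 j))]
    have e : ∀ j, ∫⁻ s, ((if u ≤ x j / s then (1:ℝ≥0∞) else 0)
        + (if v ≤ y j / s then (1:ℝ≥0∞) else 0)) ∂lcS
        = ENNReal.ofReal (x j / u) + ENNReal.ofReal (y j / v) := by
      intro j
      rw [lintegral_add_left (m1 j), lint_outer _ u hu, lint_outer _ v hv]
    simp_rw [e]
    rw [Finset.sum_add_distrib,
      ← ENNReal.ofReal_sum_of_nonneg (fun j _ => div_nonneg (hx j) hu.le),
      ← ENNReal.ofReal_sum_of_nonneg (fun j _ => div_nonneg (hy j) hv.le),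
      ← Finset.sum_div, ← Finset.sum_div, ← ENNReal.ofReal_add hP0 hQ0]
  have mN0 : Measurable (fun s : ℝ => ∑ j, (if u ≤ al j s then (1:ℝ≥0∞) else 0)) :=
    Finset.measurable_sum _ fun j _ => meas_ite_one (measurableSet_le measurable_const (hal_m j))
  have mN1 : Measurable (fun s : ℝ => ∑ j, (if v ≤ be j s then (1:ℝ≥0∞) else 0)) :=
    Finset.measurable_sum _ fun j _ => meas_ite_one (measurableSet_le measurable_const (hbe_m j))
  have hA0 : ∫⁻ s, ∑ j, lcK (x j / s) (y j / s) (al j s) (be j s) (u, v) ∂lcS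
      + ∫⁻ s, ∑ j, (if u ≤ al j s then (1:ℝ≥0∞) else 0) ∂lcS ≤ ENNReal.ofReal (P + Q) := by
    rw [← lintegral_add_right _ mN0, ← hT]
    refine lintegral_mono_ae ?_
    rw [ae_restrict_iff' measurableSet_Ioi]
    refine Filter.Eventually.of_forall fun s hs => ?_
    rw [← Finset.sum_add_distrib]
    exact Finset.sum_le_sum fun j _ =>
      lcK_add_le_left _ _ _ _ (hal j s hs) (hbe j s hs) (u, v)
  have hA1 : ∫⁻ s, ∑ j, lcK (x j / s) (y j / s) (al j s) (be j s) (u, v) ∂lcS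
      + ∫⁻ s, ∑ j, (if v ≤ be j s then (1:ℝ≥0∞) else 0) ∂lcS ≤ ENNReal.ofReal (P + Q) := by
    rw [← lintegral_add_right _ mN1, ← hT]
    refine lintegral_mono_ae ?_
    rw [ae_restrict_iff' measurableSet_Ioi]
    refine Filter.Eventually.of_forall fun s hs => ?_
    rw [← Finset.sum_add_distrib]
    exact Finset.sum_le_sum fun j _ =>
      lcK_add_le_right _ _ _ _ (hal j s hs) (hbe j s hs) (u, v)
  have hB0 : ∫⁻ s, ∑ j, lcK (x j / s) (y j / s) (al j s) (be j s) (u, v) ∂lcS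
      ≤ ENNReal.ofReal (P + Q - max (P - w0) 0) := by
    have h1 := (add_le_add_right hc0 _).trans hA0
    have h2 := ENNReal.le_sub_of_add_le_right ENNReal.ofReal_ne_top h1
    rw [ENNReal.ofReal_sub _ (le_max_right _ _), ofReal_max_zero]
    exact h2
  have hB1 : ∫⁻ s, ∑ j, lcK (x j / s) (y j / s) (al j s) (be j s) (u, v) ∂lcS
      ≤ ENNReal.ofReal (P + Q - max (Q - w1) 0) := by
    have h1 := (add_le_add_right hc1 _).trans hA1
    have h2 := ENNReal.le_sub_of_add_le_right ENNReal.ofReal_ne_top h1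
    rw [ENNReal.ofReal_sub _ (le_max_right _ _), ofReal_max_zero]
    exact h2
  have hG : ENNReal.ofReal (min w0 P) + ENNReal.ofReal (min w1 Q)
      + ENNReal.ofReal (min (P - w0) (Q - w1))
      = ENNReal.ofReal (min w0 P + min w1 Q + max (min (P - w0) (Q - w1)) 0) := by
    rw [ENNReal.ofReal_add (add_nonneg (le_min hw0 hP0) (le_min hw1 hQ0)) (le_max_right _ _),
      ENNReal.ofReal_add (le_min hw0 hP0) (le_min hw1 hQ0), ofReal_max_zero]
  rw [hG]
  rcases le_total (max (P - w0) 0) (max (Q - w1) 0) with h | h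
  · refine hB1.trans (ENNReal.ofReal_le_ofReal ?_)
    simp only [min_def, max_def] at h ⊢
    split_ifs at h ⊢ <;> linarith
  · refine hB0.trans (ENNReal.ofReal_le_ofReal ?_)
    simp only [min_def, max_def] at h ⊢
    split_ifs at h ⊢ <;> linarith

/-- Exact value of the `s`-integral of the kernel for the scalar data. -/
theorem lc_scalar (X Y w0 w1 u v : ℝ) (hw0 : 0 ≤ w0) (hw1 : 0 ≤ w1) (hu : 0 < u) (hv : 0 < v) :
    ∫⁻ s, lcK (X / s) (Y / s) (X / (s + w0)) (Y / (s + w1)) (u, v) ∂lcS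
      = ENNReal.ofReal (min w0 (X / u)) + ENNReal.ofReal (min w1 (Y / v))
        + ENNReal.ofReal (min (X / u - w0) (Y / v - w1)) := by
  unfold lcK
  dsimp only
  have m1 : Measurable (fun s : ℝ => if X / (s + w0) < u ∧ u ≤ X / s then (1:ℝ≥0∞) else 0) :=
    meas_ite_one (show MeasurableSet {s : ℝ | X / (s + w0) < u ∧ u ≤ X / s} from
      (measurableSet_lt (measurable_const.div (measurable_id.add_const _)) measurable_const).inter
      (measurableSet_le measurable_const (measurable_const.div measurable_id)))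
  have m2 : Measurable (fun s : ℝ => if Y / (s + w1) < v ∧ v ≤ Y / s then (1:ℝ≥0∞) else 0) :=
    meas_ite_one (show MeasurableSet {s : ℝ | Y / (s + w1) < v ∧ v ≤ Y / s} from
      (measurableSet_lt (measurable_const.div (measurable_id.add_const _)) measurable_const).inter
      (measurableSet_le measurable_const (measurable_const.div measurable_id)))
  rw [lint_add3 _ _ _ _ m1 m2]
  have e1 : ∫⁻ s, (if X / (s + w0) < u ∧ u ≤ X / s then (1:ℝ≥0∞) else 0) ∂lcS
      = ENNReal.ofReal (X / u - max (X / u - w0) 0) :=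
    lint_ite_Ioc _ _ _ (le_max_right _ _) (fun s hs => by
      have hsw : 0 < s + w0 := by linarith
      rw [div_lt_iff₀ hsw, le_div_iff₀ hs, max_lt_iff, le_div_iff₀ hu, sub_lt_iff_lt_add,
        div_lt_iff₀ hu]
      constructor
      · rintro ⟨h1, h2⟩; exact ⟨⟨by linarith, hs⟩, by linarith⟩
      · rintro ⟨⟨h1, _⟩, h2⟩; exact ⟨by linarith, by linarith⟩)
  have e2 : ∫⁻ s, (if Y / (s + w1) < v ∧ v ≤ Y / s then (1:ℝ≥0∞) else 0) ∂lcS
      = ENNReal.ofReal (Y / v - max (Y / v - w1) 0) :=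
    lint_ite_Ioc _ _ _ (le_max_right _ _) (fun s hs => by
      have hsw : 0 < s + w1 := by linarith
      rw [div_lt_iff₀ hsw, le_div_iff₀ hs, max_lt_iff, le_div_iff₀ hv, sub_lt_iff_lt_add,
        div_lt_iff₀ hv]
      constructor
      · rintro ⟨h1, h2⟩; exact ⟨⟨by linarith, hs⟩, by linarith⟩
      · rintro ⟨⟨h1, _⟩, h2⟩; exact ⟨by linarith, by linarith⟩)
  have e3 : ∫⁻ s, (if u ≤ X / (s + w0) ∧ v ≤ Y / (s + w1) then (1:ℝ≥0∞) else 0) ∂lcS
      = ENNReal.ofReal (min (X / u - w0) (Y / v - w1) - 0) :=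
    lint_ite_Ioc _ _ _ le_rfl (fun s hs => by
      have hsw0 : 0 < s + w0 := by linarith
      have hsw1 : 0 < s + w1 := by linarith
      rw [le_div_iff₀ hsw0, le_div_iff₀ hsw1, le_min_iff, le_sub_iff_add_le, le_sub_iff_add_le,
        le_div_iff₀ hu, le_div_iff₀ hv]
      constructor
      · rintro ⟨h1, h2⟩; exact ⟨hs, by linarith, by linarith⟩
      · rintro ⟨_, h1, h2⟩; exact ⟨by linarith, by linarith⟩)
  rw [e1, e2, e3, sub_zero]
  have r1 : X / u - max (X / u - w0) 0 = min w0 (X / u) := by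
    simp only [min_def, max_def]; split_ifs <;> linarith
  have r2 : Y / v - max (Y / v - w1) 0 = min w1 (Y / v) := by
    simp only [min_def, max_def]; split_ifs <;> linarith
  rw [r1, r2]

/-- Main comparison, measurable version with `≤`-counts. -/
theorem lc_main_meas {J : Type*} [Fintype J] (x y : J → ℝ) (hx : ∀ j, 0 ≤ x j)
    (hy : ∀ j, 0 ≤ y j) (al be : J → ℝ → ℝ)
    (hal_m : ∀ j, Measurable (al j)) (hbe_m : ∀ j, Measurable (be j))
    (hal : ∀ j s, 0 < s → 0 ≤ al j s ∧ al j s ≤ x j / s)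
    (hbe : ∀ j s, 0 < s → 0 ≤ be j s ∧ be j s ≤ y j / s)
    (w0 w1 : ℝ) (hw0 : 0 ≤ w0) (hw1 : 0 ≤ w1)
    (hc0 : ∀ u, 0 < u → ENNReal.ofReal ((∑ j, x j) / u - w0)
      ≤ ∫⁻ s, ∑ j, (if u ≤ al j s then (1:ℝ≥0∞) else 0) ∂lcS)
    (hc1 : ∀ v, 0 < v → ENNReal.ofReal ((∑ j, y j) / v - w1)
      ≤ ∫⁻ s, ∑ j, (if v ≤ be j s then (1:ℝ≥0∞) else 0) ∂lcS) :
    ∫⁻ s, ENNReal.ofReal (∑ j, (Real.log (1 + x j / s) + Real.log (1 + y j / s)
        - Real.log (1 + al j s + be j s))) ∂lcS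
      ≤ ∫⁻ s, ENNReal.ofReal (Real.log (1 + (∑ j, x j) / s) + Real.log (1 + (∑ j, y j) / s)
          - Real.log (1 + (∑ j, x j) / (s + w0) + (∑ j, y j) / (s + w1))) ∂lcS := by
  have hL := lc_tonelli (fun j s => x j / s) (fun j s => y j / s) al be
    (fun j => measurable_const.div measurable_id) (fun j => measurable_const.div measurable_id)
    hal_m hbe_m
    (fun j s hs => ⟨(hal j s hs).1, (hal j s hs).2, (hbe j s hs).1, (hbe j s hs).2⟩)
  have hX : 0 ≤ ∑ j, x j := Finset.sum_nonneg fun j _ => hx j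
  have hY : 0 ≤ ∑ j, y j := Finset.sum_nonneg fun j _ => hy j
  have hR := lc_tonelli (J := Unit) (fun _ s => (∑ j, x j) / s) (fun _ s => (∑ j, y j) / s)
    (fun _ s => (∑ j, x j) / (s + w0)) (fun _ s => (∑ j, y j) / (s + w1))
    (fun _ => measurable_const.div measurable_id) (fun _ => measurable_const.div measurable_id)
    (fun _ => measurable_const.div (measurable_id.add_const _))
    (fun _ => measurable_const.div (measurable_id.add_const _))
    (fun _ s hs => ⟨div_nonneg hX (by linarith),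
      div_le_div_of_nonneg_left hX hs (by linarith), div_nonneg hY (by linarith),
      div_le_div_of_nonneg_left hY hs (by linarith)⟩)
  simp only [Finset.univ_unique, Finset.sum_singleton] at hR
  rw [hL, hR]
  have hpos : ∀ᵐ z ∂(lcS.prod lcS), 0 < z.1 ∧ 0 < z.2 := by
    rw [Measure.prod_restrict, ae_restrict_iff' (measurableSet_Ioi.prod measurableSet_Ioi)]
    exact Filter.Eventually.of_forall fun z hz => ⟨hz.1, hz.2⟩
  refine lintegral_mono_ae ?_
  filter_upwards [hpos] with z hz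
  obtain ⟨u, v⟩ := z
  refine mul_le_mul' ?_ le_rfl
  rw [lc_scalar _ _ w0 w1 u v hw0 hw1 hz.1 hz.2]
  exact lc_upper x y hx hy al be hal_m hbe_m (fun j s hs => (hal j s hs).2)
    (fun j s hs => (hbe j s hs).2) w0 w1 hw0 hw1 u v hz.1 hz.2 (hc0 u hz.1) (hc1 v hz.2)

/-- **Layer-cake / Tonelli comparison** (the analytic core of the (AD4) proof).
`x j, y j` are the (sorted) eigenvalues of `aᴴa, bᴴb`; `al j s, be j s` those of
`A0(s) = aᴴ (T0+s)⁻¹ a`, `A1(s) = bᴴ (T1+s)⁻¹ b`; `w0 = tr T0`, `w1 = tr T1`.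
`hc0, hc1` are the counting (inertia) bounds. -/
theorem lc_main {J : Type*} [Fintype J] (x y : J → ℝ) (hx : ∀ j, 0 ≤ x j) (hy : ∀ j, 0 ≤ y j)
    (al be : J → ℝ → ℝ)
    (hal_m : ∀ j, AEMeasurable (al j) (volume.restrict (Ioi (0:ℝ))))
    (hbe_m : ∀ j, AEMeasurable (be j) (volume.restrict (Ioi (0:ℝ))))
    (hal : ∀ j s, 0 < s → 0 ≤ al j s ∧ al j s ≤ x j / s)
    (hbe : ∀ j s, 0 < s → 0 ≤ be j s ∧ be j s ≤ y j / s)
    (w0 w1 : ℝ) (hw0 : 0 ≤ w0) (hw1 : 0 ≤ w1)
    (hc0 : ∀ u, 0 < u → ENNReal.ofReal ((∑ j, x j) / u - w0)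
      ≤ ∫⁻ s in Ioi (0:ℝ), ((Finset.univ.filter fun j => u < al j s).card : ℝ≥0∞))
    (hc1 : ∀ v, 0 < v → ENNReal.ofReal ((∑ j, y j) / v - w1)
      ≤ ∫⁻ s in Ioi (0:ℝ), ((Finset.univ.filter fun j => v < be j s).card : ℝ≥0∞)) :
    ∫⁻ s in Ioi (0:ℝ), ENNReal.ofReal (∑ j, (Real.log (1 + x j / s) + Real.log (1 + y j / s)
        - Real.log (1 + al j s + be j s)))
      ≤ ∫⁻ s in Ioi (0:ℝ), ENNReal.ofReal (Real.log (1 + (∑ j, x j) / s)
          + Real.log (1 + (∑ j, y j) / s)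
          - Real.log (1 + (∑ j, x j) / (s + w0) + (∑ j, y j) / (s + w1))) := by
  classical
  -- measurable modifications
  let al' : J → ℝ → ℝ := fun j s => max 0 (min ((hal_m j).mk (al j) s) (x j / s))
  let be' : J → ℝ → ℝ := fun j s => max 0 (min ((hbe_m j).mk (be j) s) (y j / s))
  have hal'_m : ∀ j, Measurable (al' j) := fun j =>
    measurable_const.max ((hal_m j).measurable_mk.min (measurable_const.div measurable_id))
  have hbe'_m : ∀ j, Measurable (be' j) := fun j =>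
    measurable_const.max ((hbe_m j).measurable_mk.min (measurable_const.div measurable_id))
  have hmem : ∀ᵐ s ∂lcS, (0:ℝ) < s := by
    rw [ae_restrict_iff' measurableSet_Ioi]
    exact Filter.Eventually.of_forall fun s hs => hs
  have eal : ∀ᵐ s ∂lcS, ∀ j, al' j s = al j s := by
    rw [ae_all_iff]
    intro j
    filter_upwards [(hal_m j).ae_eq_mk, hmem] with s hs hpos
    have h := hal j s hpos
    simp only [al']
    rw [← hs, min_eq_left h.2, max_eq_right h.1]
  have ebe : ∀ᵐ s ∂lcS, ∀ j, be' j s = be j s := by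
    rw [ae_all_iff]
    intro j
    filter_upwards [(hbe_m j).ae_eq_mk, hmem] with s hs hpos
    have h := hbe j s hpos
    simp only [be']
    rw [← hs, min_eq_left h.2, max_eq_right h.1]
  have hal' : ∀ j s, 0 < s → 0 ≤ al' j s ∧ al' j s ≤ x j / s := fun j s hs =>
    ⟨le_max_left _ _, max_le (div_nonneg (hx j) hs.le) (min_le_right _ _)⟩
  have hbe' : ∀ j s, 0 < s → 0 ≤ be' j s ∧ be' j s ≤ y j / s := fun j s hs =>
    ⟨le_max_left _ _, max_le (div_nonneg (hy j) hs.le) (min_le_right _ _)⟩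
  have hc0' : ∀ u, 0 < u → ENNReal.ofReal ((∑ j, x j) / u - w0)
      ≤ ∫⁻ s, ∑ j, (if u ≤ al' j s then (1:ℝ≥0∞) else 0) ∂lcS := by
    intro u hu
    refine (hc0 u hu).trans (lintegral_mono_ae ?_)
    filter_upwards [eal] with s hs
    rw [Finset.card_filter, Nat.cast_sum]
    refine Finset.sum_le_sum fun j _ => ?_
    rw [hs j]
    by_cases h : u < al j s
    · simp [h, h.le]
    · simp [h]
  have hc1' : ∀ v, 0 < v → ENNReal.ofReal ((∑ j, y j) / v - w1)
      ≤ ∫⁻ s, ∑ j, (if v ≤ be' j s then (1:ℝ≥0∞) else 0) ∂lcS := by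
    intro v hv
    refine (hc1 v hv).trans (lintegral_mono_ae ?_)
    filter_upwards [ebe] with s hs
    rw [Finset.card_filter, Nat.cast_sum]
    refine Finset.sum_le_sum fun j _ => ?_
    rw [hs j]
    by_cases h : v < be j s
    · simp [h, h.le]
    · simp [h]
  have key := lc_main_meas x y hx hy al' be' hal'_m hbe'_m hal' hbe' w0 w1 hw0 hw1 hc0' hc1'
  refine le_trans (le_of_eq ?_) key
  refine lintegral_congr_ae ?_
  filter_upwards [eal, ebe] with s h1 h2
  simp only [h1, h2]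

end Crest.Agent.GAD.LC38
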