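import Mathlib
import Crest.Prelude.Def_QState
import Crest.Agent.GAD.AD4
import Crest.Agent.GAD.LayerCake38
import Crest.Agent.GAD.Inertia

/-!
# `(AD4)` — the final theorem

`ad4 : AD4` (the `Prop` of `GAD/AD4Lprime.lean`), by `AD4Top.ad4_of` from

* the layer-cake theorem `LC38.lc_main` (`GAD/LayerCake38.lean`), and
* the three facts about the sorted eigenvalues of `aᴴ (T + s)⁻¹ a` proved in `GAD/Inertia.lean`
  (Weyl monotonicity, antitonicity in `s`, the inertia counting bound).
-/

set_option autoImplicit false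
set_option linter.unusedSectionVars false

open Crest.Quantum
open scoped ComplexOrder Matrix
open Filter Topology MeasureTheory

namespace Crest.Agent.GAD

namespace AD4Top

variable {d d' : Type*} [Fintype d] [DecidableEq d] [Fintype d'] [DecidableEq d']

/-- The layer-cake theorem in the shape consumed by `ad4_of`. -/
theorem lcMain : LCMain :=
  fun _ x y hx hy al be ham hbm ha hb w0 w1 hw0 hw1 hc0 hc1 =>
    LC38.lc_main x y hx hy al be ham hbm ha hb w0 w1 hw0 hw1 hc0 hc1

theorem armEig_eq (a : Matrix d d' ℂ) {T : Matrix d d ℂ} (hT : T.IsHermitian) (s : ℝ) :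
    armEig a hT s = Inertia.al a hT s := rfl

theorem gramEig_eq (a : Matrix d d' ℂ) : gramEig a = Inertia.pp a := rfl

/-- `α_j(s) ≤ x_j / s`: Weyl monotonicity applied to `aᴴ (T + s)⁻¹ a ≤ s⁻¹ aᴴ a`. -/
theorem armEig_le (a : Matrix d d' ℂ) {T : Matrix d d ℂ} (hT : T.PosSemidef) {s : ℝ} (hs : 0 < s)
    (j : Fin (Fintype.card d')) : armEig a hT.1 s j ≤ gramEig a j / s := by
  have hP : (aᴴ * a).IsHermitian := Matrix.isHermitian_conjTranspose_mul_self a
  have hsP : (((s⁻¹ : ℝ) : ℂ) • (aᴴ * a)).IsHermitian := by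
    rw [Matrix.IsHermitian, Matrix.conjTranspose_smul, hP.eq]
    simp
  have h1 : (Inertia.resA_isHermitian a hT.1 s).eigenvalues₀ j ≤ hsP.eigenvalues₀ j := by
    refine Inertia.eigenvalues₀_mono _ _ (fun v => ?_) j
    rw [Inertia.qf_smul]
    have := Inertia.qf_resA_le a hT hs v
    rw [div_eq_inv_mul] at this
    exact this
  have h2 := Inertia.eigenvalues₀_smul hP (inv_pos.mpr hs) hsP j
  rw [h2] at h1
  rw [div_eq_inv_mul]
  exact h1

/-- The three eigenvalue facts, from `GAD/Inertia.lean`. -/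
theorem armFacts (a : Matrix d d' ℂ) {T : Matrix d d ℂ} (hT : T.PosSemidef) : ArmFacts a hT where
  meas := fun j =>
    aemeasurable_restrict_of_antitoneOn measurableSet_Ioi (Inertia.al_antitoneOn a hT j)
  bound := fun j s hs => ⟨Inertia.al_nonneg a hT hs j, armEig_le a hT hs j⟩
  count := by
    intro u hu
    have h := Inertia.ofReal_le_lintegral_card_al a hT hu
    rw [sum_gramEig]
    refine h.trans (le_of_eq ?_)
    refine lintegral_congr (fun s => ?_)
    rw [Fintype.card_subtype]
    rfl

/-- **(AD4)**: `Φ₄ (traces) ≤ Ψ₄ (a, b, T0, T1)` for all rectangular `a, b` and positive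
semidefinite `T0, T1`. -/
theorem ad4 : AD4 :=
  ad4_of lcMain (fun _ _ _ _ _ _ a _ hT => armFacts a hT)

end AD4Top

end Crest.Agent.GAD
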