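import Mathlib
import Crest.Prelude.Def_QState
import Crest.Agent.GAD.Step0
import Crest.Agent.GAD.Step0Scalar
import Crest.Agent.GAD.Fiedler
import Crest.Agent.GAD.Inertia
import Crest.Agent.GAD.Assembly
import Crest.Agent.GAD.AD4Lprime

/-!
# Row 341 (GADC): the four-piece inequality `(AD4)` — final assembly (helper75)

`ad4 : AD4` from modules already on main:

* `Step0.lean`, `Step0Scalar.lean` (helper88): the log-det integral representation and the
  reduction of `(AD4)` to one `lintegral` inequality (`step0_AD4_of_lintegral_le`);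
* `Fiedler.lean` (helper95): `fiedler_sum_log_le` (pointwise bound of the log-det);
* `Inertia.lean` (helper24): the one-leg spectral package (`al`, `pp`, `al_nonneg`,
  `al_antitoneOn`, `card_al_le`, `ofReal_le_lintegral_card_al`, `sum_pp`);
* `Assembly.lean` (helper60): `lintegral_decoupled_le_of_antitoneOn` (ASM') and
  `lintegral_scalar_eq` (SC).
-/

set_option autoImplicit false

open Crest.Quantum
open scoped ComplexOrder Matrix ENNReal
open MeasureTheory

namespace Crest.Agent.GAD.AD4Main75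

variable {d e : Type*} [Fintype d] [DecidableEq d] [Fintype e] [DecidableEq e]

/-- `log det (1 + aᴴ a / s) = ∑ log (1 + p_j / s)` with `p` the sorted eigenvalues of `aᴴ a`. -/
theorem log_det_gram (a : Matrix d e ℂ) {s : ℝ} (hs : 0 < s) :
    Real.log ((1 + (s : ℂ)⁻¹ • (aᴴ * a)).det.re) = ∑ j, Real.log (1 + Inertia.pp a j / s) := by
  have hG : (aᴴ * a).IsHermitian := Matrix.isHermitian_conjTranspose_mul_self a
  have hGp : (aᴴ * a).PosSemidef := Matrix.posSemidef_conjTranspose_mul_self a
  have hsC : (s : ℂ) ≠ 0 := Complex.ofReal_ne_zero.mpr hs.ne'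
  have h1 : (1 + (s : ℂ)⁻¹ • (aᴴ * a)) = (s : ℂ)⁻¹ • (aᴴ * a + (s : ℂ) • (1 : Matrix e e ℂ)) := by
    rw [smul_add, smul_smul, inv_mul_cancel₀ hsC, one_smul, add_comm]
  have h2 := Fiedler.det_add_smul_one_eq_prod (𝕜 := ℂ) hG s
  have h3 : (1 + (s : ℂ)⁻¹ • (aᴴ * a)).det
      = ((∏ j, (1 + hG.eigenvalues j / s) : ℝ) : ℂ) := by
    rw [h1, Matrix.det_smul]
    erw [h2]
    push_cast
    rw [← Finset.card_univ, ← Finset.prod_const, ← Finset.prod_mul_distrib]
    refine Finset.prod_congr rfl fun j _ => ?_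
    field_simp
    exact add_comm _ _
  rw [h3, Complex.ofReal_re, Real.log_prod]
  · unfold Inertia.pp
    simp_rw [Inertia.eigenvalues₀_eq_eigenvalues hG]
    exact (Equiv.sum_comp (Fintype.equivOfCardEq (Fintype.card_fin _))
      (fun j => Real.log (1 + hG.eigenvalues j / s))).symm
  · intro j _
    have := hGp.eigenvalues_nonneg j
    have : 0 ≤ hG.eigenvalues j / s := div_nonneg this hs.le
    linarith

/-- Pointwise (Fiedler) bound of the Step-(0) integrand. -/
theorem step0Integrand_le (a b : Matrix d e ℂ) {T0 T1 : Matrix d d ℂ}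
    (hT0 : T0.PosSemidef) (hT1 : T1.PosSemidef) {s : ℝ} (hs : 0 < s) :
    step0Integrand a b T0 T1 s
      ≤ (∑ j, Real.log (1 + Inertia.pp a j / s)) + (∑ j, Real.log (1 + Inertia.pp b j / s))
        - ∑ k, Real.log (1 + Inertia.al a hT0.1 s k + Inertia.al b hT1.1 s k) := by
  have hF := fiedler_sum_log_le (𝕜 := ℂ) (Inertia.resA_posSemidef a hT0 hs)
    (Inertia.resA_posSemidef b hT1 hs)
  unfold step0Integrand
  rw [log_det_gram a hs, log_det_gram b hs]
  have hF' : ∑ k, Real.log (1 + Inertia.al a hT0.1 s k + Inertia.al b hT1.1 s k)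
      ≤ Real.log ((1 + step0Res a T0 s + step0Res b T1 s).det.re) := hF
  linarith

theorem card_filter_eq {ι : Type*} [Fintype ι] (P : ι → Prop) [DecidablePred P] :
    (Finset.univ.filter P).card = Fintype.card {k // P k} :=
  (Fintype.card_subtype P).symm

/-- The single `lintegral` inequality (MID). -/
theorem mid (a b : Matrix d e ℂ) {T0 T1 : Matrix d d ℂ}
    (hT0 : T0.PosSemidef) (hT1 : T1.PosSemidef) :
    ∫⁻ s in Set.Ioi (0:ℝ), ENNReal.ofReal (step0Integrand a b T0 T1 s)
      ≤ ∫⁻ s in Set.Ioi (0:ℝ), ENNReal.ofReal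
          (step0ScalarIntegrand (a * aᴴ).trace.re (b * bᴴ).trace.re T0.trace.re T1.trace.re s) := by
  have hx : 0 ≤ (a * aᴴ).trace.re :=
    (Complex.nonneg_iff.mp (Matrix.posSemidef_self_mul_conjTranspose a).trace_nonneg).1
  have hy : 0 ≤ (b * bᴴ).trace.re :=
    (Complex.nonneg_iff.mp (Matrix.posSemidef_self_mul_conjTranspose b).trace_nonneg).1
  have hw0 : 0 ≤ T0.trace.re := (Complex.nonneg_iff.mp hT0.trace_nonneg).1
  have hw1 : 0 ≤ T1.trace.re := (Complex.nonneg_iff.mp hT1.trace_nonneg).1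
  have hasm := lintegral_decoupled_le_of_antitoneOn (Inertia.pp a) (Inertia.pp b)
    (fun s => Inertia.al a hT0.1 s) (fun s => Inertia.al b hT1.1 s) T0.trace.re T1.trace.re
    (Inertia.pp_nonneg a) (Inertia.pp_nonneg b)
    (fun s hs k => Inertia.al_nonneg a hT0 hs k) (fun s hs k => Inertia.al_nonneg b hT1 hs k)
    (fun k => Inertia.al_antitoneOn a hT0 k) (fun k => Inertia.al_antitoneOn b hT1 k)
    (fun s hs u _ => by
      rw [card_filter_eq, card_filter_eq]; exact Inertia.card_al_le a hT0 hs u)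
    (fun s hs u _ => by
      rw [card_filter_eq, card_filter_eq]; exact Inertia.card_al_le b hT1 hs u)
    (fun u hu => by
      rw [Inertia.sum_pp]
      refine (Inertia.ofReal_le_lintegral_card_al a hT0 hu).trans (le_of_eq ?_)
      refine setLIntegral_congr_fun measurableSet_Ioi fun s _ => ?_
      simp only [card_filter_eq])
    (fun u hu => by
      rw [Inertia.sum_pp]
      refine (Inertia.ofReal_le_lintegral_card_al b hT1 hu).trans (le_of_eq ?_)
      refine setLIntegral_congr_fun measurableSet_Ioi fun s _ => ?_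
      simp only [card_filter_eq])
  rw [Inertia.sum_pp, Inertia.sum_pp] at hasm
  have hsc := lintegral_scalar_eq (a * aᴴ).trace.re (b * bᴴ).trace.re T0.trace.re T1.trace.re
    hx hy hw0 hw1
  calc ∫⁻ s in Set.Ioi (0:ℝ), ENNReal.ofReal (step0Integrand a b T0 T1 s)
      ≤ ∫⁻ s in Set.Ioi (0:ℝ), ENNReal.ofReal ((∑ j, Real.log (1 + Inertia.pp a j / s))
          + (∑ j, Real.log (1 + Inertia.pp b j / s))
          - ∑ k, Real.log (1 + Inertia.al a hT0.1 s k + Inertia.al b hT1.1 s k)) :=
        setLIntegral_mono' measurableSet_Ioi fun s hs =>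
          ENNReal.ofReal_le_ofReal (step0Integrand_le a b hT0 hT1 hs)
    _ ≤ I4 (a * aᴴ).trace.re (b * bᴴ).trace.re T0.trace.re T1.trace.re := hasm
    _ = _ := hsc.symm

/-- **(AD4)**, the four-piece entropy inequality `Φ₄(traces) ≤ Ψ₄`. -/
theorem ad4 : AD4 := by
  intro d d' _ _ _ _ a b T0 T1 hT0 hT1
  have h := step0_AD4_of_lintegral_le a b hT0 hT1 (mid a b hT0 hT1)
  unfold phi4 psi4
  unfold step0ScalarDefect step0O at h
  linarith

end Crest.Agent.GAD.AD4Main75
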