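import Mathlib
import Crest.Prelude.Def_QState
import Crest.Prelude.Def_QChannel
import Crest.Prelude.Def_AmpDamp

/-!
# Row 341 (lane B): unfoldings of the Prelude definitions used by S0534 / S0535

Shared base file (helper86, deputy of lane B): every module that touches `block`, `blockwise`,
`qubitTensor`, `qubitCoeff`, `gadMap`, `IsChannel`, `IsDensity`, `IsEnsemble`, `holevoInfo` can
import this file instead of unfolding the Prelude definitions again.

Contents:
* `block_*`        : algebra of `Crest.Quantum.block` (`block_add`, `block_smul`, `block_sum`, ...),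
                     `ext_block`, `trace_eq_sum_trace_block`, PSD/Hermitian diagonal blocks;
* `boolSum`, `eq_submatrix_fromBlocks` : a matrix on `Bool × d` is `fromBlocks` of its four blocks
                     along `Equiv.boolProdEquivSum` (`false ↦ inl`, `true ↦ inr`);
* `blockwise_*`    : `block (blockwise Φ M) s t = Φ (block M s t)`; trace; CP for ANY finite index;
* `qubitCoeff_gadMap_*`, `block_qubitTensor_gadMap_*` : the four blocks of `(gadMap γ ν ⊗ Ψ) M`;
* `qubitTensor_eq_blockwise` : `qubitTensor Φ Ψ M = qubitTensor Φ id (blockwise Ψ M)`.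
-/

set_option autoImplicit false
set_option linter.unusedSectionVars false

namespace Crest.Agent.GAD

open Crest.Quantum Crest.MathPhysics.AmpDamp Matrix
open scoped ComplexOrder

/-! ### `IsDensity`, `IsEnsemble`, `holevoInfo`, `IsChannel` are plain conjunctions / formulas -/

section basic

variable {d e : Type*} [Fintype d] [Fintype e] [DecidableEq d] [DecidableEq e]

theorem isDensity_iff {ρ : Matrix d d ℂ} : IsDensity ρ ↔ ρ.PosSemidef ∧ ρ.trace = 1 := Iff.rfl

theorem isDensity_trace_re {ρ : Matrix d d ℂ} (h : IsDensity ρ) : ρ.trace.re = 1 := by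
  rw [h.2]; rfl

theorem isEnsemble_iff {m : ℕ} {q : Fin m → ℝ} {ρ : Fin m → Matrix d d ℂ} :
    IsEnsemble q ρ ↔ (∀ a, 0 ≤ q a) ∧ ∑ a, q a = 1 ∧ ∀ a, IsDensity (ρ a) := Iff.rfl

theorem holevoInfo_def {m : ℕ} (Φ : Matrix d d ℂ → Matrix e e ℂ) (q : Fin m → ℝ)
    (ρ : Fin m → Matrix d d ℂ) :
    holevoInfo Φ q ρ = vnEntropy (∑ a, (q a : ℂ) • Φ (ρ a)) - ∑ a, q a * vnEntropy (Φ (ρ a)) :=
  rfl

theorem isChannel_iff {Φ : Matrix d d ℂ → Matrix e e ℂ} :
    IsChannel Φ ↔ IsLinearMap ℂ Φ ∧ IsCompletelyPositive Φ ∧ IsTracePreserving Φ := Iff.rfl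

theorem isChannel_map_add {Φ : Matrix d d ℂ → Matrix e e ℂ} (h : IsChannel Φ) (A B : Matrix d d ℂ) :
    Φ (A + B) = Φ A + Φ B := h.1.map_add A B

theorem isChannel_map_smul {Φ : Matrix d d ℂ → Matrix e e ℂ} (h : IsChannel Φ) (c : ℂ)
    (A : Matrix d d ℂ) : Φ (c • A) = c • Φ A := h.1.map_smul c A

theorem isChannel_map_zero {Φ : Matrix d d ℂ → Matrix e e ℂ} (h : IsChannel Φ) : Φ 0 = 0 :=
  h.1.map_zero

theorem isChannel_map_sum {Φ : Matrix d d ℂ → Matrix e e ℂ} (h : IsChannel Φ) {ι : Type*}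
    (s : Finset ι) (f : ι → Matrix d d ℂ) : Φ (∑ i ∈ s, f i) = ∑ i ∈ s, Φ (f i) :=
  map_sum h.1.mk' f s

theorem isChannel_trace {Φ : Matrix d d ℂ → Matrix e e ℂ} (h : IsChannel Φ) (A : Matrix d d ℂ) :
    (Φ A).trace = A.trace := h.2.2 A

end basic

/-! ### `block` -/

section block

variable {d : Type*} {k : Type*}

@[simp] theorem block_apply (M : Matrix (k × d) (k × d) ℂ) (s t : k) (i j : d) :
    block M s t i j = M (s, i) (t, j) := rfl

theorem block_eq_submatrix (M : Matrix (k × d) (k × d) ℂ) (s t : k) :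
    block M s t = M.submatrix (fun i => (s, i)) (fun j => (t, j)) := rfl

@[simp] theorem block_zero (s t : k) : block (0 : Matrix (k × d) (k × d) ℂ) s t = 0 := rfl

theorem block_add (M N : Matrix (k × d) (k × d) ℂ) (s t : k) :
    block (M + N) s t = block M s t + block N s t := rfl

theorem block_sub (M N : Matrix (k × d) (k × d) ℂ) (s t : k) :
    block (M - N) s t = block M s t - block N s t := rfl

theorem block_neg (M : Matrix (k × d) (k × d) ℂ) (s t : k) :
    block (-M) s t = -block M s t := rfl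

theorem block_smul (c : ℂ) (M : Matrix (k × d) (k × d) ℂ) (s t : k) :
    block (c • M) s t = c • block M s t := rfl

theorem block_sum {ι : Type*} (S : Finset ι) (f : ι → Matrix (k × d) (k × d) ℂ) (s t : k) :
    block (∑ a ∈ S, f a) s t = ∑ a ∈ S, block (f a) s t := by
  ext i j
  simp [block, Matrix.sum_apply]

theorem block_conjTranspose (M : Matrix (k × d) (k × d) ℂ) (s t : k) :
    block Mᴴ s t = (block M t s)ᴴ := rfl

theorem ext_block {M N : Matrix (k × d) (k × d) ℂ} (h : ∀ s t, block M s t = block N s t) :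
    M = N := by
  ext ⟨s, i⟩ ⟨t, j⟩
  exact congrFun (congrFun (h s t) i) j

theorem block_isHermitian {M : Matrix (k × d) (k × d) ℂ} (hM : M.IsHermitian) (s : k) :
    (block M s s).IsHermitian := by
  have h : block Mᴴ s s = (block M s s)ᴴ := block_conjTranspose M s s
  rw [hM.eq] at h
  exact h.symm

theorem block_conjTranspose_of_isHermitian {M : Matrix (k × d) (k × d) ℂ} (hM : M.IsHermitian)
    (s t : k) : (block M s t)ᴴ = block M t s := by
  have h : block Mᴴ t s = (block M s t)ᴴ := block_conjTranspose M t s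
  rw [hM.eq] at h
  exact h.symm

theorem block_posSemidef {M : Matrix (k × d) (k × d) ℂ} (hM : M.PosSemidef) (s : k) :
    (block M s s).PosSemidef :=
  hM.submatrix (fun i => (s, i))

theorem trace_eq_sum_trace_block [Fintype d] [Fintype k] (M : Matrix (k × d) (k × d) ℂ) :
    M.trace = ∑ s, (block M s s).trace := by
  simp only [Matrix.trace, Matrix.diag_apply, block_apply]
  exact Fintype.sum_prod_type _

theorem trace_eq_trace_block_bool [Fintype d] (M : Matrix (Bool × d) (Bool × d) ℂ) :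
    M.trace = (block M false false).trace + (block M true true).trace := by
  rw [trace_eq_sum_trace_block, Fintype.sum_bool, add_comm]

end block

/-! ### A matrix on `Bool × d` as `fromBlocks` -/

section fromBlocks

variable {d : Type*}

/-- The four blocks of a matrix on `Bool × d` assembled with `Matrix.fromBlocks`
(`false` = first summand). -/
def boolBlocks (M : Matrix (Bool × d) (Bool × d) ℂ) : Matrix (d ⊕ d) (d ⊕ d) ℂ :=
  Matrix.fromBlocks (block M false false) (block M false true) (block M true false)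
    (block M true true)

theorem eq_submatrix_boolBlocks (M : Matrix (Bool × d) (Bool × d) ℂ) :
    M = (boolBlocks M).submatrix (Equiv.boolProdEquivSum d) (Equiv.boolProdEquivSum d) := by
  ext ⟨s, i⟩ ⟨t, j⟩
  cases s <;> cases t <;> rfl

theorem boolBlocks_eq_submatrix (M : Matrix (Bool × d) (Bool × d) ℂ) :
    boolBlocks M = M.submatrix (Equiv.boolProdEquivSum d).symm (Equiv.boolProdEquivSum d).symm := by
  ext (i | i) (j | j) <;> rfl

theorem boolBlocks_posSemidef_iff {M : Matrix (Bool × d) (Bool × d) ℂ} :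
    (boolBlocks M).PosSemidef ↔ M.PosSemidef := by
  rw [boolBlocks_eq_submatrix]
  exact Matrix.posSemidef_submatrix_equiv (Equiv.boolProdEquivSum d).symm

theorem boolBlocks_isHermitian_iff {M : Matrix (Bool × d) (Bool × d) ℂ} :
    (boolBlocks M).IsHermitian ↔ M.IsHermitian := by
  rw [boolBlocks_eq_submatrix]
  exact Matrix.isHermitian_submatrix_equiv (Equiv.boolProdEquivSum d).symm

theorem det_eq_det_boolBlocks [Fintype d] [DecidableEq d] (M : Matrix (Bool × d) (Bool × d) ℂ) :
    M.det = (boolBlocks M).det := by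
  conv_lhs => rw [eq_submatrix_boolBlocks M]
  exact Matrix.det_submatrix_equiv_self _ _

theorem trace_eq_trace_boolBlocks [Fintype d] (M : Matrix (Bool × d) (Bool × d) ℂ) :
    M.trace = (boolBlocks M).trace := by
  rw [trace_eq_trace_block_bool]
  simp [boolBlocks, Matrix.trace, Fintype.sum_sum_type]

end fromBlocks

/-! ### `blockwise` -/

section blockwise

variable {d e : Type*} [Fintype d] [Fintype e] [DecidableEq d] [DecidableEq e] {k : Type*}

@[simp] theorem blockwise_apply (Φ : Matrix d d ℂ → Matrix e e ℂ) (M : Matrix (k × d) (k × d) ℂ)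
    (p q : k × e) : blockwise Φ M p q = Φ (block M p.1 q.1) p.2 q.2 := rfl

@[simp] theorem block_blockwise (Φ : Matrix d d ℂ → Matrix e e ℂ) (M : Matrix (k × d) (k × d) ℂ)
    (s t : k) : block (blockwise Φ M) s t = Φ (block M s t) := rfl

theorem blockwise_id (M : Matrix (k × d) (k × d) ℂ) :
    blockwise (id : Matrix d d ℂ → Matrix d d ℂ) M = M := rfl

theorem trace_blockwise [Fintype k] {Φ : Matrix d d ℂ → Matrix e e ℂ} (hΦ : IsTracePreserving Φ)
    (M : Matrix (k × d) (k × d) ℂ) : (blockwise Φ M).trace = M.trace := by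
  rw [trace_eq_sum_trace_block, trace_eq_sum_trace_block M]
  exact Finset.sum_congr rfl fun s _ => by rw [block_blockwise, hΦ]

/-- `blockwise` commutes with relabelling the auxiliary index. -/
theorem blockwise_submatrix {k' : Type*} (Φ : Matrix d d ℂ → Matrix e e ℂ)
    (M : Matrix (k × d) (k × d) ℂ) (f : k' → k) :
    blockwise Φ (M.submatrix (Prod.map f id) (Prod.map f id)) =
      (blockwise Φ M).submatrix (Prod.map f id) (Prod.map f id) := rfl

/-- Complete positivity for an arbitrary finite auxiliary index (the Prelude states it for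
`Fin k` only). -/
theorem blockwise_posSemidef [Fintype k] {Φ : Matrix d d ℂ → Matrix e e ℂ}
    (hΦ : IsCompletelyPositive Φ) {M : Matrix (k × d) (k × d) ℂ} (hM : M.PosSemidef) :
    (blockwise Φ M).PosSemidef := by
  classical
  let f : Fin (Fintype.card k) ≃ k := (Fintype.equivFin k).symm
  have h1 : (blockwise Φ (M.submatrix (Prod.map f id) (Prod.map f id))).PosSemidef :=
    hΦ _ _ (hM.submatrix _)
  rw [blockwise_submatrix] at h1
  have h2 := h1.submatrix (Prod.map f.symm (id : e → e))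
  have h3 : ((blockwise Φ M).submatrix (Prod.map f id) (Prod.map f id)).submatrix
      (Prod.map f.symm (id : e → e)) (Prod.map f.symm (id : e → e)) = blockwise Φ M := by
    ext ⟨s, i⟩ ⟨t, j⟩
    simp
  rw [h3] at h2
  exact h2

theorem isDensity_blockwise [Fintype k] {Φ : Matrix d d ℂ → Matrix e e ℂ} (hΦ : IsChannel Φ)
    {ρ : Matrix (k × d) (k × d) ℂ} (hρ : IsDensity ρ) : IsDensity (blockwise Φ ρ) :=
  ⟨blockwise_posSemidef hΦ.2.1 hρ.1, by rw [trace_blockwise hΦ.2.2, hρ.2]⟩

/-- A channel maps PSD matrices to PSD matrices. -/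
theorem isChannel_posSemidef {Φ : Matrix d d ℂ → Matrix e e ℂ} (hΦ : IsChannel Φ)
    {A : Matrix d d ℂ} (hA : A.PosSemidef) : (Φ A).PosSemidef := by
  have h1 : (blockwise (k := Unit) Φ (A.submatrix Prod.snd Prod.snd)).PosSemidef :=
    blockwise_posSemidef hΦ.2.1 (hA.submatrix _)
  have h2 := h1.submatrix (fun i : e => ((), i))
  exact h2

theorem isChannel_isDensity {Φ : Matrix d d ℂ → Matrix e e ℂ} (hΦ : IsChannel Φ)
    {ρ : Matrix d d ℂ} (hρ : IsDensity ρ) : IsDensity (Φ ρ) :=
  ⟨isChannel_posSemidef hΦ hρ.1, by rw [hΦ.2.2, hρ.2]⟩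

end blockwise

/-! ### `gadMap`, its transfer coefficients, and the blocks of `gadMap γ ν ⊗ Ψ` -/

section gad

variable {d e : Type*} [Fintype d] [Fintype e] [DecidableEq d] [DecidableEq e]

theorem gadMap_ff (γ ν : ℝ) (M : Matrix Bool Bool ℂ) :
    gadMap γ ν M false false =
      ((1 - γ * ν : ℝ) : ℂ) * M false false + ((γ * (1 - ν) : ℝ) : ℂ) * M true true := by
  simp [gadMap]

theorem gadMap_tt (γ ν : ℝ) (M : Matrix Bool Bool ℂ) :
    gadMap γ ν M true true =
      ((γ * ν : ℝ) : ℂ) * M false false + ((1 - γ + γ * ν : ℝ) : ℂ) * M true true := by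
  simp [gadMap]

theorem gadMap_ft (γ ν : ℝ) (M : Matrix Bool Bool ℂ) :
    gadMap γ ν M false true = ((Real.sqrt (1 - γ) : ℝ) : ℂ) * M false true := by
  simp [gadMap]

theorem gadMap_tf (γ ν : ℝ) (M : Matrix Bool Bool ℂ) :
    gadMap γ ν M true false = ((Real.sqrt (1 - γ) : ℝ) : ℂ) * M true false := by
  simp [gadMap]

theorem gadMap_add (γ ν : ℝ) (M N : Matrix Bool Bool ℂ) :
    gadMap γ ν (M + N) = gadMap γ ν M + gadMap γ ν N := by
  ext s t
  cases s <;> cases t <;> simp [gadMap_ff, gadMap_tt, gadMap_ft, gadMap_tf] <;> ring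

theorem gadMap_smul (γ ν : ℝ) (c : ℂ) (M : Matrix Bool Bool ℂ) :
    gadMap γ ν (c • M) = c • gadMap γ ν M := by
  ext s t
  cases s <;> cases t <;> simp [gadMap_ff, gadMap_tt, gadMap_ft, gadMap_tf] <;> ring

theorem gadMap_isLinearMap (γ ν : ℝ) : IsLinearMap ℂ (gadMap γ ν) :=
  ⟨gadMap_add γ ν, gadMap_smul γ ν⟩

theorem gadMap_trace (γ ν : ℝ) (M : Matrix Bool Bool ℂ) : (gadMap γ ν M).trace = M.trace := by
  simp only [Matrix.trace, Matrix.diag_apply, Fintype.sum_bool, gadMap_ff, gadMap_tt]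
  push_cast
  ring

theorem gadMap_isTracePreserving (γ ν : ℝ) : IsTracePreserving (gadMap γ ν) := gadMap_trace γ ν

theorem qubitTensor_apply (Φ : Matrix Bool Bool ℂ → Matrix Bool Bool ℂ)
    (Ψ : Matrix d d ℂ → Matrix e e ℂ) (M : Matrix (Bool × d) (Bool × d) ℂ) (p q : Bool × e) :
    qubitTensor Φ Ψ M p q =
      ∑ s' : Bool, ∑ t' : Bool, qubitCoeff Φ p.1 q.1 s' t' * Ψ (block M s' t') p.2 q.2 := rfl

theorem block_qubitTensor (Φ : Matrix Bool Bool ℂ → Matrix Bool Bool ℂ)
    (Ψ : Matrix d d ℂ → Matrix e e ℂ) (M : Matrix (Bool × d) (Bool × d) ℂ) (s t : Bool) :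
    block (qubitTensor Φ Ψ M) s t =
      ∑ s' : Bool, ∑ t' : Bool, qubitCoeff Φ s t s' t' • Ψ (block M s' t') := by
  ext i j
  simp [block, qubitTensor, Matrix.sum_apply]

/-- `Φ ⊗ Ψ = (Φ ⊗ id) ∘ (id ⊗ Ψ)`, definitionally. -/
theorem qubitTensor_eq_blockwise (Φ : Matrix Bool Bool ℂ → Matrix Bool Bool ℂ)
    (Ψ : Matrix d d ℂ → Matrix e e ℂ) (M : Matrix (Bool × d) (Bool × d) ℂ) :
    qubitTensor Φ Ψ M = qubitTensor Φ (id : Matrix e e ℂ → Matrix e e ℂ) (blockwise Ψ M) := rfl

theorem qubitCoeff_def (Φ : Matrix Bool Bool ℂ → Matrix Bool Bool ℂ) (s t s' t' : Bool) :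
    qubitCoeff Φ s t s' t' = Φ (Matrix.single s' t' 1) s t := rfl

theorem block_qubitTensor_gadMap_ff (γ ν : ℝ) (Ψ : Matrix d d ℂ → Matrix e e ℂ)
    (M : Matrix (Bool × d) (Bool × d) ℂ) :
    block (qubitTensor (gadMap γ ν) Ψ M) false false =
      ((1 - γ * ν : ℝ) : ℂ) • Ψ (block M false false)
        + ((γ * (1 - ν) : ℝ) : ℂ) • Ψ (block M true true) := by
  rw [block_qubitTensor]
  simp [qubitCoeff, gadMap_ff, Matrix.single, add_comm]

theorem block_qubitTensor_gadMap_tt (γ ν : ℝ) (Ψ : Matrix d d ℂ → Matrix e e ℂ)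
    (M : Matrix (Bool × d) (Bool × d) ℂ) :
    block (qubitTensor (gadMap γ ν) Ψ M) true true =
      ((γ * ν : ℝ) : ℂ) • Ψ (block M false false)
        + ((1 - γ + γ * ν : ℝ) : ℂ) • Ψ (block M true true) := by
  rw [block_qubitTensor]
  simp [qubitCoeff, gadMap_tt, Matrix.single, add_comm]

theorem block_qubitTensor_gadMap_ft (γ ν : ℝ) (Ψ : Matrix d d ℂ → Matrix e e ℂ)
    (M : Matrix (Bool × d) (Bool × d) ℂ) :
    block (qubitTensor (gadMap γ ν) Ψ M) false true =
      ((Real.sqrt (1 - γ) : ℝ) : ℂ) • Ψ (block M false true) := by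
  rw [block_qubitTensor]
  simp [qubitCoeff, gadMap_ft, Matrix.single]

theorem block_qubitTensor_gadMap_tf (γ ν : ℝ) (Ψ : Matrix d d ℂ → Matrix e e ℂ)
    (M : Matrix (Bool × d) (Bool × d) ℂ) :
    block (qubitTensor (gadMap γ ν) Ψ M) true false =
      ((Real.sqrt (1 - γ) : ℝ) : ℂ) • Ψ (block M true false) := by
  rw [block_qubitTensor]
  simp [qubitCoeff, gadMap_tf, Matrix.single]

/-- The output of `gadMap γ ν ⊗ Ψ` in `fromBlocks` form. -/
theorem boolBlocks_qubitTensor_gadMap (γ ν : ℝ) (Ψ : Matrix d d ℂ → Matrix e e ℂ)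
    (M : Matrix (Bool × d) (Bool × d) ℂ) :
    boolBlocks (qubitTensor (gadMap γ ν) Ψ M) =
      Matrix.fromBlocks
        (((1 - γ * ν : ℝ) : ℂ) • Ψ (block M false false)
          + ((γ * (1 - ν) : ℝ) : ℂ) • Ψ (block M true true))
        (((Real.sqrt (1 - γ) : ℝ) : ℂ) • Ψ (block M false true))
        (((Real.sqrt (1 - γ) : ℝ) : ℂ) • Ψ (block M true false))
        (((γ * ν : ℝ) : ℂ) • Ψ (block M false false)
          + ((1 - γ + γ * ν : ℝ) : ℂ) • Ψ (block M true true)) := by
  rw [boolBlocks, block_qubitTensor_gadMap_ff, block_qubitTensor_gadMap_tt,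
    block_qubitTensor_gadMap_ft, block_qubitTensor_gadMap_tf]

/-- Trace of the output of `gadMap γ ν ⊗ Ψ` for trace-preserving `Ψ`. -/
theorem trace_qubitTensor_gadMap (γ ν : ℝ) {Ψ : Matrix d d ℂ → Matrix e e ℂ}
    (hΨ : IsTracePreserving Ψ) (M : Matrix (Bool × d) (Bool × d) ℂ) :
    (qubitTensor (gadMap γ ν) Ψ M).trace = M.trace := by
  rw [trace_eq_trace_block_bool, block_qubitTensor_gadMap_ff, block_qubitTensor_gadMap_tt,
    trace_eq_trace_block_bool M]
  simp only [Matrix.trace_add, Matrix.trace_smul, hΨ _, smul_eq_mul]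
  push_cast
  ring

end gad

end Crest.Agent.GAD
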