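import Mathlib
import Crest.Prelude.Def_QState
import Crest.Prelude.Def_QChannel
import Crest.Prelude.Def_AmpDamp
import Crest.Agent.GAD.Lprime
import Crest.Agent.GAD.Entropy
import Crest.Agent.GAD.Subadd
import Crest.Agent.GAD.Plumb
import Crest.Agent.GAD.Qubit1
import Crest.Agent.GAD.Scalar
import Crest.Agent.GAD.Power
import Crest.Agent.GAD.PreludeFacts

/-!
# Row 341, tail module T2: `(L') ⟹ AddUpper`

`addUpper_of_Lprime : Lprime γ ν → AddUpper γ ν` (for `γ, ν ∈ [0,1]`): the Holevo information of
any ensemble through `gadMap γ ν ⊗ Ψ` is at most `gadRate γ ν p + χ(Ψ; q₂, ρ₂)` for the mean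
excited population `p` of the qubit and an explicit ensemble `(q₂, ρ₂)` of the second system
(the normalised diagonal blocks of the input states).

Proof: subadditivity for the average output, `(L')` applied to `(id ⊗ Ψ) ρ_a` for each state,
the scaling rule of the entropy for the block ensemble, and Jensen for `fOut` (Lemma FC).
All auxiliary declarations live in `Crest.Agent.GAD.AU72`.
-/

set_option autoImplicit false
set_option linter.unusedSectionVars false
set_option linter.unusedSimpArgs false

namespace Crest.Agent.GAD.AU72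

open Crest.Quantum Crest.MathPhysics.AmpDamp Matrix
open scoped ComplexOrder

section Nrm

variable {d e : Type*} [Fintype d] [Fintype e] [DecidableEq d] [DecidableEq e]

theorem trace_eq_ofReal {A : Matrix d d ℂ} (hA : A.PosSemidef) :
    A.trace = ((A.trace.re : ℝ) : ℂ) := by
  have h := Complex.nonneg_iff.mp hA.trace_nonneg
  apply Complex.ext
  · simp
  · simp [← h.2]

theorem trace_re_nonneg {A : Matrix d d ℂ} (hA : A.PosSemidef) : 0 ≤ A.trace.re :=
  (Complex.nonneg_iff.mp hA.trace_nonneg).1

theorem eq_zero_of_trace_re {A : Matrix d d ℂ} (hA : A.PosSemidef) (h : A.trace.re = 0) :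
    A = 0 := by
  rw [← hA.trace_eq_zero_iff, trace_eq_ofReal hA, h]
  simp

/-- The normalisation of a positive semidefinite matrix (a fixed pure state if it is `0`). -/
noncomputable def nrm [Nonempty d] (A : Matrix d d ℂ) : Matrix d d ℂ :=
  if A.trace.re = 0 then Matrix.single (Classical.arbitrary d) (Classical.arbitrary d) 1
  else (((A.trace.re)⁻¹ : ℝ) : ℂ) • A

theorem nrm_isDensity [Nonempty d] {A : Matrix d d ℂ} (hA : A.PosSemidef) : IsDensity (nrm A) := by
  unfold nrm
  split_ifs with h
  · refine ⟨?_, Matrix.trace_single_eq_same _ _⟩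
    have : Matrix.single (Classical.arbitrary d) (Classical.arbitrary d) (1 : ℂ)
        = Matrix.diagonal (Pi.single (Classical.arbitrary d) (1 : ℂ)) := by
      ext i j
      by_cases hij : i = j
      · subst hij
        by_cases hi : i = Classical.arbitrary d
        · subst hi; simp
        · simp [Matrix.single, hi, Pi.single_apply, Ne.symm hi]
      · simp [Matrix.single, hij, Matrix.diagonal_apply_ne _ hij]
        intro h1 h2
        exact absurd (h1.symm.trans h2) hij
    rw [this, Matrix.posSemidef_diagonal_iff]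
    intro i
    by_cases hi : i = Classical.arbitrary d
    · subst hi; simp
    · simp [Pi.single_apply, hi]
  · have ht : 0 < A.trace.re := lt_of_le_of_ne (trace_re_nonneg hA) (Ne.symm h)
    refine ⟨hA.smul (by exact_mod_cast (inv_nonneg.mpr ht.le)), ?_⟩
    rw [Matrix.trace_smul, smul_eq_mul]
    nth_rewrite 2 [trace_eq_ofReal hA]
    rw [← Complex.ofReal_mul, inv_mul_cancel₀ h, Complex.ofReal_one]

theorem smul_nrm [Nonempty d] {A : Matrix d d ℂ} (hA : A.PosSemidef) :
    ((A.trace.re : ℝ) : ℂ) • nrm A = A := by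
  unfold nrm
  split_ifs with h
  · rw [h, eq_zero_of_trace_re hA h]
    simp
  · rw [smul_smul, ← Complex.ofReal_mul, mul_inv_cancel₀ h, Complex.ofReal_one, one_smul]

/-- Entropy of the image of the normalised block. -/
theorem entropy_nrm [Nonempty d] {Ψ : Matrix d d ℂ → Matrix e e ℂ} (hΨ : IsChannel Ψ)
    {A : Matrix d d ℂ} (hA : A.PosSemidef) :
    A.trace.re * vnEntropy (Ψ (nrm A)) = vnEntropy (Ψ A) - Real.negMulLog A.trace.re := by
  by_cases h : A.trace.re = 0
  · rw [h, eq_zero_of_trace_re hA h, hΨ.1.map_zero, vnEntropy_zero]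
    simp
  · have ht : 0 < A.trace.re := lt_of_le_of_ne (trace_re_nonneg hA) (Ne.symm h)
    have h1 : nrm A = (((A.trace.re)⁻¹ : ℝ) : ℂ) • A := by
      unfold nrm
      rw [if_neg h]
    have hH : (Ψ A).IsHermitian := (isChannel_posSemidef hΨ hA).isHermitian
    rw [h1, hΨ.1.map_smul, vnEntropy_smul hH, hΨ.2.2 A]
    unfold Real.negMulLog
    rw [Real.log_inv]
    field_simp
    ring

end Nrm

section Main

variable {d e : Type} [Fintype d] [Fintype e] [DecidableEq d] [DecidableEq e]

/-- `(L')` for `gadMap ⊗ Ψ` on a single state. -/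
theorem lprime_tensor {γ ν : ℝ} (hL : Lprime γ ν) {Ψ : Matrix d d ℂ → Matrix e e ℂ}
    (hΨ : IsChannel Ψ) {M : Matrix (Bool × d) (Bool × d) ℂ} (hM : IsDensity M) :
    fOut γ ν ((block M true true).trace.re) + vnEntropy (Ψ (block M false false))
      + vnEntropy (Ψ (block M true true)) - Real.binEntropy ((block M true true).trace.re)
    ≤ vnEntropy (qubitTensor (gadMap γ ν) Ψ M) := by
  have htp : ∀ A, (Ψ A).trace = A.trace := hΨ.2.2
  have h := hL e (blockwise Ψ M) (Plumb.blockwise_isDensity hΨ hM)
  simp only [Plumb.block_blockwise, htp] at h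
  exact h

/-- Subadditivity for the output of `gadMap ⊗ Ψ`. -/
theorem avg_upper {γ ν : ℝ} (hγ : γ ∈ Set.Icc (0 : ℝ) 1) (hν : ν ∈ Set.Icc (0 : ℝ) 1)
    {Ψ : Matrix d d ℂ → Matrix e e ℂ} (hΨ : IsChannel Ψ)
    {M : Matrix (Bool × d) (Bool × d) ℂ} (hM : IsDensity M) :
    vnEntropy (qubitTensor (gadMap γ ν) Ψ M)
      ≤ Real.binEntropy ((1 - γ) * (block M true true).trace.re + γ * ν)
        + vnEntropy (Ψ (∑ s, block M s s)) := by
  have hO := Plumb.qubitTensor_gad_isDensity hγ hν hΨ hM
  have h1 := vnEntropy_subadditive_density _ hO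
  rw [Plumb.of_trace_block_qubitTensor_gad γ ν hΨ.2.2,
    Plumb.sum_block_qubitTensor_gad γ ν hΨ.1] at h1
  have h2 := q1_gadMap_entropy_le hγ hν (margL_isDensity M hM)
  have h3 : (margL M) true true = (block M true true).trace := rfl
  rw [h3] at h2
  have h2' : vnEntropy (gadMap γ ν (Matrix.of fun s t => (block M s t).trace))
      ≤ Real.binEntropy ((1 - γ) * (block M true true).trace.re + γ * ν) := h2
  linarith

/-- **T2.** `(L')` implies the one-step upper bound `AddUpper`. -/
theorem addUpper_of_Lprime' {γ ν : ℝ} (hγ : γ ∈ Set.Icc (0 : ℝ) 1) (hν : ν ∈ Set.Icc (0 : ℝ) 1)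
    (hL : Lprime γ ν) : AddUpper γ ν := by
  intro d e _ _ _ _ _ _ Ψ hΨ m q ρ hens
  have hbar := q1_isDensity_sum_smul hens
  obtain ⟨hq, hq1, hρ⟩ := hens
  have hXp : ∀ a, (block (ρ a) false false).PosSemidef :=
    fun a => Plumb.block_posSemidef (hρ a).1 false
  have hZp : ∀ a, (block (ρ a) true true).PosSemidef :=
    fun a => Plumb.block_posSemidef (hρ a).1 true
  have hxz : ∀ a, (block (ρ a) false false).trace.re = 1 - (block (ρ a) true true).trace.re := by
    intro a
    have h := (hρ a).2
    rw [Plumb.trace_eq_block_bool] at h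
    have h' := congrArg Complex.re h
    simp only [Complex.add_re, Complex.one_re] at h'
    linarith
  have hz0 : ∀ a, 0 ≤ (block (ρ a) true true).trace.re := fun a => trace_re_nonneg (hZp a)
  have hz1 : ∀ a, (block (ρ a) true true).trace.re ≤ 1 := by
    intro a
    have := trace_re_nonneg (hXp a)
    rw [hxz a] at this
    linarith
  have hp : (block (∑ a, (q a : ℂ) • ρ a) true true).trace.re
      = ∑ a, q a * (block (ρ a) true true).trace.re := by
    rw [Plumb.block_sum_smul, Matrix.trace_sum, Complex.re_sum]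
    refine Finset.sum_congr rfl fun a _ => ?_
    rw [Matrix.trace_smul, smul_eq_mul, Complex.re_ofReal_mul]
  have hp0 : 0 ≤ ∑ a, q a * (block (ρ a) true true).trace.re :=
    Finset.sum_nonneg fun a _ => mul_nonneg (hq a) (hz0 a)
  have hp1 : ∑ a, q a * (block (ρ a) true true).trace.re ≤ 1 := by
    calc ∑ a, q a * (block (ρ a) true true).trace.re ≤ ∑ a, q a * 1 :=
          Finset.sum_le_sum fun a _ => mul_le_mul_of_nonneg_left (hz1 a) (hq a)
      _ = 1 := by simp [hq1]
  refine ⟨∑ a, q a * (block (ρ a) true true).trace.re, ⟨hp0, hp1⟩, m + m,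
    Fin.append (fun a => q a * (block (ρ a) false false).trace.re)
      (fun a => q a * (block (ρ a) true true).trace.re),
    Fin.append (fun a => nrm (block (ρ a) false false)) (fun a => nrm (block (ρ a) true true)),
    ?_, ?_⟩
  · refine ⟨?_, ?_, ?_⟩
    · intro i
      refine Fin.addCases (fun a => ?_) (fun a => ?_) i
      · rw [Fin.append_left]; exact mul_nonneg (hq a) (trace_re_nonneg (hXp a))
      · rw [Fin.append_right]; exact mul_nonneg (hq a) (hz0 a)
    · rw [Fin.sum_univ_add]
      simp only [Fin.append_left, Fin.append_right]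
      rw [← Finset.sum_add_distrib, ← hq1]
      refine Finset.sum_congr rfl fun a _ => ?_
      rw [hxz a]; ring
    · intro i
      refine Fin.addCases (fun a => ?_) (fun a => ?_) i
      · rw [Fin.append_left]; exact nrm_isDensity (hXp a)
      · rw [Fin.append_right]; exact nrm_isDensity (hZp a)
  · have hF1 : ∀ a, fOut γ ν ((block (ρ a) true true).trace.re)
        + vnEntropy (Ψ (block (ρ a) false false)) + vnEntropy (Ψ (block (ρ a) true true))
        - Real.binEntropy ((block (ρ a) true true).trace.re)
        ≤ vnEntropy (qubitTensor (gadMap γ ν) Ψ (ρ a)) := fun a => lprime_tensor hL hΨ (hρ a)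
    have hF2 := avg_upper hγ hν hΨ hbar
    rw [hp] at hF2
    have hJ := fOut_jensen hγ hν Finset.univ q (fun a => (block (ρ a) true true).trace.re)
      (fun a _ => hq a) hq1 (fun a _ => ⟨hz0 a, hz1 a⟩)
    have hF3 : holevoInfo Ψ
        (Fin.append (fun a => q a * (block (ρ a) false false).trace.re)
          (fun a => q a * (block (ρ a) true true).trace.re))
        (Fin.append (fun a => nrm (block (ρ a) false false))
          (fun a => nrm (block (ρ a) true true)))
        = vnEntropy (Ψ (∑ s, block (∑ a, (q a : ℂ) • ρ a) s s))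
          - ∑ a, q a * (vnEntropy (Ψ (block (ρ a) false false))
              + vnEntropy (Ψ (block (ρ a) true true))
              - Real.binEntropy ((block (ρ a) true true).trace.re)) := by
      unfold holevoInfo
      rw [Fin.sum_univ_add, Fin.sum_univ_add]
      simp only [Fin.append_left, Fin.append_right]
      congr 1
      · congr 1
        rw [Fintype.sum_bool, Plumb.block_sum_smul, Plumb.block_sum_smul, hΨ.1.map_add,
          isChannel_map_sum hΨ, isChannel_map_sum hΨ,
          add_comm (∑ a, Ψ ((q a : ℂ) • block (ρ a) true true))]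
        congr 1
        · refine Finset.sum_congr rfl fun a _ => ?_
          rw [hΨ.1.map_smul]
          conv_rhs => rw [← smul_nrm (hXp a), hΨ.1.map_smul]
          rw [smul_smul, Complex.ofReal_mul]
        · refine Finset.sum_congr rfl fun a _ => ?_
          rw [hΨ.1.map_smul]
          conv_rhs => rw [← smul_nrm (hZp a), hΨ.1.map_smul]
          rw [smul_smul, Complex.ofReal_mul]
      · rw [← Finset.sum_add_distrib]
        refine Finset.sum_congr rfl fun a _ => ?_
        have e1 := entropy_nrm hΨ (hXp a)
        have e2 := entropy_nrm hΨ (hZp a)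
        rw [Real.binEntropy_eq_negMulLog_add_negMulLog_one_sub, ← hxz a]
        linear_combination q a * e1 + q a * e2
    rw [hF3, holevoInfo_def, ← Plumb.qubitTensor_sum_smul (gadMap γ ν) hΨ.1, gadRate_eq]
    have hsum : ∑ a, q a * (fOut γ ν ((block (ρ a) true true).trace.re)
        + vnEntropy (Ψ (block (ρ a) false false)) + vnEntropy (Ψ (block (ρ a) true true))
        - Real.binEntropy ((block (ρ a) true true).trace.re))
        ≤ ∑ a, q a * vnEntropy (qubitTensor (gadMap γ ν) Ψ (ρ a)) :=
      Finset.sum_le_sum fun a _ => mul_le_mul_of_nonneg_left (hF1 a) (hq a)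
    have hsplit : ∑ a, q a * (fOut γ ν ((block (ρ a) true true).trace.re)
        + vnEntropy (Ψ (block (ρ a) false false)) + vnEntropy (Ψ (block (ρ a) true true))
        - Real.binEntropy ((block (ρ a) true true).trace.re))
        = ∑ a, q a * fOut γ ν ((block (ρ a) true true).trace.re)
          + ∑ a, q a * (vnEntropy (Ψ (block (ρ a) false false))
              + vnEntropy (Ψ (block (ρ a) true true))
              - Real.binEntropy ((block (ρ a) true true).trace.re)) := by
      rw [← Finset.sum_add_distrib]
      exact Finset.sum_congr rfl fun a _ => by ring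
    linarith

end Main

end Crest.Agent.GAD.AU72

namespace Crest.Agent.GAD

/-- **T2.** `(L')` implies the one-step upper bound `AddUpper` (for `γ, ν ∈ [0,1]`). -/
theorem addUpper_of_Lprime {γ ν : ℝ} (hγ : γ ∈ Set.Icc (0 : ℝ) 1) (hν : ν ∈ Set.Icc (0 : ℝ) 1)
    (hL : Lprime γ ν) : AddUpper γ ν :=
  AU72.addUpper_of_Lprime' hγ hν hL

end Crest.Agent.GAD
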