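import Mathlib

/-!
# Eigenvalue counting: the inertia inequality and the count integral (row 341, step (3))

Hedge module (helper9) for the COUNT/INERTIA input `hc0` of the layer-cake assembly.
Everything is done with `dotProduct`/`mulVec`; no square roots, no Sylvester, no continuity.

* `finrank_le_card_of_quad_gt`  (K1, min-max count)
* `inertia_count_le`            (K2, one direction of inertia for the pencil)
* `lintegral_count_Ioi`         (K3, count integral)
* `hc0_of_pencil`               (the `hc0` hypothesis of `lc_main`, sorted eigenvalues `eigenvalues₀`)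
-/

set_option autoImplicit false

open Matrix MeasureTheory
open scoped ComplexOrder ENNReal

namespace Crest.Agent.GAD.Count9

section spectral

variable {n : Type*} [Fintype n] [DecidableEq n]

/-- Coordinates of `x` in the eigenbasis of a Hermitian matrix. -/
noncomputable def coords {A : Matrix n n ℂ} (hA : A.IsHermitian) (x : n → ℂ) : n → ℂ :=
  (star (hA.eigenvectorUnitary : Matrix n n ℂ)) *ᵥ x

lemma U_mul_star {A : Matrix n n ℂ} (hA : A.IsHermitian) :
    (hA.eigenvectorUnitary : Matrix n n ℂ) * star (hA.eigenvectorUnitary : Matrix n n ℂ) = 1 :=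
  Unitary.mul_star_self_of_mem hA.eigenvectorUnitary.2

lemma star_mul_U {A : Matrix n n ℂ} (hA : A.IsHermitian) :
    star (hA.eigenvectorUnitary : Matrix n n ℂ) * (hA.eigenvectorUnitary : Matrix n n ℂ) = 1 :=
  Unitary.star_mul_self_of_mem hA.eigenvectorUnitary.2

lemma U_mulVec_coords {A : Matrix n n ℂ} (hA : A.IsHermitian) (x : n → ℂ) :
    (hA.eigenvectorUnitary : Matrix n n ℂ) *ᵥ coords hA x = x := by
  unfold coords
  rw [mulVec_mulVec, U_mul_star, one_mulVec]

lemma coords_U_mulVec {A : Matrix n n ℂ} (hA : A.IsHermitian) (c : n → ℂ) :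
    coords hA ((hA.eigenvectorUnitary : Matrix n n ℂ) *ᵥ c) = c := by
  unfold coords
  rw [mulVec_mulVec, star_mul_U, one_mulVec]

lemma spectral_mul {A : Matrix n n ℂ} (hA : A.IsHermitian) :
    A = (hA.eigenvectorUnitary : Matrix n n ℂ) * diagonal (fun i => ((hA.eigenvalues i : ℝ) : ℂ))
      * star (hA.eigenvectorUnitary : Matrix n n ℂ) := by
  have h := hA.spectral_theorem
  rw [Unitary.conjStarAlgAut_apply] at h
  exact h

lemma quad_eq_sum {A : Matrix n n ℂ} (hA : A.IsHermitian) (x : n → ℂ) :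
    star x ⬝ᵥ (A *ᵥ x)
      = ∑ i, ((hA.eigenvalues i : ℝ) : ℂ) * (star (coords hA x i) * coords hA x i) := by
  conv_lhs => rw [spectral_mul hA]
  rw [← mulVec_mulVec, ← mulVec_mulVec, dotProduct_mulVec]
  have h1 : star x ᵥ* (hA.eigenvectorUnitary : Matrix n n ℂ) = star (coords hA x) := by
    unfold coords
    rw [star_mulVec, star_eq_conjTranspose, conjTranspose_conjTranspose]
  rw [h1]
  unfold dotProduct
  refine Finset.sum_congr rfl fun i _ => ?_
  rw [mulVec_diagonal]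
  simp only [Pi.star_apply, coords]
  ring

lemma normsq_eq_sum {A : Matrix n n ℂ} (hA : A.IsHermitian) (x : n → ℂ) :
    star x ⬝ᵥ x = ∑ i, star (coords hA x i) * coords hA x i := by
  have h := U_mulVec_coords hA x
  have h2 : star x ⬝ᵥ x = star (coords hA x) ⬝ᵥ coords hA x := by
    conv_lhs => rw [← h]
    rw [star_mulVec, ← dotProduct_mulVec, mulVec_mulVec, ← star_eq_conjTranspose, star_mul_U,
      one_mulVec]
  rw [h2]
  rfl

lemma re_star_mul_self (z : ℂ) : (star z * z).re = Complex.normSq z := by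
  rw [Complex.normSq_apply]
  simp [Complex.mul_re]

lemma quad_re {A : Matrix n n ℂ} (hA : A.IsHermitian) (x : n → ℂ) :
    (star x ⬝ᵥ (A *ᵥ x)).re = ∑ i, hA.eigenvalues i * Complex.normSq (coords hA x i) := by
  rw [quad_eq_sum hA x, Complex.re_sum]
  refine Finset.sum_congr rfl fun i _ => ?_
  rw [Complex.re_ofReal_mul, re_star_mul_self]

lemma normsq_re {A : Matrix n n ℂ} (hA : A.IsHermitian) (x : n → ℂ) :
    (star x ⬝ᵥ x).re = ∑ i, Complex.normSq (coords hA x i) := by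
  rw [normsq_eq_sum hA x, Complex.re_sum]
  exact Finset.sum_congr rfl fun i _ => re_star_mul_self _

/-- **(K1) min-max count.**  If the quadratic form of `A` exceeds `thr` times the squared norm
on the (nonzero part of the) image of a linear map `ψ`, then `A` has at least `finrank F`
eigenvalues above `thr`. -/
theorem finrank_le_card_of_quad_gt {A : Matrix n n ℂ} (hA : A.IsHermitian) (thr : ℝ)
    {F : Type*} [AddCommGroup F] [Module ℂ F] [FiniteDimensional ℂ F]
    (ψ : F →ₗ[ℂ] (n → ℂ))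
    (h : ∀ c : F, c ≠ 0 → thr * (star (ψ c) ⬝ᵥ ψ c).re < (star (ψ c) ⬝ᵥ (A *ᵥ ψ c)).re) :
    Module.finrank ℂ F ≤ (Finset.univ.filter fun i => thr < hA.eigenvalues i).card := by
  classical
  let φ : F →ₗ[ℂ] ({i : n // thr < hA.eigenvalues i} → ℂ) :=
    (LinearMap.funLeft ℂ ℂ (Subtype.val : {i : n // thr < hA.eigenvalues i} → n)) ∘ₗ
      (Matrix.mulVecLin (star (hA.eigenvectorUnitary : Matrix n n ℂ))) ∘ₗ ψ
  have hφ : ∀ c (i : {i : n // thr < hA.eigenvalues i}), φ c i = coords hA (ψ c) i.1 :=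
    fun c i => rfl
  have hinj : Function.Injective φ := by
    rw [injective_iff_map_eq_zero]
    intro c hc
    by_contra hne
    have h1 := h c hne
    rw [quad_re hA, normsq_re hA, Finset.mul_sum] at h1
    have h2 : ∑ i, hA.eigenvalues i * Complex.normSq (coords hA (ψ c) i)
        ≤ ∑ i, thr * Complex.normSq (coords hA (ψ c) i) := by
      refine Finset.sum_le_sum fun i _ => ?_
      by_cases hi : thr < hA.eigenvalues i
      · have h0 : coords hA (ψ c) i = 0 := by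
          have h3 := congrFun hc ⟨i, hi⟩
          rw [hφ] at h3
          exact h3
        rw [h0]
        simp
      · exact mul_le_mul_of_nonneg_right (not_lt.mp hi) (Complex.normSq_nonneg _)
    exact absurd h1 (not_lt.mpr h2)
  have h4 := LinearMap.finrank_le_finrank_of_injective hinj
  rw [Module.finrank_fintype_fun_eq_card, Fintype.card_subtype] at h4
  exact h4

end spectral

section pencil

variable {d d' : Type*} [Fintype d] [DecidableEq d] [Fintype d'] [DecidableEq d']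

omit [Fintype d] [Fintype d'] [DecidableEq d'] in
lemma shift_posDef (T : Matrix d d ℂ) (hT : T.PosSemidef) {s : ℝ} (hs : 0 < s) :
    (T + (s : ℂ) • (1 : Matrix d d ℂ)).PosDef :=
  Matrix.PosDef.posSemidef_add hT (PosDef.one.smul (by exact_mod_cast hs))

omit [Fintype d'] [DecidableEq d'] in
/-- The pencil `aᴴ (T + s)⁻¹ a` is Hermitian. -/
lemma pencil_isHermitian (a : Matrix d d' ℂ) (T : Matrix d d ℂ) (hT : T.PosSemidef) {s : ℝ}
    (hs : 0 < s) : (aᴴ * (T + (s : ℂ) • (1 : Matrix d d ℂ))⁻¹ * a).IsHermitian :=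
  isHermitian_conjTranspose_mul_mul a (shift_posDef T hT hs).isHermitian.inv

omit [Fintype d] [DecidableEq d] [DecidableEq d'] in
/-- `aaᴴ/u - T` is Hermitian. -/
lemma diff_isHermitian (a : Matrix d d' ℂ) (T : Matrix d d ℂ) (hT : T.PosSemidef) (u : ℝ) :
    ((((1 / u : ℝ) : ℂ)) • (a * aᴴ) - T).IsHermitian := by
  refine IsHermitian.sub ?_ hT.isHermitian
  have h1 : (a * aᴴ).IsHermitian := isHermitian_mul_conjTranspose_self a
  unfold IsHermitian at h1 ⊢
  rw [conjTranspose_smul, h1]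
  simp

omit [DecidableEq d'] in
/-- Algebraic core of the inertia inequality (completion of a square; no square roots). -/
lemma pencil_core (a : Matrix d d' ℂ) (T : Matrix d d ℂ) (hT : T.PosSemidef) {u s : ℝ}
    (hu : 0 < u) (hs : 0 < s) (x : d → ℂ)
    (hx : s * (star x ⬝ᵥ x).re
      < (star x ⬝ᵥ (((((1 / u : ℝ) : ℂ)) • (a * aᴴ) - T) *ᵥ x)).re) :
    u * (star (aᴴ *ᵥ x) ⬝ᵥ (aᴴ *ᵥ x)).re
      < (star (aᴴ *ᵥ x) ⬝ᵥ
          ((aᴴ * (T + (s : ℂ) • (1 : Matrix d d ℂ))⁻¹ * a) *ᵥ (aᴴ *ᵥ x))).re := by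
  have hM : (T + (s : ℂ) • (1 : Matrix d d ℂ)).PosDef := shift_posDef T hT hs
  obtain ⟨M, hMdef⟩ : ∃ M : Matrix d d ℂ, M = T + (s : ℂ) • (1 : Matrix d d ℂ) := ⟨_, rfl⟩
  rw [← hMdef] at hM ⊢
  have hMH : Mᴴ = M := hM.isHermitian
  obtain ⟨q, hq⟩ : ∃ q : d → ℂ, q = a *ᵥ (aᴴ *ᵥ x) := ⟨_, rfl⟩
  obtain ⟨w, hw⟩ : ∃ w : d → ℂ, w = M⁻¹ *ᵥ q := ⟨_, rfl⟩
  have hMw : M *ᵥ w = q := by
    rw [hw, mulVec_mulVec, Matrix.mul_nonsing_inv _ ((Matrix.isUnit_iff_isUnit_det M).mp hM.isUnit),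
      one_mulVec]
  -- (F1)
  have F1 : star (aᴴ *ᵥ x) ⬝ᵥ (aᴴ *ᵥ x) = star x ⬝ᵥ q := by
    rw [star_mulVec, conjTranspose_conjTranspose, ← dotProduct_mulVec, hq]
  -- (F2)
  have F2 : star (aᴴ *ᵥ x) ⬝ᵥ ((aᴴ * M⁻¹ * a) *ᵥ (aᴴ *ᵥ x)) = star q ⬝ᵥ w := by
    rw [← mulVec_mulVec, ← mulVec_mulVec, dotProduct_mulVec, ← hq, ← hw, hq, star_mulVec a]
  -- (F3)
  have F3 : star q ⬝ᵥ w = star w ⬝ᵥ (M *ᵥ w) := by
    rw [dotProduct_mulVec, ← hMw, star_mulVec, hMH]
  -- quantities
  obtain ⟨ρ, hρ⟩ : ∃ ρ : ℝ, ρ = (star x ⬝ᵥ q).re := ⟨_, rfl⟩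
  obtain ⟨σ, hσ⟩ : ∃ σ : ℝ, σ = (star w ⬝ᵥ (M *ᵥ w)).re := ⟨_, rfl⟩
  obtain ⟨τ, hτ⟩ : ∃ τ : ℝ, τ = (star x ⬝ᵥ (T *ᵥ x)).re := ⟨_, rfl⟩
  obtain ⟨ν, hν⟩ : ∃ ν : ℝ, ν = (star x ⬝ᵥ x).re := ⟨_, rfl⟩
  rw [F1, F2, F3, ← hρ, ← hσ]
  -- (F5) x M x
  have F5 : (star x ⬝ᵥ (M *ᵥ x)).re = τ + s * ν := by
    rw [hMdef, add_mulVec, smul_mulVec, one_mulVec, dotProduct_add, dotProduct_smul, Complex.add_re,
      smul_eq_mul, Complex.re_ofReal_mul, hτ, hν]
  -- (F6) hypothesis
  have F6 : s * ν < (1 / u) * ρ - τ := by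
    have h0 : (star x ⬝ᵥ (((((1 / u : ℝ) : ℂ)) • (a * aᴴ) - T) *ᵥ x)).re = (1 / u) * ρ - τ := by
      rw [sub_mulVec, smul_mulVec, dotProduct_sub, dotProduct_smul, Complex.sub_re, smul_eq_mul,
        Complex.re_ofReal_mul, ← mulVec_mulVec, ← hq, hρ, hτ]
    rw [h0, ← hν] at hx
    exact hx
  -- (F4) the square
  have hwMx : (star w ⬝ᵥ (M *ᵥ x)).re = ρ := by
    have e1 : star w ⬝ᵥ (M *ᵥ x) = star q ⬝ᵥ x := by
      rw [dotProduct_mulVec, ← hMw, star_mulVec, hMH]
    have e2 : star q ⬝ᵥ x = star (star x ⬝ᵥ q) := by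
      rw [star_dotProduct]
    rw [e1, e2, hρ]
    simp
  have hsq : 0 ≤ (star (x - ((1 / u : ℝ) : ℂ) • w) ⬝ᵥ (M *ᵥ (x - ((1 / u : ℝ) : ℂ) • w))).re := by
    have h0 := hM.posSemidef.dotProduct_mulVec_nonneg (x - ((1 / u : ℝ) : ℂ) • w)
    exact (Complex.nonneg_iff.mp h0).1
  have hexp : (star (x - ((1 / u : ℝ) : ℂ) • w) ⬝ᵥ (M *ᵥ (x - ((1 / u : ℝ) : ℂ) • w))).re
      = (τ + s * ν) - (1 / u) * ρ - (1 / u) * ρ + (1 / u) * ((1 / u) * σ) := by
    rw [mulVec_sub, mulVec_smul, star_sub, star_smul, sub_dotProduct, dotProduct_sub,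
      dotProduct_sub, smul_dotProduct, smul_dotProduct, dotProduct_smul, dotProduct_smul]
    simp only [Complex.sub_re, smul_eq_mul, Complex.star_def, Complex.conj_ofReal,
      Complex.re_ofReal_mul]
    rw [F5, hwMx, hMw, ← hρ, hσ, hMw]
    ring
  rw [hexp] at hsq
  have hu' : 0 < 1 / u := one_div_pos.mpr hu
  have h7 : (1 / u) * ρ < (1 / u) * ((1 / u) * σ) := by linarith
  have h8 : ρ < (1 / u) * σ := lt_of_mul_lt_mul_left h7 hu'.le
  have h9 : u * ρ < u * ((1 / u) * σ) := mul_lt_mul_of_pos_left h8 hu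
  have h10 : u * ((1 / u) * σ) = σ := by field_simp
  linarith

/-- **(K2) one direction of inertia for the pencil.**  For `T ⪰ 0`, `u, s > 0`:
`#{i | s < λ_i (aaᴴ/u - T)} ≤ #{j | u < λ_j (aᴴ (T+s)⁻¹ a)}`. -/
theorem inertia_count_le (a : Matrix d d' ℂ) (T : Matrix d d ℂ) (hT : T.PosSemidef) {u s : ℝ}
    (hu : 0 < u) (hs : 0 < s)
    (hH : ((((1 / u : ℝ) : ℂ)) • (a * aᴴ) - T).IsHermitian)
    (hP : (aᴴ * (T + (s : ℂ) • (1 : Matrix d d ℂ))⁻¹ * a).IsHermitian) :
    (Finset.univ.filter fun i => s < hH.eigenvalues i).card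
      ≤ (Finset.univ.filter fun j => u < hP.eigenvalues j).card := by
  classical
  let ψ : ({i : d // s < hH.eigenvalues i} → ℂ) →ₗ[ℂ] (d' → ℂ) :=
    (Matrix.mulVecLin aᴴ) ∘ₗ (Matrix.mulVecLin (hH.eigenvectorUnitary : Matrix d d ℂ)) ∘ₗ
      (Function.ExtendByZero.linearMap ℂ (Subtype.val : {i : d // s < hH.eigenvalues i} → d))
  have hψ : ∀ c, ψ c = aᴴ *ᵥ ((hH.eigenvectorUnitary : Matrix d d ℂ) *ᵥ
      (Function.extend (Subtype.val : {i : d // s < hH.eigenvalues i} → d) c 0)) := fun c => rfl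
  have key := finrank_le_card_of_quad_gt hP u ψ ?_
  · rw [Module.finrank_fintype_fun_eq_card, Fintype.card_subtype] at key
    exact key
  · intro c hc
    rw [hψ]
    apply pencil_core a T hT hu hs
    rw [quad_re hH, normsq_re hH, coords_U_mulVec, Finset.mul_sum]
    obtain ⟨j, hj⟩ : ∃ j, c j ≠ 0 := by
      by_contra hcon
      push Not at hcon
      exact hc (funext hcon)
    have hext_in : ∀ j : {i : d // s < hH.eigenvalues i},
        Function.extend (Subtype.val : {i : d // s < hH.eigenvalues i} → d) c 0 j.1 = c j :=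
      fun j => Subtype.val_injective.extend_apply c 0 j
    have hext_out : ∀ i : d, ¬ s < hH.eigenvalues i →
        Function.extend (Subtype.val : {i : d // s < hH.eigenvalues i} → d) c 0 i = 0 := by
      intro i hi
      rw [Function.extend_apply']
      · rfl
      · rintro ⟨k, hk⟩
        exact hi (hk ▸ k.2)
    refine Finset.sum_lt_sum (fun i _ => ?_) ⟨j.1, Finset.mem_univ _, ?_⟩
    · by_cases hi : s < hH.eigenvalues i
      · exact mul_le_mul_of_nonneg_right hi.le (Complex.normSq_nonneg _)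
      · rw [hext_out i hi]
        simp
    · rw [hext_in j]
      exact mul_lt_mul_of_pos_right j.2 (Complex.normSq_pos.mpr hj)

end pencil

section count

/-- **(K3) count integral.** -/
theorem lintegral_count_Ioi {ι : Type*} [Fintype ι] (μ : ι → ℝ) :
    ∫⁻ s in Set.Ioi (0 : ℝ), ((Finset.univ.filter fun i => s < μ i).card : ℝ≥0∞)
      = ∑ i, ENNReal.ofReal (μ i) := by
  classical
  have h1 : ∀ s : ℝ, ((Finset.univ.filter fun i => s < μ i).card : ℝ≥0∞)
      = ∑ i, (Set.Iio (μ i)).indicator (fun _ => (1 : ℝ≥0∞)) s := by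
    intro s
    rw [Finset.card_filter, Nat.cast_sum]
    refine Finset.sum_congr rfl fun i _ => ?_
    by_cases hi : s < μ i
    · simp [hi]
    · simp [hi]
  simp_rw [h1]
  rw [lintegral_finsetSum]
  · refine Finset.sum_congr rfl fun i _ => ?_
    rw [lintegral_indicator measurableSet_Iio, setLIntegral_const, one_mul,
      Measure.restrict_apply measurableSet_Iio, Set.Iio_inter_Ioi, Real.volume_Ioo, sub_zero]
  · intro i _
    exact measurable_const.indicator measurableSet_Iio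

lemma ofReal_sum_le {ι : Type*} [Fintype ι] (μ : ι → ℝ) :
    ENNReal.ofReal (∑ i, μ i) ≤ ∑ i, ENNReal.ofReal (μ i) :=
  Finset.le_sum_of_subadditive _ ENNReal.ofReal_zero.le (fun _ _ => ENNReal.ofReal_add_le) _ _

end count

section main

variable {n : Type*} [Fintype n] [DecidableEq n]

/-- Bridge: counting with the sorted eigenvalues `eigenvalues₀` is the same as counting with
`eigenvalues`. -/
lemma card_eigenvalues₀_eq {A : Matrix n n ℂ} (hA : A.IsHermitian) (c : ℝ) :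
    (Finset.univ.filter fun j : Fin (Fintype.card n) => c < hA.eigenvalues₀ j).card
      = (Finset.univ.filter fun i : n => c < hA.eigenvalues i).card := by
  refine Finset.card_equiv (Fintype.equivOfCardEq (Fintype.card_fin _)) ?_
  intro j
  simp only [Finset.mem_filter, Finset.mem_univ, true_and]
  unfold IsHermitian.eigenvalues
  rw [Equiv.symm_apply_apply]

/-- Bridge: the sum of the sorted eigenvalues is the (real part of the) trace. -/
lemma sum_eigenvalues₀_eq_trace_re {A : Matrix n n ℂ} (hA : A.IsHermitian) :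
    ∑ j, hA.eigenvalues₀ j = A.trace.re := by
  have h1 : ∑ i : n, hA.eigenvalues i = ∑ j, hA.eigenvalues₀ j := by
    unfold IsHermitian.eigenvalues
    exact Equiv.sum_comp (Fintype.equivOfCardEq (Fintype.card_fin _)).symm hA.eigenvalues₀
  have h2 := congrArg Complex.re hA.trace_eq_sum_eigenvalues
  rw [Complex.re_sum] at h2
  rw [← h1, h2]
  rfl

variable {d d' : Type*} [Fintype d] [DecidableEq d] [Fintype d'] [DecidableEq d']

/-- The count inequality with an abstract majorant `N` of the (unsorted) count. -/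
theorem ofReal_trace_le_lintegral (a : Matrix d d' ℂ) (T : Matrix d d ℂ) (hT : T.PosSemidef)
    {u : ℝ} (hu : 0 < u) (N : ℝ → ℝ≥0∞)
    (hN : ∀ s : ℝ, 0 < s →
      ∀ hP : (aᴴ * (T + (s : ℂ) • (1 : Matrix d d ℂ))⁻¹ * a).IsHermitian,
        ((Finset.univ.filter fun j => u < hP.eigenvalues j).card : ℝ≥0∞) ≤ N s) :
    ENNReal.ofReal ((a * aᴴ).trace.re / u - T.trace.re) ≤ ∫⁻ s in Set.Ioi (0 : ℝ), N s := by
  have hH := diff_isHermitian a T hT u
  have htr : (a * aᴴ).trace.re / u - T.trace.re = ∑ i, hH.eigenvalues i := by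
    have h2 := congrArg Complex.re hH.trace_eq_sum_eigenvalues
    rw [Complex.re_sum, trace_sub, trace_smul, Complex.sub_re, smul_eq_mul,
      Complex.re_ofReal_mul] at h2
    have h3 : 1 / u * (a * aᴴ).trace.re - T.trace.re = ∑ i, hH.eigenvalues i := h2
    rw [← h3]
    ring
  calc ENNReal.ofReal ((a * aᴴ).trace.re / u - T.trace.re)
      = ENNReal.ofReal (∑ i, hH.eigenvalues i) := by rw [htr]
    _ ≤ ∑ i, ENNReal.ofReal (hH.eigenvalues i) := ofReal_sum_le _
    _ = ∫⁻ s in Set.Ioi (0 : ℝ), ((Finset.univ.filter fun i => s < hH.eigenvalues i).card : ℝ≥0∞) :=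
        (lintegral_count_Ioi _).symm
    _ ≤ ∫⁻ s in Set.Ioi (0 : ℝ), N s := by
        refine setLIntegral_mono' measurableSet_Ioi fun s hs => ?_
        have hP := pencil_isHermitian a T hT hs
        refine le_trans ?_ (hN s hs hP)
        exact_mod_cast inertia_count_le a T hT hu hs hH hP

/-- **`hc0`** of the layer-cake assembly, in the shape with sorted eigenvalue functions
`al j s = eigenvalues₀ (aᴴ (T+s)⁻¹ a) j` (only needed for `s > 0`). -/
theorem hc0_of_pencil (a : Matrix d d' ℂ) (T : Matrix d d ℂ) (hT : T.PosSemidef)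
    {u : ℝ} (hu : 0 < u) (al : Fin (Fintype.card d') → ℝ → ℝ)
    (hal : ∀ s : ℝ, 0 < s →
      ∃ hP : (aᴴ * (T + (s : ℂ) • (1 : Matrix d d ℂ))⁻¹ * a).IsHermitian,
        ∀ j, al j s = hP.eigenvalues₀ j) :
    ENNReal.ofReal ((a * aᴴ).trace.re / u - T.trace.re)
      ≤ ∫⁻ s in Set.Ioi (0 : ℝ), ((Finset.univ.filter fun j => u < al j s).card : ℝ≥0∞) := by
  refine ofReal_trace_le_lintegral a T hT hu _ ?_
  intro s hs hP
  obtain ⟨hP', h⟩ := hal s hs
  rw [← card_eigenvalues₀_eq hP u]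
  simp_rw [h]
  exact le_rfl

/-- `hc0` with `∑ j, x j`, `x j` the sorted eigenvalues of `aᴴ a` (helper38's `lc_main` shape). -/
theorem hc0_of_pencil_sum (a : Matrix d d' ℂ) (T : Matrix d d ℂ) (hT : T.PosSemidef)
    {u : ℝ} (hu : 0 < u) (hX : (aᴴ * a).IsHermitian) (al : Fin (Fintype.card d') → ℝ → ℝ)
    (hal : ∀ s : ℝ, 0 < s →
      ∃ hP : (aᴴ * (T + (s : ℂ) • (1 : Matrix d d ℂ))⁻¹ * a).IsHermitian,
        ∀ j, al j s = hP.eigenvalues₀ j) :
    ENNReal.ofReal ((∑ j, hX.eigenvalues₀ j) / u - T.trace.re)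
      ≤ ∫⁻ s in Set.Ioi (0 : ℝ), ((Finset.univ.filter fun j => u < al j s).card : ℝ≥0∞) := by
  rw [sum_eigenvalues₀_eq_trace_re hX, Matrix.trace_mul_comm]
  exact hc0_of_pencil a T hT hu al hal

end main

end Crest.Agent.GAD.Count9
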