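import Mathlib
import Crest.Agent.GAD.Peierls

/-!
# Row 341: the coupling bound (Fiedler-free step of the (AD4) proof)

For positive semidefinite `P`, `Q` (same size) there is a doubly stochastic array `D` with
`∑ i j, D i j * log (1 + p i + q j) ≤ log det (1 + P + Q)`, where `p`, `q` are Mathlib's
(unsorted) eigenvalues of `P`, `Q`.  The proof is one Jensen step for `Real.log`, applied to the
eigenvalue expansion of `1 + P + Q` in its own eigenbasis.  Any doubly stochastic coupling feeds
the "L-shape" layer cake: `max (#{i | u < p i}) (#{j | v < q j}) ≤ ∑ i j, D i j * 1[u < p i ∨ v < q j]`.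
-/

set_option autoImplicit false

open Matrix
open scoped ComplexOrder

namespace Crest.Agent.GAD.CouplingJ

open Crest.Agent.GAD

variable {n : Type*} [Fintype n] [DecidableEq n]

omit [Fintype n] in
/-- `1 + P + Q` is Hermitian when `P` and `Q` are. -/
theorem isHermitian_one_add_add {P Q : Matrix n n ℂ} (hP : P.IsHermitian) (hQ : Q.IsHermitian) :
    (1 + P + Q).IsHermitian :=
  (Matrix.isHermitian_one.add hP).add hQ

/-- Eigenvalue expansion of `1 + P + Q` in its own eigenbasis. -/
theorem eigenvalues_one_add_add (P Q : Matrix n n ℂ) (hP : P.IsHermitian) (hQ : Q.IsHermitian)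
    (hC : (1 + P + Q).IsHermitian) (k : n) :
    hC.eigenvalues k =
      1 + ∑ i, Complex.normSq ((star (hC.eigenvectorUnitary : Matrix n n ℂ) *
            (hP.eigenvectorUnitary : Matrix n n ℂ)) k i) * hP.eigenvalues i
        + ∑ j, Complex.normSq ((star (hC.eigenvectorUnitary : Matrix n n ℂ) *
            (hQ.eigenvectorUnitary : Matrix n n ℂ)) k j) * hQ.eigenvalues j := by
  set W := (hC.eigenvectorUnitary : Matrix n n ℂ) with hWdef
  have hW : W ∈ unitaryGroup n ℂ := hC.eigenvectorUnitary.2
  have hWW : star W * W = 1 := mem_unitaryGroup_iff'.mp hW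
  have h1 := congrFun (congrFun (star_eigenvectorUnitary_mul_mul _ hC) k) k
  rw [Matrix.diagonal_apply_eq] at h1
  have h2 : star W * (1 + P + Q) * W = 1 + star W * P * W + star W * Q * W := by
    simp only [Matrix.mul_add, Matrix.add_mul, Matrix.mul_one, hWW]
  rw [← hWdef, h2] at h1
  have h3 := congrArg Complex.re h1
  rw [Complex.ofReal_re] at h3
  rw [← h3, Matrix.add_apply, Matrix.add_apply, Matrix.one_apply_eq, Complex.add_re,
    Complex.add_re, Complex.one_re, conj_unitary_diag_re P hP W k, conj_unitary_diag_re Q hQ W k]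

/-- **Coupling bound** (replaces Fiedler's determinant inequality): one Jensen step. -/
theorem logdet_coupling (P Q : Matrix n n ℂ) (hP : P.PosSemidef) (hQ : Q.PosSemidef) :
    ∃ D : n → n → ℝ, (∀ i j, 0 ≤ D i j) ∧ (∀ i, ∑ j, D i j = 1) ∧ (∀ j, ∑ i, D i j = 1) ∧
      ∑ i, ∑ j, D i j * Real.log (1 + hP.1.eigenvalues i + hQ.1.eigenvalues j)
        ≤ Real.log ((1 + P + Q).det.re) := by
  have hC : (1 + P + Q).IsHermitian := isHermitian_one_add_add hP.1 hQ.1
  set W := (hC.eigenvectorUnitary : Matrix n n ℂ) with hWdef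
  have hW : W ∈ unitaryGroup n ℂ := hC.eigenvectorUnitary.2
  have hVP := star_mul_eigenvectorUnitary_mem P hP.1 W hW
  have hVQ := star_mul_eigenvectorUnitary_mem Q hQ.1 W hW
  set p : n → ℝ := hP.1.eigenvalues with hpdef
  set q : n → ℝ := hQ.1.eigenvalues with hqdef
  set π : n → n → ℝ := fun k i =>
    Complex.normSq ((star W * (hP.1.eigenvectorUnitary : Matrix n n ℂ)) k i) with hπdef
  set ρ : n → n → ℝ := fun k j =>
    Complex.normSq ((star W * (hQ.1.eigenvectorUnitary : Matrix n n ℂ)) k j) with hρdef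
  have hπ0 : ∀ k i, 0 ≤ π k i := fun _ _ => Complex.normSq_nonneg _
  have hρ0 : ∀ k j, 0 ≤ ρ k j := fun _ _ => Complex.normSq_nonneg _
  have hπrow : ∀ k, ∑ i, π k i = 1 := fun k => unitary_row_normSq _ hVP k
  have hπcol : ∀ i, ∑ k, π k i = 1 := fun i => unitary_col_normSq _ hVP i
  have hρrow : ∀ k, ∑ j, ρ k j = 1 := fun k => unitary_row_normSq _ hVQ k
  have hρcol : ∀ j, ∑ k, ρ k j = 1 := fun j => unitary_col_normSq _ hVQ j
  have hp0 : ∀ i, 0 ≤ p i := fun i => hP.eigenvalues_nonneg i
  have hq0 : ∀ j, 0 ≤ q j := fun j => hQ.eigenvalues_nonneg j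
  have hexp : ∀ k, hC.eigenvalues k = 1 + ∑ i, π k i * p i + ∑ j, ρ k j * q j := fun k =>
    eigenvalues_one_add_add P Q hP.1 hQ.1 hC k
  -- the eigenvalue as a convex combination over pairs
  have hg : ∀ k, hC.eigenvalues k = ∑ i, ∑ j, π k i * ρ k j * (1 + p i + q j) := by
    intro k
    rw [hexp k]
    have e1 : ∑ i, ∑ j, π k i * ρ k j * (1 + p i + q j)
        = ∑ i, (π k i * (∑ j, ρ k j) + π k i * p i * (∑ j, ρ k j) + π k i * ∑ j, ρ k j * q j) := by
      refine Finset.sum_congr rfl fun i _ => ?_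
      rw [Finset.mul_sum, Finset.mul_sum, Finset.mul_sum, ← Finset.sum_add_distrib,
        ← Finset.sum_add_distrib]
      refine Finset.sum_congr rfl fun j _ => ?_
      ring
    rw [e1]
    simp only [hρrow k, mul_one]
    rw [Finset.sum_add_distrib, Finset.sum_add_distrib, ← Finset.sum_mul, hπrow k, one_mul]
  have hpos : ∀ i j, 0 < 1 + p i + q j := fun i j => by
    have := hp0 i; have := hq0 j; linarith
  have hgpos : ∀ k, 0 < hC.eigenvalues k := by
    intro k
    rw [hexp k]
    have h1 : 0 ≤ ∑ i, π k i * p i := Finset.sum_nonneg fun i _ => mul_nonneg (hπ0 k i) (hp0 i)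
    have h2 : 0 ≤ ∑ j, ρ k j * q j := Finset.sum_nonneg fun j _ => mul_nonneg (hρ0 k j) (hq0 j)
    linarith
  -- Jensen for `log`
  have hJ : ∀ k, ∑ i, ∑ j, π k i * ρ k j * Real.log (1 + p i + q j)
      ≤ Real.log (hC.eigenvalues k) := by
    intro k
    rw [hg k]
    have hw1 : ∑ ij : n × n, π k ij.1 * ρ k ij.2 = 1 := by
      rw [Fintype.sum_prod_type]
      simp only [← Finset.mul_sum, hρrow k, mul_one, hπrow k]
    have := (strictConcaveOn_log_Ioi.concaveOn).le_map_sum
      (t := (Finset.univ : Finset (n × n)))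
      (w := fun ij => π k ij.1 * ρ k ij.2) (p := fun ij => 1 + p ij.1 + q ij.2)
      (fun ij _ => mul_nonneg (hπ0 k ij.1) (hρ0 k ij.2)) hw1
      (fun ij _ => Set.mem_Ioi.mpr (hpos ij.1 ij.2))
    simpa only [Fintype.sum_prod_type, smul_eq_mul] using this
  refine ⟨fun i j => ∑ k, π k i * ρ k j, ?_, ?_, ?_, ?_⟩
  · intro i j
    exact Finset.sum_nonneg fun k _ => mul_nonneg (hπ0 k i) (hρ0 k j)
  · intro i
    rw [Finset.sum_comm]
    simp only [← Finset.mul_sum, hρrow, mul_one, hπcol i]
  · intro j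
    rw [Finset.sum_comm]
    simp only [← Finset.sum_mul, hπrow, one_mul, hρcol j]
  · have hdet : (1 + P + Q).det.re = ∏ k, hC.eigenvalues k := by
      rw [hC.det_eq_prod_eigenvalues]
      have : (∏ k, ((hC.eigenvalues k : ℝ) : ℂ)) = ((∏ k, hC.eigenvalues k : ℝ) : ℂ) := by
        push_cast; rfl
      exact (congrArg Complex.re this).trans (Complex.ofReal_re _)
    rw [hdet, Real.log_prod (fun k _ => (hgpos k).ne')]
    calc ∑ i, ∑ j, (∑ k, π k i * ρ k j) * Real.log (1 + p i + q j)
        = ∑ k, ∑ i, ∑ j, π k i * ρ k j * Real.log (1 + p i + q j) := by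
          simp_rw [Finset.sum_mul]
          rw [Finset.sum_comm (s := Finset.univ) (t := Finset.univ)
            (f := fun k i => ∑ j, π k i * ρ k j * Real.log (1 + p i + q j))]
          refine Finset.sum_congr rfl fun i _ => ?_
          exact Finset.sum_comm
      _ ≤ ∑ k, Real.log (hC.eigenvalues k) := Finset.sum_le_sum fun k _ => hJ k

/-- Positivity of the determinant (so that the logarithm above is the honest one). -/
theorem det_one_add_add_pos (P Q : Matrix n n ℂ) (hP : P.PosSemidef) (hQ : Q.PosSemidef) :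
    0 < (1 + P + Q).det.re := by
  have hC : (1 + P + Q).IsHermitian := isHermitian_one_add_add hP.1 hQ.1
  have hdet : (1 + P + Q).det.re = ∏ k, hC.eigenvalues k := by
    rw [hC.det_eq_prod_eigenvalues]
    have : (∏ k, ((hC.eigenvalues k : ℝ) : ℂ)) = ((∏ k, hC.eigenvalues k : ℝ) : ℂ) := by
      push_cast; rfl
    exact (congrArg Complex.re this).trans (Complex.ofReal_re _)
  rw [hdet]
  refine Finset.prod_pos fun k _ => ?_
  rw [eigenvalues_one_add_add P Q hP.1 hQ.1 hC k]
  have h1 : 0 ≤ ∑ i, Complex.normSq ((star (hC.eigenvectorUnitary : Matrix n n ℂ) *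
      (hP.1.eigenvectorUnitary : Matrix n n ℂ)) k i) * hP.1.eigenvalues i :=
    Finset.sum_nonneg fun i _ => mul_nonneg (Complex.normSq_nonneg _) (hP.eigenvalues_nonneg i)
  have h2 : 0 ≤ ∑ j, Complex.normSq ((star (hC.eigenvectorUnitary : Matrix n n ℂ) *
      (hQ.1.eigenvectorUnitary : Matrix n n ℂ)) k j) * hQ.1.eigenvalues j :=
    Finset.sum_nonneg fun j _ => mul_nonneg (Complex.normSq_nonneg _) (hQ.eigenvalues_nonneg j)
  linarith

omit [DecidableEq n] in
/-- **L-shape count bound** for a doubly stochastic coupling: the `D`-mass of the L-shaped region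
`{u < p i} ∪ {v < q j}` is at least each of the two counts. -/
theorem coupling_Lshape_count (D : n → n → ℝ) (hD0 : ∀ i j, 0 ≤ D i j)
    (hrow : ∀ i, ∑ j, D i j = 1) (hcol : ∀ j, ∑ i, D i j = 1) (p q : n → ℝ) (u v : ℝ) :
    max ((Finset.univ.filter fun i => u < p i).card : ℝ) ((Finset.univ.filter fun j => v < q j).card : ℝ)
      ≤ ∑ i, ∑ j, D i j * (if u < p i ∨ v < q j then (1 : ℝ) else 0) := by
  refine max_le ?_ ?_
  · calc ((Finset.univ.filter fun i => u < p i).card : ℝ)
        = ∑ i, (if u < p i then (1 : ℝ) else 0) := by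
          rw [Finset.sum_ite, Finset.sum_const, Finset.sum_const_zero, add_zero, nsmul_eq_mul,
            mul_one]
      _ = ∑ i, ∑ j, D i j * (if u < p i then (1 : ℝ) else 0) := by
          refine Finset.sum_congr rfl fun i _ => ?_
          rw [← Finset.sum_mul, hrow i, one_mul]
      _ ≤ ∑ i, ∑ j, D i j * (if u < p i ∨ v < q j then (1 : ℝ) else 0) := by
          refine Finset.sum_le_sum fun i _ => Finset.sum_le_sum fun j _ => ?_
          refine mul_le_mul_of_nonneg_left ?_ (hD0 i j)
          by_cases h : u < p i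
          · simp [h]
          · by_cases h' : v < q j <;> simp [h, h']
  · calc ((Finset.univ.filter fun j => v < q j).card : ℝ)
        = ∑ j, (if v < q j then (1 : ℝ) else 0) := by
          rw [Finset.sum_ite, Finset.sum_const, Finset.sum_const_zero, add_zero, nsmul_eq_mul,
            mul_one]
      _ = ∑ j, ∑ i, D i j * (if v < q j then (1 : ℝ) else 0) := by
          refine Finset.sum_congr rfl fun j _ => ?_
          rw [← Finset.sum_mul, hcol j, one_mul]
      _ = ∑ i, ∑ j, D i j * (if v < q j then (1 : ℝ) else 0) := Finset.sum_comm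
      _ ≤ ∑ i, ∑ j, D i j * (if u < p i ∨ v < q j then (1 : ℝ) else 0) := by
          refine Finset.sum_le_sum fun i _ => Finset.sum_le_sum fun j _ => ?_
          refine mul_le_mul_of_nonneg_left ?_ (hD0 i j)
          by_cases h : v < q j
          · simp [h]
          · by_cases h' : u < p i <;> simp [h, h']

end Crest.Agent.GAD.CouplingJ
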