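import Mathlib
import Crest.Prelude.Def_QState
import Crest.Agent.GAD.Entropy
import Crest.Agent.GAD.LogDetRep

/-!
# Step (0) of the (AD4) proof: determinant lemma for the 4-path and `s`-integral representations

For rectangular `a : Matrix m k ℂ`, `b : Matrix n k ℂ` and PSD leaves `T0 : Matrix m m ℂ`,
`T1 : Matrix n n ℂ`, with `cres a T s = aᴴ (T + s)⁻¹ a` (a `k × k` PSD matrix):

* `det_fourPath`: `det (O + s) = det (T0 + s) * det (T1 + s) * det (1 + cres a T0 s + cres b T1 s)`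
  for `O = fromBlocks (a aᴴ + T0) (a bᴴ) (b aᴴ) (b bᴴ + T1)`;
* `det_twoChain`: `det (a aᴴ + T + s) = det (T + s) * det (1 + cres a T s)`;
* Loewner facts for `cres`;
* the entropy differences as improper integrals over `s ∈ (0, ∞)` of nonnegative integrands
  (`twoChain_eq_integral`, `cross_eq_integral`, `fourPath_eq_integral` and their `lintegral` forms).

Everything lives in the sub-namespace `Crest.Agent.GAD.DetLemma` (no clash with the other
`GAD` modules); `open Crest.Agent.GAD.DetLemma` to use it.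
-/

set_option autoImplicit false
set_option linter.unusedSectionVars false

open Crest.Quantum Matrix
open scoped ComplexOrder
open MeasureTheory

namespace Crest.Agent.GAD.DetLemma

section Algebra

variable {m n k : Type*} [Fintype m] [DecidableEq m] [Fintype n] [DecidableEq n]
  [Fintype k] [DecidableEq k]

/-- `T + s` is positive definite for PSD `T` and `s > 0`. -/
theorem posDef_add_smul_one {T : Matrix m m ℂ} (hT : T.PosSemidef) {s : ℝ} (hs : 0 < s) :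
    (T + (s : ℂ) • (1 : Matrix m m ℂ)).PosDef := by
  refine Matrix.PosDef.posSemidef_add hT ?_
  exact Matrix.PosDef.one.smul (by exact_mod_cast hs)

theorem isUnit_det_add_smul_one {T : Matrix m m ℂ} (hT : T.PosSemidef) {s : ℝ} (hs : 0 < s) :
    IsUnit (T + (s : ℂ) • (1 : Matrix m m ℂ)).det :=
  (Matrix.isUnit_iff_isUnit_det _).1 (posDef_add_smul_one hT hs).isUnit

/-- The compressed resolvent `aᴴ (T + s)⁻¹ a`. -/
noncomputable def cres (a : Matrix m k ℂ) (T : Matrix m m ℂ) (s : ℝ) : Matrix k k ℂ :=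
  aᴴ * (T + (s : ℂ) • (1 : Matrix m m ℂ))⁻¹ * a

theorem cres_posSemidef (a : Matrix m k ℂ) {T : Matrix m m ℂ} (hT : T.PosSemidef) {s : ℝ}
    (hs : 0 < s) : (cres a T s).PosSemidef :=
  (posDef_add_smul_one hT hs).inv.posSemidef.conjTranspose_mul_mul_same a

/-- **Two-chain determinant lemma**: `det (a aᴴ + T + s) = det (T + s) * det (1 + aᴴ (T+s)⁻¹ a)`. -/
theorem det_twoChain (a : Matrix m k ℂ) {T : Matrix m m ℂ} (hT : T.PosSemidef) {s : ℝ}
    (hs : 0 < s) :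
    (a * aᴴ + T + (s : ℂ) • (1 : Matrix m m ℂ)).det
      = (T + (s : ℂ) • (1 : Matrix m m ℂ)).det * (1 + cres a T s).det := by
  have h := Matrix.det_add_mul a aᴴ (isUnit_det_add_smul_one hT hs)
  unfold cres
  rw [← h]
  congr 1
  abel

/-- `det (aᴴ a + s) = s^|k| * det (1 + s⁻¹ aᴴ a)`. -/
theorem det_gram_add_smul_one (a : Matrix m k ℂ) {s : ℝ} (hs : 0 < s) :
    (aᴴ * a + (s : ℂ) • (1 : Matrix k k ℂ)).det
      = (s : ℂ) ^ Fintype.card k * (1 + ((s : ℂ)⁻¹) • (aᴴ * a)).det := by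
  have hs0 : (s : ℂ) ≠ 0 := by exact_mod_cast hs.ne'
  have h1 : aᴴ * a + (s : ℂ) • (1 : Matrix k k ℂ)
      = (s : ℂ) • (1 + ((s : ℂ)⁻¹) • (aᴴ * a)) := by
    rw [smul_add, smul_smul, mul_inv_cancel₀ hs0, one_smul, add_comm]
  rw [h1, Matrix.det_smul]

/-- **Four-path determinant lemma**:
`det (O + s) = det (T0 + s) * det (T1 + s) * det (1 + aᴴ (T0+s)⁻¹ a + bᴴ (T1+s)⁻¹ b)`. -/
theorem det_fourPath (a : Matrix m k ℂ) (b : Matrix n k ℂ) {T0 : Matrix m m ℂ}
    {T1 : Matrix n n ℂ} (hT0 : T0.PosSemidef) (hT1 : T1.PosSemidef) {s : ℝ} (hs : 0 < s) :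
    (Matrix.fromBlocks (a * aᴴ + T0) (a * bᴴ) (b * aᴴ) (b * bᴴ + T1)
        + (s : ℂ) • (1 : Matrix (m ⊕ n) (m ⊕ n) ℂ)).det
      = (T0 + (s : ℂ) • (1 : Matrix m m ℂ)).det * (T1 + (s : ℂ) • (1 : Matrix n n ℂ)).det
        * (1 + cres a T0 s + cres b T1 s).det := by
  set D0 : Matrix m m ℂ := T0 + (s : ℂ) • (1 : Matrix m m ℂ) with hD0
  set D1 : Matrix n n ℂ := T1 + (s : ℂ) • (1 : Matrix n n ℂ) with hD1
  have hu0 : IsUnit D0.det := isUnit_det_add_smul_one hT0 hs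
  have hu1 : IsUnit D1.det := isUnit_det_add_smul_one hT1 hs
  set D : Matrix (m ⊕ n) (m ⊕ n) ℂ := Matrix.fromBlocks D0 0 0 D1 with hD
  have hdetD : D.det = D0.det * D1.det := Matrix.det_fromBlocks_zero₂₁ _ _ _
  have huD : IsUnit D.det := by rw [hdetD]; exact hu0.mul hu1
  have hDinv : D⁻¹ = Matrix.fromBlocks D0⁻¹ 0 0 D1⁻¹ := by
    refine Matrix.inv_eq_right_inv ?_
    rw [hD, Matrix.fromBlocks_multiply]
    simp only [Matrix.mul_zero, Matrix.zero_mul, add_zero, zero_add]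
    rw [Matrix.mul_nonsing_inv _ hu0, Matrix.mul_nonsing_inv _ hu1, Matrix.fromBlocks_one]
  have hsplit : Matrix.fromBlocks (a * aᴴ + T0) (a * bᴴ) (b * aᴴ) (b * bᴴ + T1)
        + (s : ℂ) • (1 : Matrix (m ⊕ n) (m ⊕ n) ℂ)
      = D + Matrix.fromRows a b * Matrix.fromCols aᴴ bᴴ := by
    rw [Matrix.fromRows_mul_fromCols, hD, Matrix.fromBlocks_add, ← Matrix.fromBlocks_one,
      Matrix.fromBlocks_smul, Matrix.fromBlocks_add]
    congr 1
    · rw [hD0]; abel
    · simp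
    · simp
    · rw [hD1]; abel
  rw [hsplit, Matrix.det_add_mul _ _ huD, hdetD, hDinv]
  congr 2
  rw [Matrix.fromCols_mul_fromBlocks, Matrix.fromCols_mul_fromRows]
  simp only [Matrix.mul_zero, add_zero, zero_add]
  rw [add_assoc]
  rfl

/-! ### Loewner facts for resolvents -/

/-- `s⁻¹ - (T + s)⁻¹ ≥ 0` for PSD `T`, `s > 0`. -/
theorem inv_smul_one_sub_resolvent_posSemidef {T : Matrix m m ℂ} (hT : T.PosSemidef) {s : ℝ}
    (hs : 0 < s) :
    (((s : ℂ)⁻¹) • (1 : Matrix m m ℂ) - (T + (s : ℂ) • (1 : Matrix m m ℂ))⁻¹).PosSemidef := by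
  set D : Matrix m m ℂ := T + (s : ℂ) • (1 : Matrix m m ℂ) with hD
  have hu : IsUnit D.det := isUnit_det_add_smul_one hT hs
  have hs0 : (s : ℂ) ≠ 0 := by exact_mod_cast hs.ne'
  have hRh : (D⁻¹)ᴴ = D⁻¹ := (posDef_add_smul_one hT hs).inv.isHermitian
  have hTT : (T * T + (s : ℂ) • T).PosSemidef := by
    have h1 : (Tᴴ * T).PosSemidef := Matrix.posSemidef_conjTranspose_mul_self T
    rw [hT.isHermitian.eq] at h1
    exact h1.add (hT.smul (by exact_mod_cast hs.le))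
  have key : ((s : ℂ)⁻¹) • (1 : Matrix m m ℂ) - D⁻¹
      = ((s : ℂ)⁻¹) • ((D⁻¹)ᴴ * (T * T + (s : ℂ) • T) * D⁻¹) := by
    have h2 : T * T + (s : ℂ) • T = D * T := by
      rw [hD, Matrix.add_mul, Matrix.smul_mul, Matrix.one_mul]
    have h3 : T = D - (s : ℂ) • (1 : Matrix m m ℂ) := by rw [hD]; abel
    rw [hRh, h2, ← Matrix.mul_assoc, Matrix.nonsing_inv_mul _ hu, Matrix.one_mul]
    have h4 : T * D⁻¹ = 1 - (s : ℂ) • D⁻¹ := by
      nth_rewrite 1 [h3]
      rw [Matrix.sub_mul, Matrix.mul_nonsing_inv _ hu, Matrix.smul_mul, Matrix.one_mul]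
    rw [h4, smul_sub, smul_smul, inv_mul_cancel₀ hs0, one_smul]
  rw [key]
  exact (hTT.conjTranspose_mul_mul_same _).smul (by
    rw [← Complex.ofReal_inv]; exact_mod_cast (inv_pos.2 hs).le)

/-- `(T + s)⁻¹ - (T + s')⁻¹ ≥ 0` for PSD `T`, `0 < s ≤ s'`. -/
theorem resolvent_sub_resolvent_posSemidef {T : Matrix m m ℂ} (hT : T.PosSemidef) {s s' : ℝ}
    (hs : 0 < s) (hss' : s ≤ s') :
    ((T + (s : ℂ) • (1 : Matrix m m ℂ))⁻¹ - (T + (s' : ℂ) • (1 : Matrix m m ℂ))⁻¹).PosSemidef := by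
  have hs' : 0 < s' := lt_of_lt_of_le hs hss'
  set D : Matrix m m ℂ := T + (s : ℂ) • (1 : Matrix m m ℂ) with hD
  set D' : Matrix m m ℂ := T + (s' : ℂ) • (1 : Matrix m m ℂ) with hD'
  have hu : IsUnit D.det := isUnit_det_add_smul_one hT hs
  have hu' : IsUnit D'.det := isUnit_det_add_smul_one hT hs'
  have hR'h : (D'⁻¹)ᴴ = D'⁻¹ := (posDef_add_smul_one hT hs').inv.isHermitian
  have hRpsd : (D⁻¹).PosSemidef := (posDef_add_smul_one hT hs).inv.posSemidef
  have hD'D : D' = D + ((s' - s : ℝ) : ℂ) • (1 : Matrix m m ℂ) := by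
    rw [hD, hD', Complex.ofReal_sub, sub_smul]; abel
  have hmid : ((1 : Matrix m m ℂ) + ((s' - s : ℝ) : ℂ) • D⁻¹).PosSemidef :=
    Matrix.PosSemidef.one.add (hRpsd.smul (by exact_mod_cast sub_nonneg.2 hss'))
  have key : D⁻¹ - D'⁻¹
      = ((s' - s : ℝ) : ℂ) • ((D'⁻¹)ᴴ * ((1 : Matrix m m ℂ) + ((s' - s : ℝ) : ℂ) • D⁻¹) * D'⁻¹) := by
    have h1 : (1 : Matrix m m ℂ) + ((s' - s : ℝ) : ℂ) • D⁻¹ = D' * D⁻¹ := by
      rw [hD'D, Matrix.add_mul, Matrix.mul_nonsing_inv _ hu, Matrix.smul_mul, Matrix.one_mul]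
    have h2 : D⁻¹ - D'⁻¹ = D⁻¹ * (D' - D) * D'⁻¹ := by
      rw [Matrix.mul_sub, Matrix.sub_mul, Matrix.mul_assoc, Matrix.mul_nonsing_inv _ hu',
        Matrix.mul_one, Matrix.nonsing_inv_mul _ hu, Matrix.one_mul]
    have h3 : D' - D = ((s' - s : ℝ) : ℂ) • (1 : Matrix m m ℂ) := by rw [hD'D]; abel
    rw [hR'h, h1, ← Matrix.mul_assoc, Matrix.nonsing_inv_mul _ hu', Matrix.one_mul, h2, h3,
      Matrix.mul_smul, Matrix.mul_one, Matrix.smul_mul]
  rw [key]
  exact (hmid.conjTranspose_mul_mul_same _).smul (by exact_mod_cast sub_nonneg.2 hss')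

/-- `aᴴ (T+s)⁻¹ a ≤ s⁻¹ aᴴ a` (Loewner). -/
theorem cres_le_gram (a : Matrix m k ℂ) {T : Matrix m m ℂ} (hT : T.PosSemidef) {s : ℝ}
    (hs : 0 < s) : (((s : ℂ)⁻¹) • (aᴴ * a) - cres a T s).PosSemidef := by
  have h := (inv_smul_one_sub_resolvent_posSemidef hT hs).conjTranspose_mul_mul_same a
  have e : ((s : ℂ)⁻¹) • (aᴴ * a) - cres a T s
      = aᴴ * (((s : ℂ)⁻¹) • (1 : Matrix m m ℂ) - (T + (s : ℂ) • (1 : Matrix m m ℂ))⁻¹) * a := by
    unfold cres
    rw [Matrix.mul_sub, Matrix.sub_mul, Matrix.mul_smul, Matrix.mul_one, Matrix.smul_mul]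
  rw [e]; exact h

/-- `s ↦ aᴴ (T+s)⁻¹ a` is Loewner-antitone on `s > 0`. -/
theorem cres_antitone (a : Matrix m k ℂ) {T : Matrix m m ℂ} (hT : T.PosSemidef) {s s' : ℝ}
    (hs : 0 < s) (hss' : s ≤ s') : (cres a T s - cres a T s').PosSemidef := by
  have h := (resolvent_sub_resolvent_posSemidef hT hs hss').conjTranspose_mul_mul_same a
  have e : cres a T s - cres a T s'
      = aᴴ * ((T + (s : ℂ) • (1 : Matrix m m ℂ))⁻¹ - (T + (s' : ℂ) • (1 : Matrix m m ℂ))⁻¹) * a := by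
    unfold cres
    rw [Matrix.mul_sub, Matrix.sub_mul]
  rw [e]; exact h

/-! ### Determinants of positive definite matrices -/

theorem posDef_det_re_pos {A : Matrix k k ℂ} (hA : A.PosDef) : 0 < A.det.re :=
  (Complex.pos_iff.1 hA.det_pos).1

theorem posDef_det_eq_ofReal {A : Matrix k k ℂ} (hA : A.PosDef) :
    A.det = ((A.det.re : ℝ) : ℂ) := by
  have h := (Complex.pos_iff.1 hA.det_pos).2
  apply Complex.ext
  · simp
  · simp [← h]

theorem re_mul_posDef_det (z : ℂ) {A : Matrix k k ℂ} (hA : A.PosDef) :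
    (z * A.det).re = z.re * A.det.re := by
  have h := (Complex.pos_iff.1 hA.det_pos).2
  rw [Complex.mul_re, ← h, mul_zero, sub_zero]

theorem one_add_posDef {P : Matrix k k ℂ} (hP : P.PosSemidef) : (1 + P).PosDef :=
  Matrix.PosDef.one.add_posSemidef hP

/-- `det (1 + R) ≥ 1` for PSD `R`. -/
theorem one_le_det_one_add {R : Matrix k k ℂ} (hR : R.PosSemidef) : 1 ≤ (1 + R).det.re := by
  have h := ld_det_add_smul_one_re R hR.1 1
  have e : (1 : Matrix k k ℂ) + R = R + ((1 : ℝ) : ℂ) • (1 : Matrix k k ℂ) := by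
    rw [Complex.ofReal_one, one_smul, add_comm]
  rw [e, h]
  calc (1 : ℝ) = ∏ _i : k, (1 : ℝ) := by simp
    _ ≤ ∏ i, (hR.1.eigenvalues i + 1) :=
      Finset.prod_le_prod (fun _ _ => zero_le_one) (fun i _ => by
        have := hR.eigenvalues_nonneg i
        linarith)

open scoped MatrixOrder in
/-- Monotonicity of `det` on positive definite matrices. -/
theorem det_le_det_add {A C : Matrix k k ℂ} (hA : A.PosDef) (hC : C.PosSemidef) :
    A.det.re ≤ (A + C).det.re := by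
  obtain ⟨y, rfl⟩ := CStarAlgebra.nonneg_iff_eq_star_mul_self.mp hC.nonneg
  rw [Matrix.star_eq_conjTranspose,
    Matrix.det_add_mul _ _ ((Matrix.isUnit_iff_isUnit_det _).1 hA.isUnit)]
  have hR : (y * A⁻¹ * yᴴ).PosSemidef := hA.inv.posSemidef.mul_mul_conjTranspose_same y
  have h1 := one_le_det_one_add hR
  have h2 := posDef_det_eq_ofReal (one_add_posDef hR)
  rw [h2, Complex.re_mul_ofReal]
  nlinarith [posDef_det_re_pos hA]

open scoped MatrixOrder in
/-- `det (1 + P + Q) ≤ det (1 + P) * det (1 + Q)` for PSD `P`, `Q`. -/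
theorem det_one_add_add_le {P Q : Matrix k k ℂ} (hP : P.PosSemidef) (hQ : Q.PosSemidef) :
    (1 + P + Q).det.re ≤ (1 + P).det.re * (1 + Q).det.re := by
  obtain ⟨y, rfl⟩ := CStarAlgebra.nonneg_iff_eq_star_mul_self.mp hQ.nonneg
  have hA : (1 + P).PosDef := one_add_posDef hP
  rw [Matrix.star_eq_conjTranspose,
    Matrix.det_add_mul _ _ ((Matrix.isUnit_iff_isUnit_det _).1 hA.isUnit),
    Matrix.det_one_add_mul_comm yᴴ y]
  have hR : (y * (1 + P)⁻¹ * yᴴ).PosSemidef := hA.inv.posSemidef.mul_mul_conjTranspose_same y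
  have hdiff : ((1 : Matrix k k ℂ) - (1 + P)⁻¹).PosSemidef := by
    have h := inv_smul_one_sub_resolvent_posSemidef hP (s := 1) one_pos
    have e : ((((1 : ℝ) : ℂ))⁻¹) • (1 : Matrix k k ℂ)
        - (P + ((1 : ℝ) : ℂ) • (1 : Matrix k k ℂ))⁻¹ = 1 - (1 + P)⁻¹ := by
      rw [Complex.ofReal_one, inv_one, one_smul, add_comm]
    rw [e] at h; exact h
  have hC : (y * (1 - (1 + P)⁻¹) * yᴴ).PosSemidef := hdiff.mul_mul_conjTranspose_same y
  have hle : (1 + y * (1 + P)⁻¹ * yᴴ).det.re ≤ (1 + y * yᴴ).det.re := by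
    have h := det_le_det_add (one_add_posDef hR) hC
    have e : 1 + y * (1 + P)⁻¹ * yᴴ + y * (1 - (1 + P)⁻¹) * yᴴ = 1 + y * yᴴ := by
      rw [Matrix.mul_sub, Matrix.sub_mul, Matrix.mul_one]; abel
    rw [e] at h; exact h
  have h2 := posDef_det_eq_ofReal (one_add_posDef hR)
  rw [h2, Complex.re_mul_ofReal]
  exact mul_le_mul_of_nonneg_left hle (posDef_det_re_pos hA).le

/-! ### Positivity of the four-path matrix -/

theorem trace_fromBlocks' (A : Matrix m m ℂ) (B : Matrix m n ℂ) (C : Matrix n m ℂ)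
    (D : Matrix n n ℂ) : (Matrix.fromBlocks A B C D).trace = A.trace + D.trace := by
  simp [Matrix.trace, Fintype.sum_sum_type]

open scoped MatrixOrder in
theorem posSemidef_fromBlocks_diag {T0 : Matrix m m ℂ} {T1 : Matrix n n ℂ}
    (h0 : T0.PosSemidef) (h1 : T1.PosSemidef) :
    (Matrix.fromBlocks T0 0 0 T1).PosSemidef := by
  obtain ⟨y0, rfl⟩ := CStarAlgebra.nonneg_iff_eq_star_mul_self.mp h0.nonneg
  obtain ⟨y1, rfl⟩ := CStarAlgebra.nonneg_iff_eq_star_mul_self.mp h1.nonneg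
  have e : Matrix.fromBlocks (star y0 * y0) 0 0 (star y1 * y1)
      = (Matrix.fromBlocks y0 (0 : Matrix m n ℂ) (0 : Matrix n m ℂ) y1)ᴴ
        * Matrix.fromBlocks y0 (0 : Matrix m n ℂ) (0 : Matrix n m ℂ) y1 := by
    rw [Matrix.fromBlocks_conjTranspose, Matrix.fromBlocks_multiply]
    simp [Matrix.star_eq_conjTranspose]
  rw [e]
  exact Matrix.posSemidef_conjTranspose_mul_self _

/-- The four-path matrix `[[a aᴴ + T0, a bᴴ], [b aᴴ, b bᴴ + T1]]` is PSD. -/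
theorem fourPath_posSemidef (a : Matrix m k ℂ) (b : Matrix n k ℂ) {T0 : Matrix m m ℂ}
    {T1 : Matrix n n ℂ} (hT0 : T0.PosSemidef) (hT1 : T1.PosSemidef) :
    (Matrix.fromBlocks (a * aᴴ + T0) (a * bᴴ) (b * aᴴ) (b * bᴴ + T1)).PosSemidef := by
  have e : Matrix.fromBlocks (a * aᴴ + T0) (a * bᴴ) (b * aᴴ) (b * bᴴ + T1)
      = Matrix.fromRows a b * (Matrix.fromRows a b)ᴴ + Matrix.fromBlocks T0 0 0 T1 := by
    rw [Matrix.conjTranspose_fromRows_eq_fromCols_conjTranspose, Matrix.fromRows_mul_fromCols,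
      Matrix.fromBlocks_add]
    simp
  rw [e]
  exact (Matrix.posSemidef_self_mul_conjTranspose _).add (posSemidef_fromBlocks_diag hT0 hT1)

/-! ### Logarithms of the determinants -/

theorem log_det_gram (a : Matrix m k ℂ) {s : ℝ} (hs : 0 < s) :
    Real.log (aᴴ * a + (s : ℂ) • (1 : Matrix k k ℂ)).det.re
      = (Fintype.card k : ℝ) * Real.log s
        + Real.log (1 + ((s : ℂ)⁻¹) • (aᴴ * a)).det.re := by
  have hpsd : (((s : ℂ)⁻¹) • (aᴴ * a)).PosSemidef :=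
    (Matrix.posSemidef_conjTranspose_mul_self a).smul (by
      rw [← Complex.ofReal_inv]; exact_mod_cast (inv_pos.2 hs).le)
  have hpd := one_add_posDef hpsd
  have hre : (aᴴ * a + (s : ℂ) • (1 : Matrix k k ℂ)).det.re
      = s ^ Fintype.card k * (1 + ((s : ℂ)⁻¹) • (aᴴ * a)).det.re := by
    rw [det_gram_add_smul_one a hs, ← Complex.ofReal_pow, Complex.re_ofReal_mul]
  rw [hre, Real.log_mul (pow_pos hs _).ne' (posDef_det_re_pos hpd).ne', Real.log_pow]

theorem log_det_twoChain (a : Matrix m k ℂ) {T : Matrix m m ℂ} (hT : T.PosSemidef) {s : ℝ}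
    (hs : 0 < s) :
    Real.log (a * aᴴ + T + (s : ℂ) • (1 : Matrix m m ℂ)).det.re
      = Real.log (T + (s : ℂ) • (1 : Matrix m m ℂ)).det.re
        + Real.log (1 + cres a T s).det.re := by
  have hpd := one_add_posDef (cres_posSemidef a hT hs)
  have hpd' := posDef_add_smul_one hT hs
  rw [det_twoChain a hT hs, re_mul_posDef_det _ hpd,
    Real.log_mul (posDef_det_re_pos hpd').ne' (posDef_det_re_pos hpd).ne']

theorem log_det_fourPath (a : Matrix m k ℂ) (b : Matrix n k ℂ) {T0 : Matrix m m ℂ}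
    {T1 : Matrix n n ℂ} (hT0 : T0.PosSemidef) (hT1 : T1.PosSemidef) {s : ℝ} (hs : 0 < s) :
    Real.log (Matrix.fromBlocks (a * aᴴ + T0) (a * bᴴ) (b * aᴴ) (b * bᴴ + T1)
        + (s : ℂ) • (1 : Matrix (m ⊕ n) (m ⊕ n) ℂ)).det.re
      = Real.log (T0 + (s : ℂ) • (1 : Matrix m m ℂ)).det.re
        + Real.log (T1 + (s : ℂ) • (1 : Matrix n n ℂ)).det.re
        + Real.log (1 + cres a T0 s + cres b T1 s).det.re := by
  have hpd : (1 + cres a T0 s + cres b T1 s).PosDef :=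
    (one_add_posDef (cres_posSemidef a hT0 hs)).add_posSemidef (cres_posSemidef b hT1 hs)
  have hpd0 := posDef_add_smul_one hT0 hs
  have hpd1 := posDef_add_smul_one hT1 hs
  rw [det_fourPath a b hT0 hT1 hs, re_mul_posDef_det _ hpd, re_mul_posDef_det _ hpd1,
    Real.log_mul (mul_pos (posDef_det_re_pos hpd0) (posDef_det_re_pos hpd1)).ne'
      (posDef_det_re_pos hpd).ne',
    Real.log_mul (posDef_det_re_pos hpd0).ne' (posDef_det_re_pos hpd1).ne']

/-! ### The integrands -/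

/-- The two-chain integrand `ln det (1 + aᴴ a / s) - ln det (1 + aᴴ (T+s)⁻¹ a)`. -/
noncomputable def chainInt (a : Matrix m k ℂ) (T : Matrix m m ℂ) (s : ℝ) : ℝ :=
  Real.log (1 + ((s : ℂ)⁻¹) • (aᴴ * a)).det.re - Real.log (1 + cres a T s).det.re

/-- The cross integrand
`ln det (1 + A0) + ln det (1 + A1) - ln det (1 + A0 + A1)`, `A0 = aᴴ (T0+s)⁻¹ a`,
`A1 = bᴴ (T1+s)⁻¹ b`. -/
noncomputable def crossInt (a : Matrix m k ℂ) (b : Matrix n k ℂ) (T0 : Matrix m m ℂ)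
    (T1 : Matrix n n ℂ) (s : ℝ) : ℝ :=
  Real.log (1 + cres a T0 s).det.re + Real.log (1 + cres b T1 s).det.re
    - Real.log (1 + cres a T0 s + cres b T1 s).det.re

/-- The full four-path integrand
`ln det (1 + aᴴ a / s) + ln det (1 + bᴴ b / s) - ln det (1 + A0 + A1)`. -/
noncomputable def fourInt (a : Matrix m k ℂ) (b : Matrix n k ℂ) (T0 : Matrix m m ℂ)
    (T1 : Matrix n n ℂ) (s : ℝ) : ℝ :=
  Real.log (1 + ((s : ℂ)⁻¹) • (aᴴ * a)).det.re + Real.log (1 + ((s : ℂ)⁻¹) • (bᴴ * b)).det.re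
    - Real.log (1 + cres a T0 s + cres b T1 s).det.re

theorem fourInt_eq (a : Matrix m k ℂ) (b : Matrix n k ℂ) (T0 : Matrix m m ℂ)
    (T1 : Matrix n n ℂ) (s : ℝ) :
    fourInt a b T0 T1 s = chainInt a T0 s + chainInt b T1 s + crossInt a b T0 T1 s := by
  unfold fourInt chainInt crossInt
  ring

theorem chainInt_nonneg (a : Matrix m k ℂ) {T : Matrix m m ℂ} (hT : T.PosSemidef) {s : ℝ}
    (hs : 0 < s) : 0 ≤ chainInt a T s := by
  unfold chainInt
  have hpd := one_add_posDef (cres_posSemidef a hT hs)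
  have h := det_le_det_add hpd (cres_le_gram a hT hs)
  have e : 1 + cres a T s + (((s : ℂ)⁻¹) • (aᴴ * a) - cres a T s)
      = 1 + ((s : ℂ)⁻¹) • (aᴴ * a) := by abel
  rw [e] at h
  exact sub_nonneg.2 (Real.log_le_log (posDef_det_re_pos hpd) h)

theorem crossInt_nonneg (a : Matrix m k ℂ) (b : Matrix n k ℂ) {T0 : Matrix m m ℂ}
    {T1 : Matrix n n ℂ} (hT0 : T0.PosSemidef) (hT1 : T1.PosSemidef) {s : ℝ} (hs : 0 < s) :
    0 ≤ crossInt a b T0 T1 s := by
  unfold crossInt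
  have hP := cres_posSemidef a hT0 hs
  have hQ := cres_posSemidef b hT1 hs
  have hpd : (1 + cres a T0 s + cres b T1 s).PosDef := (one_add_posDef hP).add_posSemidef hQ
  have h := det_one_add_add_le hP hQ
  have h2 := Real.log_le_log (posDef_det_re_pos hpd) h
  rw [Real.log_mul (posDef_det_re_pos (one_add_posDef hP)).ne'
    (posDef_det_re_pos (one_add_posDef hQ)).ne'] at h2
  linarith

theorem fourInt_nonneg (a : Matrix m k ℂ) (b : Matrix n k ℂ) {T0 : Matrix m m ℂ}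
    {T1 : Matrix n n ℂ} (hT0 : T0.PosSemidef) (hT1 : T1.PosSemidef) {s : ℝ} (hs : 0 < s) :
    0 ≤ fourInt a b T0 T1 s := by
  rw [fourInt_eq]
  have h1 := chainInt_nonneg a hT0 hs
  have h2 := chainInt_nonneg b hT1 hs
  have h3 := crossInt_nonneg a b hT0 hT1 hs
  linarith

/-! ### `s`-integral representations of the entropy differences -/

/-- **Two-chain**: `S(a aᴴ) + S(T) - S(a aᴴ + T)` is represented by `chainInt a T`. -/
theorem logDetRep_twoChain (a : Matrix m k ℂ) {T : Matrix m m ℂ} (hT : T.PosSemidef) :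
    LogDetRep (vnEntropy (a * aᴴ) + vnEntropy T - vnEntropy (a * aᴴ + T)) 0 0
      (chainInt a T) := by
  have hX := logDetRep_vnEntropy (aᴴ * a) (Matrix.posSemidef_conjTranspose_mul_self a)
  have hTr := logDetRep_vnEntropy T hT
  have hXT := logDetRep_vnEntropy (a * aᴴ + T)
    ((Matrix.posSemidef_self_mul_conjTranspose a).add hT)
  have hlog := (logDetRep_log).const_mul (Fintype.card k : ℝ)
  refine (((hX.add hTr).sub hXT).sub hlog).congr ?_ ?_ ?_ ?_
  · rw [vnEntropy_mul_conjTranspose_comm a]; ring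
  · ring
  · rw [Matrix.trace_add, Matrix.trace_mul_comm aᴴ a, Complex.add_re]; ring
  · intro s hs
    rw [log_det_gram a hs, log_det_twoChain a hT hs]
    unfold chainInt; ring

/-- **Cross term**: `S(a aᴴ + T0) + S(b bᴴ + T1) - S(O)` is represented by `crossInt`. -/
theorem logDetRep_cross (a : Matrix m k ℂ) (b : Matrix n k ℂ) {T0 : Matrix m m ℂ}
    {T1 : Matrix n n ℂ} (hT0 : T0.PosSemidef) (hT1 : T1.PosSemidef) :
    LogDetRep (vnEntropy (a * aᴴ + T0) + vnEntropy (b * bᴴ + T1)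
        - vnEntropy (Matrix.fromBlocks (a * aᴴ + T0) (a * bᴴ) (b * aᴴ) (b * bᴴ + T1))) 0 0
      (crossInt a b T0 T1) := by
  have h0 := logDetRep_vnEntropy (a * aᴴ + T0)
    ((Matrix.posSemidef_self_mul_conjTranspose a).add hT0)
  have h1 := logDetRep_vnEntropy (b * bᴴ + T1)
    ((Matrix.posSemidef_self_mul_conjTranspose b).add hT1)
  have hO := logDetRep_vnEntropy _ (fourPath_posSemidef a b hT0 hT1)
  refine ((h0.add h1).sub hO).congr rfl ?_ ?_ ?_
  · rw [Fintype.card_sum]; push_cast; ring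
  · rw [trace_fromBlocks', Complex.add_re]; ring
  · intro s hs
    rw [log_det_twoChain a hT0 hs, log_det_twoChain b hT1 hs, log_det_fourPath a b hT0 hT1 hs]
    unfold crossInt; ring

/-- **Four-path**: `S(a aᴴ) + S(b bᴴ) + S(T0) + S(T1) - S(O)` is represented by `fourInt`. -/
theorem logDetRep_fourPath (a : Matrix m k ℂ) (b : Matrix n k ℂ) {T0 : Matrix m m ℂ}
    {T1 : Matrix n n ℂ} (hT0 : T0.PosSemidef) (hT1 : T1.PosSemidef) :
    LogDetRep (vnEntropy (a * aᴴ) + vnEntropy (b * bᴴ) + vnEntropy T0 + vnEntropy T1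
        - vnEntropy (Matrix.fromBlocks (a * aᴴ + T0) (a * bᴴ) (b * aᴴ) (b * bᴴ + T1))) 0 0
      (fourInt a b T0 T1) := by
  refine (((logDetRep_twoChain a hT0).add (logDetRep_twoChain b hT1)).add
    (logDetRep_cross a b hT0 hT1)).congr ?_ ?_ ?_ ?_
  · ring
  · ring
  · ring
  · intro s _
    rw [fourInt_eq]

theorem integrableOn_chainInt (a : Matrix m k ℂ) {T : Matrix m m ℂ} (hT : T.PosSemidef) :
    IntegrableOn (chainInt a T) (Set.Ioi 0) volume :=
  (logDetRep_twoChain a hT).integrableOn_Ioi_of_nonneg fun _ hs => chainInt_nonneg a hT hs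

theorem integrableOn_crossInt (a : Matrix m k ℂ) (b : Matrix n k ℂ) {T0 : Matrix m m ℂ}
    {T1 : Matrix n n ℂ} (hT0 : T0.PosSemidef) (hT1 : T1.PosSemidef) :
    IntegrableOn (crossInt a b T0 T1) (Set.Ioi 0) volume :=
  (logDetRep_cross a b hT0 hT1).integrableOn_Ioi_of_nonneg
    fun _ hs => crossInt_nonneg a b hT0 hT1 hs

theorem integrableOn_fourInt (a : Matrix m k ℂ) (b : Matrix n k ℂ) {T0 : Matrix m m ℂ}
    {T1 : Matrix n n ℂ} (hT0 : T0.PosSemidef) (hT1 : T1.PosSemidef) :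
    IntegrableOn (fourInt a b T0 T1) (Set.Ioi 0) volume :=
  (logDetRep_fourPath a b hT0 hT1).integrableOn_Ioi_of_nonneg
    fun _ hs => fourInt_nonneg a b hT0 hT1 hs

/-- `S(a aᴴ) + S(T) - S(a aᴴ + T) = ∫_0^∞ chainInt a T s ds`. -/
theorem twoChain_eq_integral (a : Matrix m k ℂ) {T : Matrix m m ℂ} (hT : T.PosSemidef) :
    vnEntropy (a * aᴴ) + vnEntropy T - vnEntropy (a * aᴴ + T)
      = ∫ s in Set.Ioi (0 : ℝ), chainInt a T s :=
  (logDetRep_twoChain a hT).eq_integral_Ioi (integrableOn_chainInt a hT)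

/-- `S(a aᴴ + T0) + S(b bᴴ + T1) - S(O) = ∫_0^∞ crossInt a b T0 T1 s ds`. -/
theorem cross_eq_integral (a : Matrix m k ℂ) (b : Matrix n k ℂ) {T0 : Matrix m m ℂ}
    {T1 : Matrix n n ℂ} (hT0 : T0.PosSemidef) (hT1 : T1.PosSemidef) :
    vnEntropy (a * aᴴ + T0) + vnEntropy (b * bᴴ + T1)
        - vnEntropy (Matrix.fromBlocks (a * aᴴ + T0) (a * bᴴ) (b * aᴴ) (b * bᴴ + T1))
      = ∫ s in Set.Ioi (0 : ℝ), crossInt a b T0 T1 s :=
  (logDetRep_cross a b hT0 hT1).eq_integral_Ioi (integrableOn_crossInt a b hT0 hT1)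

/-- `S(a aᴴ) + S(b bᴴ) + S(T0) + S(T1) - S(O) = ∫_0^∞ fourInt a b T0 T1 s ds`. -/
theorem fourPath_eq_integral (a : Matrix m k ℂ) (b : Matrix n k ℂ) {T0 : Matrix m m ℂ}
    {T1 : Matrix n n ℂ} (hT0 : T0.PosSemidef) (hT1 : T1.PosSemidef) :
    vnEntropy (a * aᴴ) + vnEntropy (b * bᴴ) + vnEntropy T0 + vnEntropy T1
        - vnEntropy (Matrix.fromBlocks (a * aᴴ + T0) (a * bᴴ) (b * aᴴ) (b * bᴴ + T1))
      = ∫ s in Set.Ioi (0 : ℝ), fourInt a b T0 T1 s :=
  (logDetRep_fourPath a b hT0 hT1).eq_integral_Ioi (integrableOn_fourInt a b hT0 hT1)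

/-- Lower-integral form of `twoChain_eq_integral`. -/
theorem twoChain_eq_lintegral (a : Matrix m k ℂ) {T : Matrix m m ℂ} (hT : T.PosSemidef) :
    ENNReal.ofReal (vnEntropy (a * aᴴ) + vnEntropy T - vnEntropy (a * aᴴ + T))
      = ∫⁻ s in Set.Ioi (0 : ℝ), ENNReal.ofReal (chainInt a T s) := by
  rw [twoChain_eq_integral a hT]
  exact ofReal_integral_eq_lintegral_ofReal (integrableOn_chainInt a hT)
    ((ae_restrict_mem measurableSet_Ioi).mono fun _ hs => chainInt_nonneg a hT hs)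

/-- Lower-integral form of `cross_eq_integral`. -/
theorem cross_eq_lintegral (a : Matrix m k ℂ) (b : Matrix n k ℂ) {T0 : Matrix m m ℂ}
    {T1 : Matrix n n ℂ} (hT0 : T0.PosSemidef) (hT1 : T1.PosSemidef) :
    ENNReal.ofReal (vnEntropy (a * aᴴ + T0) + vnEntropy (b * bᴴ + T1)
        - vnEntropy (Matrix.fromBlocks (a * aᴴ + T0) (a * bᴴ) (b * aᴴ) (b * bᴴ + T1)))
      = ∫⁻ s in Set.Ioi (0 : ℝ), ENNReal.ofReal (crossInt a b T0 T1 s) := by
  rw [cross_eq_integral a b hT0 hT1]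
  exact ofReal_integral_eq_lintegral_ofReal (integrableOn_crossInt a b hT0 hT1)
    ((ae_restrict_mem measurableSet_Ioi).mono fun _ hs => crossInt_nonneg a b hT0 hT1 hs)

/-- Lower-integral form of `fourPath_eq_integral`: `ofReal (-Psi4) = ∫⁻ ofReal (fourInt)`. -/
theorem fourPath_eq_lintegral (a : Matrix m k ℂ) (b : Matrix n k ℂ) {T0 : Matrix m m ℂ}
    {T1 : Matrix n n ℂ} (hT0 : T0.PosSemidef) (hT1 : T1.PosSemidef) :
    ENNReal.ofReal (vnEntropy (a * aᴴ) + vnEntropy (b * bᴴ) + vnEntropy T0 + vnEntropy T1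
        - vnEntropy (Matrix.fromBlocks (a * aᴴ + T0) (a * bᴴ) (b * aᴴ) (b * bᴴ + T1)))
      = ∫⁻ s in Set.Ioi (0 : ℝ), ENNReal.ofReal (fourInt a b T0 T1 s) := by
  rw [fourPath_eq_integral a b hT0 hT1]
  exact ofReal_integral_eq_lintegral_ofReal (integrableOn_fourInt a b hT0 hT1)
    ((ae_restrict_mem measurableSet_Ioi).mono fun _ hs => fourInt_nonneg a b hT0 hT1 hs)

/-- The four-path entropy defect is nonnegative. -/
theorem fourPath_defect_nonneg (a : Matrix m k ℂ) (b : Matrix n k ℂ) {T0 : Matrix m m ℂ}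
    {T1 : Matrix n n ℂ} (hT0 : T0.PosSemidef) (hT1 : T1.PosSemidef) :
    0 ≤ vnEntropy (a * aᴴ) + vnEntropy (b * bᴴ) + vnEntropy T0 + vnEntropy T1
        - vnEntropy (Matrix.fromBlocks (a * aᴴ + T0) (a * bᴴ) (b * aᴴ) (b * bᴴ + T1)) :=
  (logDetRep_fourPath a b hT0 hT1).nonneg rfl rfl fun _ hs => fourInt_nonneg a b hT0 hT1 hs

end Algebra

end Crest.Agent.GAD.DetLemma
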