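import Mathlib

/-!
# Row 341 (GADC), EIG-GLUE (helper14)

Matrix-side glue for the layer-cake / Tonelli core of the (AD4) proof (board #1597):

* `qf`, `nsq`: the real quadratic form `re (xᴴ A x)` and the squared norm, with the spectral
  expansion `qf_eq_sum_eig`.
* `finrank_le_card_eig_gt` (min-max counting lemma), `exists_submodule_card_eig_gt`,
  `card_eig_gt_le_of_transfer` (transfer lemma: Weyl / Sylvester-type comparisons of eigenvalue
  counting functions).
* `eigenvalues₀_mono` / `sortedEig_mono`: **Weyl monotonicity** of Mathlib's sorted eigenvalues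
  `Matrix.IsHermitian.eigenvalues₀` in the Loewner order; `sortedEig_one_add`, `sortedEig_smul`.
* `A0 T a s = aᴴ (T + s)⁻¹ a`: positive semidefinite, `≤ s⁻¹ • aᴴ a`, Loewner-antitone in `s`;
  hence `0 ≤ sortedEig (A0 T a s) k ≤ sortedEig (aᴴ a) k / s`, `AntitoneOn` in `s` and
  a.e.-measurability on `Ioi 0`.

Everything lives in the namespace `Crest.Agent.GAD.Eig14` (no clash with other GAD modules).
-/

set_option autoImplicit false
set_option linter.unusedSectionVars false

open Matrix Finset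
open scoped ComplexOrder

namespace Crest.Agent.GAD.Eig14

variable {n : Type*} [Fintype n] [DecidableEq n]

/-- The real quadratic form `re (xᴴ A x)` of a square complex matrix. -/
noncomputable def qf (A : Matrix n n ℂ) (x : n → ℂ) : ℝ := (star x ⬝ᵥ A *ᵥ x).re

/-- The squared Euclidean norm `re (xᴴ x)`. -/
noncomputable def nsq (x : n → ℂ) : ℝ := (star x ⬝ᵥ x).re

theorem nsq_eq_sum (x : n → ℂ) : nsq x = ∑ i, Complex.normSq (x i) := by
  unfold nsq
  simp only [dotProduct, Pi.star_apply, Complex.re_sum]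
  refine Finset.sum_congr rfl fun i _ => ?_
  rw [RCLike.star_def, Complex.normSq_apply]
  simp [Complex.mul_re]

theorem nsq_nonneg (x : n → ℂ) : 0 ≤ nsq x := by
  rw [nsq_eq_sum]; exact Finset.sum_nonneg fun i _ => Complex.normSq_nonneg _

theorem nsq_eq_zero_iff (x : n → ℂ) : nsq x = 0 ↔ x = 0 := by
  rw [nsq_eq_sum]
  constructor
  · intro h
    have h' := (Finset.sum_eq_zero_iff_of_nonneg (fun i _ => Complex.normSq_nonneg (x i))).mp h
    funext i
    exact Complex.normSq_eq_zero.mp (h' i (Finset.mem_univ i))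
  · rintro rfl; simp

theorem nsq_pos_of_ne_zero {x : n → ℂ} (hx : x ≠ 0) : 0 < nsq x :=
  lt_of_le_of_ne (nsq_nonneg x) (fun h => hx ((nsq_eq_zero_iff x).mp h.symm))

theorem qf_add (A B : Matrix n n ℂ) (x : n → ℂ) : qf (A + B) x = qf A x + qf B x := by
  unfold qf; rw [Matrix.add_mulVec, dotProduct_add, Complex.add_re]

theorem qf_sub (A B : Matrix n n ℂ) (x : n → ℂ) : qf (A - B) x = qf A x - qf B x := by
  unfold qf; rw [Matrix.sub_mulVec, dotProduct_sub, Complex.sub_re]

theorem qf_one (x : n → ℂ) : qf (1 : Matrix n n ℂ) x = nsq x := by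
  unfold qf nsq; rw [Matrix.one_mulVec]

theorem qf_smul (c : ℝ) (A : Matrix n n ℂ) (x : n → ℂ) : qf ((c : ℂ) • A) x = c * qf A x := by
  unfold qf; rw [Matrix.smul_mulVec, dotProduct_smul, smul_eq_mul, Complex.re_ofReal_mul]

theorem qf_nonneg_of_posSemidef {A : Matrix n n ℂ} (hA : A.PosSemidef) (x : n → ℂ) :
    0 ≤ qf A x := by
  have h := hA.dotProduct_mulVec_nonneg x
  exact (Complex.nonneg_iff.mp h).1

theorem nsq_zero : nsq (0 : n → ℂ) = 0 := by simp [nsq]
theorem qf_zero_vec (A : Matrix n n ℂ) : qf A (0 : n → ℂ) = 0 := by simp [qf]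


/-- Coordinates of a vector in the eigenbasis of a Hermitian matrix. -/
noncomputable def eigCoord {A : Matrix n n ℂ} (hA : A.IsHermitian) (x : n → ℂ) : n → ℂ :=
  star (hA.eigenvectorUnitary : Matrix n n ℂ) *ᵥ x

theorem star_eigCoord {A : Matrix n n ℂ} (hA : A.IsHermitian) (x : n → ℂ) :
    star (eigCoord hA x) = star x ᵥ* (hA.eigenvectorUnitary : Matrix n n ℂ) := by
  unfold eigCoord
  rw [Matrix.star_mulVec, Matrix.star_eq_conjTranspose, Matrix.conjTranspose_conjTranspose]

theorem nsq_eigCoord {A : Matrix n n ℂ} (hA : A.IsHermitian) (x : n → ℂ) :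
    nsq (eigCoord hA x) = nsq x := by
  unfold nsq
  rw [star_eigCoord, ← Matrix.dotProduct_mulVec]
  unfold eigCoord
  rw [Matrix.mulVec_mulVec]
  have h : (hA.eigenvectorUnitary : Matrix n n ℂ) * star (hA.eigenvectorUnitary : Matrix n n ℂ) = 1 :=
    Unitary.coe_mul_star_self _
  rw [h, Matrix.one_mulVec]

theorem qf_eq_sum_eig {A : Matrix n n ℂ} (hA : A.IsHermitian) (x : n → ℂ) :
    qf A x = ∑ i, hA.eigenvalues i * Complex.normSq (eigCoord hA x i) := by
  have hsp : A = (hA.eigenvectorUnitary : Matrix n n ℂ) *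
      diagonal (fun i => ((hA.eigenvalues i : ℝ) : ℂ)) *
      star (hA.eigenvectorUnitary : Matrix n n ℂ) := by
    have h := hA.spectral_theorem
    rw [Unitary.conjStarAlgAut_apply] at h
    exact h
  have h1 : A *ᵥ x = (hA.eigenvectorUnitary : Matrix n n ℂ) *ᵥ
      (diagonal (fun i => ((hA.eigenvalues i : ℝ) : ℂ)) *ᵥ eigCoord hA x) := by
    conv_lhs => rw [hsp]
    unfold eigCoord
    rw [Matrix.mulVec_mulVec, Matrix.mulVec_mulVec]
  unfold qf
  rw [h1, Matrix.dotProduct_mulVec, ← star_eigCoord]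
  simp only [dotProduct, Pi.star_apply, Matrix.mulVec_diagonal, Complex.re_sum]
  refine Finset.sum_congr rfl fun i _ => ?_
  rw [RCLike.star_def, Complex.normSq_apply]
  simp [Complex.mul_re]
  ring

/-- **Min-max counting lemma.** If the quadratic form of a Hermitian matrix `A` exceeds `c‖x‖²`
on every nonzero vector of a subspace `V`, then `dim V ≤ #{i | c < eigenvalue i}`. -/
theorem finrank_le_card_eig_gt {A : Matrix n n ℂ} (hA : A.IsHermitian) (c : ℝ)
    (V : Submodule ℂ (n → ℂ)) (hV : ∀ x ∈ V, x ≠ 0 → c * nsq x < qf A x) :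
    Module.finrank ℂ V ≤ (Finset.univ.filter fun i => c < hA.eigenvalues i).card := by
  classical
  let φ : V →ₗ[ℂ] ({i : n // c < hA.eigenvalues i} → ℂ) :=
    (LinearMap.funLeft ℂ ℂ (Subtype.val : {i : n // c < hA.eigenvalues i} → n)) ∘ₗ
      (Matrix.mulVecLin (star (hA.eigenvectorUnitary : Matrix n n ℂ))) ∘ₗ V.subtype
  have hφ : Function.Injective φ := by
    rw [injective_iff_map_eq_zero]
    intro x hx
    by_contra hne
    have hx0 : (x : n → ℂ) ≠ 0 := fun h => hne (Subtype.ext h)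
    have h1 := hV x x.2 hx0
    have hy : ∀ i, c < hA.eigenvalues i → eigCoord hA x i = 0 := by
      intro i hi
      have := congrFun hx ⟨i, hi⟩
      simpa [φ, eigCoord] using this
    rw [qf_eq_sum_eig hA, ← nsq_eigCoord hA, nsq_eq_sum, Finset.mul_sum] at h1
    have h2 : ∑ i, hA.eigenvalues i * Complex.normSq (eigCoord hA x i) ≤
        ∑ i, c * Complex.normSq (eigCoord hA x i) := by
      refine Finset.sum_le_sum fun i _ => ?_
      by_cases hi : c < hA.eigenvalues i
      · rw [hy i hi]; simp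
      · exact mul_le_mul_of_nonneg_right (not_lt.mp hi) (Complex.normSq_nonneg _)
    exact absurd h1 (not_lt.mpr h2)
  have h := LinearMap.finrank_le_finrank_of_injective hφ
  simpa [Fintype.card_subtype] using h

/-- The spectral subspace of eigenvalues `> c` has dimension `≥ #{i | c < eigenvalue i}` and the
quadratic form exceeds `c‖x‖²` on it. -/
theorem exists_submodule_card_eig_gt {A : Matrix n n ℂ} (hA : A.IsHermitian) (c : ℝ) :
    ∃ V : Submodule ℂ (n → ℂ),
      (Finset.univ.filter fun i => c < hA.eigenvalues i).card ≤ Module.finrank ℂ V ∧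
      ∀ x ∈ V, x ≠ 0 → c * nsq x < qf A x := by
  classical
  let φ : (n → ℂ) →ₗ[ℂ] ({i : n // ¬ c < hA.eigenvalues i} → ℂ) :=
    (LinearMap.funLeft ℂ ℂ (Subtype.val : {i : n // ¬ c < hA.eigenvalues i} → n)) ∘ₗ
      (Matrix.mulVecLin (star (hA.eigenvectorUnitary : Matrix n n ℂ)))
  refine ⟨LinearMap.ker φ, ?_, ?_⟩
  · have h1 := LinearMap.finrank_range_add_finrank_ker φ
    have h2 : Module.finrank ℂ (LinearMap.range φ) ≤
        Fintype.card {i : n // ¬ c < hA.eigenvalues i} := by
      have := Submodule.finrank_le (LinearMap.range φ)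
      simpa using this
    have h3 : Module.finrank ℂ (n → ℂ) = Fintype.card n := by simp
    have h4 : (Finset.univ.filter fun i => c < hA.eigenvalues i).card +
        Fintype.card {i : n // ¬ c < hA.eigenvalues i} = Fintype.card n := by
      rw [Fintype.card_subtype]
      exact Finset.card_filter_add_card_filter_not (s := Finset.univ) (fun i => c < hA.eigenvalues i)
    omega
  · intro x hx hx0
    have hy : ∀ i, ¬ c < hA.eigenvalues i → eigCoord hA x i = 0 := by
      intro i hi
      have := congrFun (LinearMap.mem_ker.mp hx) ⟨i, hi⟩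
      simpa [φ, eigCoord] using this
    have hpos : 0 < nsq (eigCoord hA x) := by
      rw [nsq_eigCoord]; exact nsq_pos_of_ne_zero hx0
    rw [nsq_eq_sum] at hpos
    obtain ⟨j, hj⟩ : ∃ j, 0 < Complex.normSq (eigCoord hA x j) := by
      by_contra hcon
      simp only [not_exists, not_lt] at hcon
      exact absurd hpos (not_lt.mpr (Finset.sum_nonpos fun i _ => hcon i))
    rw [qf_eq_sum_eig hA, ← nsq_eigCoord hA, nsq_eq_sum, Finset.mul_sum]
    apply Finset.sum_lt_sum
    · intro i _
      by_cases hi : c < hA.eigenvalues i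
      · exact mul_le_mul_of_nonneg_right hi.le (Complex.normSq_nonneg _)
      · rw [hy i hi]; simp
    · refine ⟨j, Finset.mem_univ j, ?_⟩
      have hcj : c < hA.eigenvalues j := by
        by_contra h
        rw [hy j h] at hj
        simp at hj
      exact mul_lt_mul_of_pos_right hcj hj

/-- **Transfer lemma** (min-max, Sylvester-type): if a linear map `L` sends every vector on which
the form of `A` exceeds `c‖x‖²` to a vector on which the form of `B` exceeds `c'‖Lx‖²`, then
`#{eig A > c} ≤ #{eig B > c'}`. -/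
theorem card_eig_gt_le_of_transfer {m : Type*} [Fintype m] [DecidableEq m]
    {A : Matrix n n ℂ} {B : Matrix m m ℂ} (hA : A.IsHermitian) (hB : B.IsHermitian)
    (L : (n → ℂ) →ₗ[ℂ] (m → ℂ)) (c c' : ℝ)
    (h : ∀ x, c * nsq x < qf A x → c' * nsq (L x) < qf B (L x)) :
    (Finset.univ.filter fun i => c < hA.eigenvalues i).card ≤
      (Finset.univ.filter fun j => c' < hB.eigenvalues j).card := by
  obtain ⟨V, hV1, hV2⟩ := exists_submodule_card_eig_gt hA c
  have hinj : ∀ x ∈ V, L x = 0 → x = 0 := by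
    intro x hxV hL
    by_contra hx0
    have h1 := h x (hV2 x hxV hx0)
    rw [hL, nsq_zero, qf_zero_vec] at h1
    simp at h1
  have h3 : Module.finrank ℂ V ≤ Module.finrank ℂ (V.map L) := by
    let g : V →ₗ[ℂ] (V.map L) :=
      (L.domRestrict V).codRestrict (V.map L) (fun x => Submodule.mem_map_of_mem x.2)
    have hg : Function.Injective g := by
      rw [injective_iff_map_eq_zero]
      intro x hx
      have hx' : L x = 0 := congrArg Subtype.val hx
      exact Subtype.ext (hinj x x.2 hx')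
    exact LinearMap.finrank_le_finrank_of_injective hg
  have h4 : Module.finrank ℂ (V.map L) ≤
      (Finset.univ.filter fun j => c' < hB.eigenvalues j).card := by
    apply finrank_le_card_eig_gt hB c'
    intro y hy hy0
    obtain ⟨x, hxV, rfl⟩ := Submodule.mem_map.mp hy
    have hx0 : x ≠ 0 := by
      rintro rfl
      simp at hy0
    exact h x (hV2 x hxV hx0)
  exact le_trans hV1 (le_trans h3 h4)

theorem card_filter_eigenvalues_eq {A : Matrix n n ℂ} (hA : A.IsHermitian) (c : ℝ) :
    (Finset.univ.filter fun i : n => c < hA.eigenvalues i).card =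
      (Finset.univ.filter fun j : Fin (Fintype.card n) => c < hA.eigenvalues₀ j).card := by
  apply Finset.card_equiv ((Fintype.equivOfCardEq (Fintype.card_fin _)).symm)
  intro i
  simp only [Finset.mem_filter, Finset.mem_univ, true_and]
  rfl

theorem antitone_lt_iff_lt_card {m : ℕ} (e : Fin m → ℝ) (he : Antitone e) (c : ℝ) (k : Fin m) :
    c < e k ↔ (k : ℕ) < (Finset.univ.filter fun j => c < e j).card := by
  constructor
  · intro hk
    have hsub : Finset.Iic k ⊆ Finset.univ.filter fun j => c < e j := by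
      intro j hj
      simp only [Finset.mem_Iic] at hj
      simp only [Finset.mem_filter, Finset.mem_univ, true_and]
      exact lt_of_lt_of_le hk (he hj)
    have := Finset.card_le_card hsub
    rw [Fin.card_Iic] at this
    omega
  · intro hk
    by_contra hc
    have hsub : (Finset.univ.filter fun j => c < e j) ⊆ Finset.Iio k := by
      intro j hj
      simp only [Finset.mem_filter, Finset.mem_univ, true_and] at hj
      simp only [Finset.mem_Iio]
      by_contra hjk
      exact hc (lt_of_lt_of_le hj (he (not_lt.mp hjk)))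
    have := Finset.card_le_card hsub
    rw [Fin.card_Iio] at this
    omega

theorem eigenvalues₀_lt_of_transfer {A B : Matrix n n ℂ} (hA : A.IsHermitian) (hB : B.IsHermitian)
    (c c' : ℝ) (h : ∀ x, c * nsq x < qf A x → c' * nsq x < qf B x) (k : Fin (Fintype.card n)) :
    c < hA.eigenvalues₀ k → c' < hB.eigenvalues₀ k := by
  intro hk
  rw [antitone_lt_iff_lt_card _ hA.eigenvalues₀_antitone, ← card_filter_eigenvalues_eq] at hk
  rw [antitone_lt_iff_lt_card _ hB.eigenvalues₀_antitone, ← card_filter_eigenvalues_eq]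
  exact lt_of_lt_of_le hk
    (card_eig_gt_le_of_transfer hA hB LinearMap.id c c' (by simpa using h))

/-- Weyl monotonicity, quadratic-form version. -/
theorem eigenvalues₀_le_of_qf_le {A B : Matrix n n ℂ} (hA : A.IsHermitian) (hB : B.IsHermitian)
    (h : ∀ x, qf A x ≤ qf B x) (k : Fin (Fintype.card n)) :
    hA.eigenvalues₀ k ≤ hB.eigenvalues₀ k := by
  apply le_of_forall_lt
  intro c hc
  exact eigenvalues₀_lt_of_transfer hA hB c c (fun x hx => lt_of_lt_of_le hx (h x)) k hc

/-- **Weyl monotonicity** of the sorted eigenvalues in the Loewner order. -/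
theorem eigenvalues₀_mono {A B : Matrix n n ℂ} (hA : A.IsHermitian) (hB : B.IsHermitian)
    (h : (B - A).PosSemidef) (k : Fin (Fintype.card n)) :
    hA.eigenvalues₀ k ≤ hB.eigenvalues₀ k :=
  eigenvalues₀_le_of_qf_le hA hB (fun x => by
    have := qf_nonneg_of_posSemidef h x
    rw [qf_sub] at this
    linarith) k

theorem eigenvalues₀_one_add {A : Matrix n n ℂ} (hA : A.IsHermitian) (h1A : (1 + A).IsHermitian)
    (k : Fin (Fintype.card n)) : h1A.eigenvalues₀ k = 1 + hA.eigenvalues₀ k := by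
  apply le_antisymm
  · apply le_of_forall_lt
    intro c hc
    have := eigenvalues₀_lt_of_transfer h1A hA c (c - 1) (fun x hx => by
      rw [qf_add, qf_one] at hx
      have : (c - 1) * nsq x = c * nsq x - nsq x := by ring
      linarith) k hc
    linarith
  · have h2 : hA.eigenvalues₀ k ≤ h1A.eigenvalues₀ k - 1 := by
      apply le_of_forall_lt
      intro c hc
      have := eigenvalues₀_lt_of_transfer hA h1A c (c + 1) (fun x hx => by
        rw [qf_add, qf_one]
        have : (c + 1) * nsq x = c * nsq x + nsq x := by ring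
        linarith) k hc
      linarith
    linarith

theorem eigenvalues₀_smul {A : Matrix n n ℂ} (hA : A.IsHermitian) (t : ℝ) (ht : 0 < t)
    (htA : ((t : ℂ) • A).IsHermitian) (k : Fin (Fintype.card n)) :
    htA.eigenvalues₀ k = t * hA.eigenvalues₀ k := by
  apply le_antisymm
  · apply le_of_forall_lt
    intro c hc
    have := eigenvalues₀_lt_of_transfer htA hA c (c / t) (fun x hx => by
      rw [qf_smul] at hx
      rw [div_mul_eq_mul_div, div_lt_iff₀ ht]
      linarith) k hc
    rwa [div_lt_iff₀ ht, mul_comm] at this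
  · have h2 : hA.eigenvalues₀ k ≤ htA.eigenvalues₀ k / t := by
      apply le_of_forall_lt
      intro c hc
      have := eigenvalues₀_lt_of_transfer hA htA c (t * c) (fun x hx => by
        rw [qf_smul, mul_assoc]
        exact mul_lt_mul_of_pos_left hx ht) k hc
      rw [lt_div_iff₀ ht]
      linarith
    rwa [le_div_iff₀ ht, mul_comm] at h2

/-- Sorted (decreasing) eigenvalues of a matrix, as a proof-free function
(`= hA.eigenvalues₀` for Hermitian `A`, junk value `0` otherwise). -/
noncomputable def sortedEig (A : Matrix n n ℂ) (k : Fin (Fintype.card n)) : ℝ :=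
  if h : A.IsHermitian then h.eigenvalues₀ k else 0

theorem sortedEig_eq {A : Matrix n n ℂ} (hA : A.IsHermitian) : sortedEig A = hA.eigenvalues₀ := by
  funext k; simp [sortedEig, hA]

theorem sortedEig_antitone (A : Matrix n n ℂ) : Antitone (sortedEig A) := by
  by_cases hA : A.IsHermitian
  · rw [sortedEig_eq hA]; exact hA.eigenvalues₀_antitone
  · intro i j _; simp [sortedEig, hA]

theorem sortedEig_mono {A B : Matrix n n ℂ} (hA : A.IsHermitian) (hB : B.IsHermitian)
    (h : (B - A).PosSemidef) (k : Fin (Fintype.card n)) : sortedEig A k ≤ sortedEig B k := by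
  rw [sortedEig_eq hA, sortedEig_eq hB]; exact eigenvalues₀_mono hA hB h k

theorem sortedEig_one_add {A : Matrix n n ℂ} (hA : A.IsHermitian) (k : Fin (Fintype.card n)) :
    sortedEig (1 + A) k = 1 + sortedEig A k := by
  have h1A : (1 + A).IsHermitian := Matrix.isHermitian_one.add hA
  rw [sortedEig_eq hA, sortedEig_eq h1A]; exact eigenvalues₀_one_add hA h1A k

theorem sortedEig_smul {A : Matrix n n ℂ} (hA : A.IsHermitian) {t : ℝ} (ht : 0 < t)
    (k : Fin (Fintype.card n)) : sortedEig ((t : ℂ) • A) k = t * sortedEig A k := by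
  have htA : ((t : ℂ) • A).IsHermitian := by
    unfold Matrix.IsHermitian
    rw [Matrix.conjTranspose_smul, hA.eq]
    simp
  rw [sortedEig_eq hA, sortedEig_eq htA]; exact eigenvalues₀_smul hA t ht htA k

theorem eigenvalues₀_eq_eigenvalues {A : Matrix n n ℂ} (hA : A.IsHermitian)
    (k : Fin (Fintype.card n)) :
    hA.eigenvalues₀ k = hA.eigenvalues ((Fintype.equivOfCardEq (Fintype.card_fin _)) k) := by
  simp [Matrix.IsHermitian.eigenvalues]

theorem sortedEig_nonneg {A : Matrix n n ℂ} (hA : A.PosSemidef) (k : Fin (Fintype.card n)) :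
    0 ≤ sortedEig A k := by
  rw [sortedEig_eq hA.isHermitian, eigenvalues₀_eq_eigenvalues]
  exact hA.eigenvalues_nonneg _

theorem sum_sortedEig {A : Matrix n n ℂ} (hA : A.IsHermitian) (f : ℝ → ℝ) :
    ∑ k, f (sortedEig A k) = ∑ i, f (hA.eigenvalues i) := by
  rw [sortedEig_eq hA]
  exact (Equiv.sum_comp ((Fintype.equivOfCardEq (Fintype.card_fin _)).symm)
    (fun k => f (hA.eigenvalues₀ k))).symm

theorem prod_sortedEig {A : Matrix n n ℂ} (hA : A.IsHermitian) (f : ℝ → ℝ) :
    ∏ k, f (sortedEig A k) = ∏ i, f (hA.eigenvalues i) := by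
  rw [sortedEig_eq hA]
  exact (Equiv.prod_comp ((Fintype.equivOfCardEq (Fintype.card_fin _)).symm)
    (fun k => f (hA.eigenvalues₀ k))).symm

theorem trace_re_eq_sum_sortedEig {A : Matrix n n ℂ} (hA : A.IsHermitian) :
    A.trace.re = ∑ k, sortedEig A k := by
  rw [sum_sortedEig hA (fun t => t), hA.trace_eq_sum_eigenvalues]
  simp

theorem det_eq_prod_sortedEig {A : Matrix n n ℂ} (hA : A.IsHermitian) :
    A.det = ((∏ k, sortedEig A k : ℝ) : ℂ) := by
  rw [prod_sortedEig hA (fun t => t), hA.det_eq_prod_eigenvalues]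
  simp

section A0

variable {d d' : Type*} [Fintype d] [DecidableEq d] [Fintype d'] [DecidableEq d']

/-- `A0 T a s = aᴴ (T + s)⁻¹ a`, the matrix of step (0) of the (AD4) proof. -/
noncomputable def A0 (T : Matrix d d ℂ) (a : Matrix d d' ℂ) (s : ℝ) : Matrix d' d' ℂ :=
  aᴴ * (T + (s : ℂ) • (1 : Matrix d d ℂ))⁻¹ * a

theorem posDef_smul_one {s : ℝ} (hs : 0 < s) : ((s : ℂ) • (1 : Matrix d d ℂ)).PosDef := by
  have h : (0 : ℂ) < (s : ℂ) := by exact_mod_cast hs
  exact Matrix.PosDef.one.smul h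

theorem posSemidef_smul_one {s : ℝ} (hs : 0 ≤ s) : ((s : ℂ) • (1 : Matrix d d ℂ)).PosSemidef := by
  have h : (0 : ℂ) ≤ (s : ℂ) := by exact_mod_cast hs
  exact Matrix.PosSemidef.one.smul h

theorem posDef_add_smul_one {T : Matrix d d ℂ} (hT : T.PosSemidef) {s : ℝ} (hs : 0 < s) :
    (T + (s : ℂ) • (1 : Matrix d d ℂ)).PosDef :=
  Matrix.PosDef.posSemidef_add hT (posDef_smul_one hs)

/-- Inversion is antitone on positive definite matrices (Loewner order), explicit form. -/
theorem inv_sub_inv_posSemidef {P D : Matrix d d ℂ} (hP : P.PosDef) (hD : D.PosSemidef) :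
    (P⁻¹ - (P + D)⁻¹).PosSemidef := by
  have hP' : (P + D).PosDef := hP.add_posSemidef hD
  have hdet : IsUnit P.det := (Matrix.isUnit_iff_isUnit_det P).mp hP.isUnit
  have hdet' : IsUnit (P + D).det := (Matrix.isUnit_iff_isUnit_det _).mp hP'.isUnit
  have h1 : P * P⁻¹ = 1 := Matrix.mul_nonsing_inv P hdet
  have h2 : P⁻¹ * P = 1 := Matrix.nonsing_inv_mul P hdet
  have h3 : (P + D) * (P + D)⁻¹ = 1 := Matrix.mul_nonsing_inv _ hdet'
  have h4 : (P + D)⁻¹ * (P + D) = 1 := Matrix.nonsing_inv_mul _ hdet'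
  have hM : (D + Dᴴ * P⁻¹ * D).PosSemidef :=
    hD.add (hP.inv.posSemidef.conjTranspose_mul_mul_same D)
  have hkey : P⁻¹ - (P + D)⁻¹ = ((P + D)⁻¹)ᴴ * (D + Dᴴ * P⁻¹ * D) * (P + D)⁻¹ := by
    rw [hP'.inv.isHermitian.eq, hD.isHermitian.eq]
    have e1 : D + D * P⁻¹ * D = (P + D) * P⁻¹ * (P + D) - (P + D) := by
      have e2 : (P + D) * P⁻¹ * (P + D) =
          P * P⁻¹ * P + P * P⁻¹ * D + D * (P⁻¹ * P) + D * P⁻¹ * D := by
        noncomm_ring
      rw [e2, h1, h2, Matrix.one_mul, Matrix.one_mul, Matrix.mul_one]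
      abel
    rw [e1, Matrix.mul_sub, Matrix.sub_mul, ← Matrix.mul_assoc, ← Matrix.mul_assoc, h4,
      Matrix.one_mul, Matrix.mul_assoc, h3, Matrix.mul_one, Matrix.one_mul]
  rw [hkey]
  exact hM.conjTranspose_mul_mul_same _

theorem A0_posSemidef {T : Matrix d d ℂ} (hT : T.PosSemidef) (a : Matrix d d' ℂ) {s : ℝ}
    (hs : 0 < s) : (A0 T a s).PosSemidef :=
  (posDef_add_smul_one hT hs).inv.posSemidef.conjTranspose_mul_mul_same a

theorem inv_smul_one {s : ℝ} (hs : 0 < s) :
    ((s : ℂ) • (1 : Matrix d d ℂ))⁻¹ = ((s⁻¹ : ℝ) : ℂ) • (1 : Matrix d d ℂ) := by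
  apply Matrix.inv_eq_right_inv
  rw [Matrix.smul_mul, Matrix.one_mul, smul_smul]
  have : (s : ℂ) * ((s⁻¹ : ℝ) : ℂ) = 1 := by
    rw [← Complex.ofReal_mul, mul_inv_cancel₀ hs.ne']; simp
  rw [this, one_smul]

/-- `A0(s) ≤ s⁻¹ • aᴴa` in the Loewner order. -/
theorem A0_le {T : Matrix d d ℂ} (hT : T.PosSemidef) (a : Matrix d d' ℂ) {s : ℝ} (hs : 0 < s) :
    ((((s⁻¹ : ℝ)) : ℂ) • (aᴴ * a) - A0 T a s).PosSemidef := by
  have h := inv_sub_inv_posSemidef (posDef_smul_one (d := d) hs) hT
  rw [inv_smul_one hs] at h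
  have h' := h.conjTranspose_mul_mul_same a
  have e : aᴴ * (((s⁻¹ : ℝ) : ℂ) • (1 : Matrix d d ℂ) - ((s : ℂ) • (1 : Matrix d d ℂ) + T)⁻¹) * a
      = (((s⁻¹ : ℝ)) : ℂ) • (aᴴ * a) - A0 T a s := by
    unfold A0
    rw [Matrix.mul_sub, Matrix.sub_mul, Matrix.mul_smul, Matrix.mul_one, Matrix.smul_mul,
      add_comm]
  rw [← e]
  exact h'

/-- `A0(s') ≤ A0(s)` for `0 < s ≤ s'`. -/
theorem A0_anti {T : Matrix d d ℂ} (hT : T.PosSemidef) (a : Matrix d d' ℂ) {s s' : ℝ}
    (hs : 0 < s) (hss' : s ≤ s') : (A0 T a s - A0 T a s').PosSemidef := by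
  have h := inv_sub_inv_posSemidef (posDef_add_smul_one hT hs)
    (posSemidef_smul_one (d := d) (sub_nonneg.mpr hss'))
  have e0 : T + (s : ℂ) • (1 : Matrix d d ℂ) + (((s' - s : ℝ)) : ℂ) • (1 : Matrix d d ℂ)
      = T + (s' : ℂ) • (1 : Matrix d d ℂ) := by
    rw [add_assoc, ← add_smul]
    congr 2
    push_cast
    ring
  rw [e0] at h
  have h' := h.conjTranspose_mul_mul_same a
  have e : aᴴ * ((T + (s : ℂ) • (1 : Matrix d d ℂ))⁻¹ - (T + (s' : ℂ) • (1 : Matrix d d ℂ))⁻¹) * a
      = A0 T a s - A0 T a s' := by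
    unfold A0
    rw [Matrix.mul_sub, Matrix.sub_mul]
  rw [← e]
  exact h'

theorem sortedEig_A0_nonneg {T : Matrix d d ℂ} (hT : T.PosSemidef) (a : Matrix d d' ℂ) {s : ℝ}
    (hs : 0 < s) (k : Fin (Fintype.card d')) : 0 ≤ sortedEig (A0 T a s) k :=
  sortedEig_nonneg (A0_posSemidef hT a hs) k

theorem sortedEig_A0_le {T : Matrix d d ℂ} (hT : T.PosSemidef) (a : Matrix d d' ℂ) {s : ℝ}
    (hs : 0 < s) (k : Fin (Fintype.card d')) :
    sortedEig (A0 T a s) k ≤ sortedEig (aᴴ * a) k / s := by
  have hK : (aᴴ * a).IsHermitian := Matrix.isHermitian_conjTranspose_mul_self a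
  have hsK : ((((s⁻¹ : ℝ)) : ℂ) • (aᴴ * a)).IsHermitian := by
    unfold Matrix.IsHermitian
    rw [Matrix.conjTranspose_smul, hK.eq]
    simp
  have h := sortedEig_mono (A0_posSemidef hT a hs).isHermitian hsK (A0_le hT a hs) k
  rw [sortedEig_smul hK (inv_pos.mpr hs)] at h
  rw [div_eq_inv_mul]
  exact h

theorem sortedEig_A0_antitoneOn {T : Matrix d d ℂ} (hT : T.PosSemidef) (a : Matrix d d' ℂ)
    (k : Fin (Fintype.card d')) :
    AntitoneOn (fun s : ℝ => sortedEig (A0 T a s) k) (Set.Ioi 0) := by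
  intro s hs s' hs' hss'
  exact sortedEig_mono (A0_posSemidef hT a hs').isHermitian (A0_posSemidef hT a hs).isHermitian
    (A0_anti hT a hs hss') k

theorem sortedEig_A0_aemeasurable {T : Matrix d d ℂ} (hT : T.PosSemidef) (a : Matrix d d' ℂ)
    (k : Fin (Fintype.card d')) :
    AEMeasurable (fun s : ℝ => sortedEig (A0 T a s) k)
      (MeasureTheory.volume.restrict (Set.Ioi 0)) :=
  aemeasurable_restrict_of_antitoneOn measurableSet_Ioi (sortedEig_A0_antitoneOn hT a k)

end A0

end Crest.Agent.GAD.Eig14
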