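import Mathlib

/-!
# Row 341 (GADC), root R4: the Key Lemma

For a fixed anti-Hermitian `K`, the function `D ↦ log |det (D + K)| - log det D` is convex on the
cone of positive definite matrices (`keyLemma_convexOn`; line form `keyLemma_line`).

Proof: first derivatives only.  Along a segment `D_t = D + t E`, Jacobi's formula gives
`g'(t) = Re tr (R_t E) - tr (D_t⁻¹ E)` with `R_t = (D_t + K)⁻¹`, and the resolvent identity gives
`g'(t) - g'(s) = (t - s) [tr (D_t⁻¹ E D_s⁻¹ E) - Re tr (R_t E R_s E)]`, which is nonnegative by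
`key_trace_ineq` (a weighted AM-GM for the form `⟨P, Q⟩ = tr (Pᴴ B Q A)` together with
`Rᴴ D R = D⁻¹ - (K R)ᴴ D⁻¹ (K R)`).
-/

set_option autoImplicit false
set_option linter.unusedSectionVars false

open Matrix Polynomial
open scoped MatrixOrder ComplexOrder

namespace Crest.Agent.GAD

variable {n : Type*} [Fintype n] [DecidableEq n]


/-- `r ↦ det (1 + r • A)` has complex derivative `trace A` at `0`. -/
theorem hasDerivAt_det_one_add_smul (A : Matrix n n ℂ) :
    HasDerivAt (fun r : ℂ => (1 + r • A).det) A.trace 0 := by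
  set q : ℂ[X] := (det (1 + (X : ℂ[X]) • A.map C)).divX.divX with hq
  have h1 : HasDerivAt (fun r : ℂ => 1 + A.trace * r + q.eval r * r ^ 2) A.trace 0 := by
    have h := ((hasDerivAt_const (0 : ℂ) (1 : ℂ)).add
      ((hasDerivAt_id (0 : ℂ)).const_mul A.trace)).add
      ((q.hasDerivAt 0).mul (hasDerivAt_pow 2 (0 : ℂ)))
    have h' : HasDerivAt (fun r : ℂ => 1 + A.trace * r + q.eval r * r ^ 2) _ 0 := h
    simpa using h'
  have h2 : (fun r : ℂ => (1 + r • A).det) = fun r : ℂ => 1 + A.trace * r + q.eval r * r ^ 2 := by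
    funext r
    exact Matrix.det_one_add_smul r A
  rw [h2]
  exact h1

/-- Jacobi's formula along a complex line, at an invertible point. -/
theorem hasDerivAt_det_add_smul_complex (M E : Matrix n n ℂ) (z₀ : ℂ)
    (h : IsUnit (M + z₀ • E).det) :
    HasDerivAt (fun z : ℂ => (M + z • E).det)
      ((M + z₀ • E).det * ((M + z₀ • E)⁻¹ * E).trace) z₀ := by
  set N : Matrix n n ℂ := M + z₀ • E with hN
  set A : Matrix n n ℂ := N⁻¹ * E with hA
  have hNN : N * N⁻¹ = 1 := Matrix.mul_nonsing_inv N h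
  have h1 : HasDerivAt (fun z : ℂ => (1 + (z - z₀) • A).det) A.trace z₀ := by
    have h0 : HasDerivAt (fun r : ℂ => (1 + r • A).det) A.trace (z₀ - z₀) := by
      rw [sub_self]; exact hasDerivAt_det_one_add_smul A
    exact HasDerivAt.comp_sub_const z₀ z₀ h0
  have h2 : (fun z : ℂ => (M + z • E).det) = fun z : ℂ => N.det * (1 + (z - z₀) • A).det := by
    funext z
    rw [← Matrix.det_mul]
    congr 1
    rw [Matrix.mul_add, Matrix.mul_one, Matrix.mul_smul, hA, ← Matrix.mul_assoc, hNN,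
      Matrix.one_mul, hN, sub_smul]
    abel
  rw [h2]
  exact h1.const_mul N.det

/-- Jacobi's formula along a real line, at an invertible point. -/
theorem hasDerivAt_det_add_smul (M E : Matrix n n ℂ) (t₀ : ℝ)
    (h : IsUnit (M + (t₀ : ℂ) • E).det) :
    HasDerivAt (fun t : ℝ => (M + (t : ℂ) • E).det)
      ((M + (t₀ : ℂ) • E).det * ((M + (t₀ : ℂ) • E)⁻¹ * E).trace) t₀ :=
  (hasDerivAt_det_add_smul_complex M E (t₀ : ℂ) h).comp_ofReal



/-- The trace of a product of two positive semidefinite matrices has nonnegative real part. -/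
theorem trace_mul_posSemidef_re_nonneg {S T : Matrix n n ℂ} (hS : S.PosSemidef) (hT : T.PosSemidef) :
    0 ≤ (S * T).trace.re := by
  set C : Matrix n n ℂ := CFC.sqrt T with hC
  have hCpsd : C.PosSemidef := (CFC.sqrt_nonneg T).posSemidef
  have hCC : C * C = T := CFC.sqrt_mul_sqrt_self T hT.nonneg
  have hCH : Cᴴ = C := hCpsd.isHermitian
  have h1 : (S * T).trace = (C * S * Cᴴ).trace := by
    rw [hCH, ← hCC, ← Matrix.mul_assoc, Matrix.trace_mul_comm (S * C) C, Matrix.mul_assoc]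
  have h2 : (0 : ℂ) ≤ (C * S * Cᴴ).trace := (hS.mul_mul_conjTranspose_same C).trace_nonneg
  rw [h1]
  exact (Complex.nonneg_iff.mp h2).1

theorem hasDerivAt_log_norm {f : ℝ → ℂ} {f' : ℂ} {t₀ : ℝ} (hf : HasDerivAt f f' t₀)
    (h0 : f t₀ ≠ 0) :
    HasDerivAt (fun t => Real.log ‖f t‖) ((f' / f t₀).re) t₀ := by
  have hg : HasDerivAt (fun t => f t / f t₀) (f' / f t₀) t₀ := hf.div_const _
  have hslit : f t₀ / f t₀ ∈ Complex.slitPlane := by
    rw [div_self h0]; exact Complex.one_mem_slitPlane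
  have hlog := hg.clog_real hslit
  have hre : HasDerivAt (fun t => (Complex.log (f t / f t₀)).re) ((f' / f t₀).re) t₀ := by
    have h1 := (Complex.reCLM.hasFDerivAt.comp_hasDerivAt t₀ hlog)
    have h2 : HasDerivAt (fun t => (Complex.log (f t / f t₀)).re) _ t₀ := h1
    simpa [div_self h0] using h2
  have hev : (fun t => Real.log ‖f t‖) =ᶠ[nhds t₀]
      fun t => (Complex.log (f t / f t₀)).re + Real.log ‖f t₀‖ := by
    have hne : ∀ᶠ t in nhds t₀, f t ≠ 0 := hf.continuousAt.eventually_ne h0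
    filter_upwards [hne] with t ht
    rw [Complex.log_re, norm_div, Real.log_div (norm_ne_zero_iff.mpr ht) (norm_ne_zero_iff.mpr h0)]
    ring
  exact (hre.add_const _).congr_of_eventuallyEq hev

/-- `D + K` is invertible for `D` positive definite and `K` anti-Hermitian. -/
theorem det_posDef_add_antiHerm_ne_zero {D K : Matrix n n ℂ} (hD : D.PosDef) (hK : Kᴴ = -K) :
    (D + K).det ≠ 0 := by
  intro h
  obtain ⟨v, hv, hv0⟩ := Matrix.exists_mulVec_eq_zero_iff.mpr h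
  have h1 : star v ⬝ᵥ (D *ᵥ v) + star v ⬝ᵥ (K *ᵥ v) = 0 := by
    rw [← dotProduct_add, ← Matrix.add_mulVec, hv0, dotProduct_zero]
  have h2 : (star v ⬝ᵥ (K *ᵥ v)).re = 0 := by
    have hs : star (star v ⬝ᵥ (K *ᵥ v)) = -(star v ⬝ᵥ (K *ᵥ v)) := by
      rw [← star_dotProduct, star_mulVec, ← dotProduct_mulVec, hK, Matrix.neg_mulVec,
        dotProduct_neg]
    have := congrArg Complex.re hs
    simp only [Complex.star_def, Complex.conj_re, Complex.neg_re] at this
    linarith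
  have h3 : 0 < (star v ⬝ᵥ (D *ᵥ v)).re := (Complex.pos_iff.mp (hD.dotProduct_mulVec_pos hv)).1
  have h4 := congrArg Complex.re h1
  simp only [Complex.add_re, Complex.zero_re] at h4
  linarith

theorem isUnit_det_posDef_add_antiHerm {D K : Matrix n n ℂ} (hD : D.PosDef) (hK : Kᴴ = -K) :
    IsUnit (D + K).det :=
  isUnit_iff_ne_zero.mpr (det_posDef_add_antiHerm_ne_zero hD hK)

/-- The resolvent identity behind the key lemma:
`Rᴴ D R = D⁻¹ - (K R)ᴴ D⁻¹ (K R)` for `R = (D + K)⁻¹`. -/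
theorem resolvent_conj {D K : Matrix n n ℂ} (hD : D.PosDef) (hK : Kᴴ = -K) :
    ((D + K)⁻¹)ᴴ * D * (D + K)⁻¹ =
      D⁻¹ - (K * (D + K)⁻¹)ᴴ * D⁻¹ * (K * (D + K)⁻¹) := by
  have hDu : IsUnit D.det := isUnit_iff_ne_zero.mpr hD.det_pos.ne'
  have hSu : IsUnit (D + K).det := isUnit_det_posDef_add_antiHerm hD hK
  have hDH : Dᴴ = D := hD.isHermitian
  have hT : (D + K)ᴴ = D - K := by
    rw [Matrix.conjTranspose_add, hDH, hK, sub_eq_add_neg]
  have hTu : IsUnit (D - K).det := by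
    rw [← hT, Matrix.det_conjTranspose]
    exact hSu.star
  have hR : ((D + K)⁻¹)ᴴ = (D - K)⁻¹ := by
    rw [Matrix.conjTranspose_nonsing_inv, hT]
  have e1 : D * D⁻¹ = 1 := Matrix.mul_nonsing_inv D hDu
  have e2 : D⁻¹ * D = 1 := Matrix.nonsing_inv_mul D hDu
  have hkey : (D - K) * D⁻¹ * (D + K) = D + Kᴴ * D⁻¹ * K := by
    calc (D - K) * D⁻¹ * (D + K)
        = D * D⁻¹ * D + D * D⁻¹ * K - K * (D⁻¹ * D) - K * D⁻¹ * K := by noncomm_ring
      _ = D + Kᴴ * D⁻¹ * K := by rw [e1, e2, hK]; noncomm_ring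
  have hRT : (D - K)⁻¹ * (D - K) = 1 := Matrix.nonsing_inv_mul _ hTu
  have hSR : (D + K) * (D + K)⁻¹ = 1 := Matrix.mul_nonsing_inv _ hSu
  rw [eq_sub_iff_add_eq, Matrix.conjTranspose_mul, hR]
  calc (D - K)⁻¹ * D * (D + K)⁻¹ + (D - K)⁻¹ * Kᴴ * D⁻¹ * (K * (D + K)⁻¹)
      = (D - K)⁻¹ * (D + Kᴴ * D⁻¹ * K) * (D + K)⁻¹ := by noncomm_ring
    _ = (D - K)⁻¹ * ((D - K) * D⁻¹ * (D + K)) * (D + K)⁻¹ := by rw [hkey]
    _ = ((D - K)⁻¹ * (D - K)) * D⁻¹ * ((D + K) * (D + K)⁻¹) := by noncomm_ring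
    _ = D⁻¹ := by rw [hRT, hSR, Matrix.one_mul, Matrix.mul_one]

/-- Consequence: `tr (W Rᴴ D R) ≤ tr (W D⁻¹)` for positive semidefinite `W`. -/
theorem trace_resolvent_le {D K W : Matrix n n ℂ} (hD : D.PosDef) (hK : Kᴴ = -K)
    (hW : W.PosSemidef) :
    (W * (((D + K)⁻¹)ᴴ * D * (D + K)⁻¹)).trace.re ≤ (W * D⁻¹).trace.re := by
  rw [resolvent_conj hD hK, Matrix.mul_sub, Matrix.trace_sub, Complex.sub_re]
  have := trace_mul_posSemidef_re_nonneg hW
    (hD.inv.posSemidef.conjTranspose_mul_mul_same (K * (D + K)⁻¹))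
  linarith

theorem trace_conj_aux (P Q A B : Matrix n n ℂ) (hA : Aᴴ = A) (hB : Bᴴ = B) :
    (Qᴴ * B * P * A).trace = star (Pᴴ * B * Q * A).trace := by
  rw [← Matrix.trace_conjTranspose]
  have : (Pᴴ * B * Q * A)ᴴ = A * (Qᴴ * B * P) := by
    simp only [Matrix.conjTranspose_mul, Matrix.conjTranspose_conjTranspose, hA, hB,
      Matrix.mul_assoc]
  rw [this, Matrix.trace_mul_comm]

/-- The two-point Hessian inequality: for `A, B` positive definite, `K` anti-Hermitian and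
`E` Hermitian, `Re tr((B+K)⁻¹ E (A+K)⁻¹ E) ≤ tr(B⁻¹ E A⁻¹ E)`. -/
theorem key_trace_ineq {A B K E : Matrix n n ℂ} (hA : A.PosDef) (hB : B.PosDef)
    (hK : Kᴴ = -K) (hE : E.IsHermitian) :
    ((B + K)⁻¹ * E * (A + K)⁻¹ * E).trace.re ≤ (B⁻¹ * E * A⁻¹ * E).trace.re := by
  have hAu : IsUnit A.det := isUnit_iff_ne_zero.mpr hA.det_pos.ne'
  have hBu : IsUnit B.det := isUnit_iff_ne_zero.mpr hB.det_pos.ne'
  have hEH : Eᴴ = E := hE
  have hAH : Aᴴ = A := hA.isHermitian
  have hBH : Bᴴ = B := hB.isHermitian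
  have hAiH : (A⁻¹)ᴴ = A⁻¹ := hA.inv.isHermitian
  have hBiH : (B⁻¹)ᴴ = B⁻¹ := hB.inv.isHermitian
  have a1 : A⁻¹ * A = 1 := Matrix.nonsing_inv_mul A hAu
  have b1 : B⁻¹ * B = 1 := Matrix.nonsing_inv_mul B hBu
  set RA : Matrix n n ℂ := (A + K)⁻¹ with hRA
  set RB : Matrix n n ℂ := (B + K)⁻¹ with hRB
  set P : Matrix n n ℂ := B⁻¹ * E * RAᴴ with hP
  set Q : Matrix n n ℂ := RB * E * A⁻¹ with hQ
  have hPH : Pᴴ = RA * E * B⁻¹ := by
    rw [hP, Matrix.conjTranspose_mul, Matrix.conjTranspose_mul, Matrix.conjTranspose_conjTranspose,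
      hEH, hBiH, Matrix.mul_assoc]
  have hQH : Qᴴ = A⁻¹ * E * RBᴴ := by
    rw [hQ, Matrix.conjTranspose_mul, Matrix.conjTranspose_mul, hEH, hAiH, Matrix.mul_assoc]
  have h0 : 0 ≤ ((P - Q)ᴴ * B * (P - Q) * A).trace.re :=
    trace_mul_posSemidef_re_nonneg (hB.posSemidef.conjTranspose_mul_mul_same (P - Q))
      hA.posSemidef
  have hexp : (P - Q)ᴴ * B * (P - Q) * A =
      Pᴴ * B * P * A - Pᴴ * B * Q * A - Qᴴ * B * P * A + Qᴴ * B * Q * A := by
    rw [Matrix.conjTranspose_sub]; noncomm_ring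
  -- the four terms
  have hWB : (E * B⁻¹ * E).PosSemidef := by
    have := hB.inv.posSemidef.conjTranspose_mul_mul_same E
    rwa [hEH] at this
  have hWA : (E * A⁻¹ * E).PosSemidef := by
    have := hA.inv.posSemidef.conjTranspose_mul_mul_same E
    rwa [hEH] at this
  have t1 : (Pᴴ * B * P * A).trace.re ≤ (B⁻¹ * E * A⁻¹ * E).trace.re := by
    have e : Pᴴ * B * P * A = RA * ((E * B⁻¹ * E) * (RAᴴ * A)) := by
      rw [hPH, hP]
      calc RA * E * B⁻¹ * B * (B⁻¹ * E * RAᴴ) * A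
          = RA * E * (B⁻¹ * B) * B⁻¹ * E * RAᴴ * A := by noncomm_ring
        _ = RA * ((E * B⁻¹ * E) * (RAᴴ * A)) := by rw [b1]; noncomm_ring
    have e2 : (Pᴴ * B * P * A).trace = ((E * B⁻¹ * E) * (RAᴴ * A * RA)).trace := by
      rw [e, Matrix.trace_mul_comm]
      congr 1
      simp only [Matrix.mul_assoc]
    have e3 : ((E * B⁻¹ * E) * A⁻¹).trace = (B⁻¹ * E * A⁻¹ * E).trace := by
      rw [Matrix.mul_assoc E, Matrix.mul_assoc E, Matrix.trace_mul_comm]
    rw [e2, ← e3]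
    exact trace_resolvent_le hA hK hWB
  have t2 : (Qᴴ * B * Q * A).trace.re ≤ (B⁻¹ * E * A⁻¹ * E).trace.re := by
    have e : Qᴴ * B * Q * A = A⁻¹ * (E * (RBᴴ * B * RB) * E) := by
      rw [hQH, hQ]
      calc A⁻¹ * E * RBᴴ * B * (RB * E * A⁻¹) * A
          = A⁻¹ * E * RBᴴ * B * RB * E * (A⁻¹ * A) := by noncomm_ring
        _ = A⁻¹ * (E * (RBᴴ * B * RB) * E) := by rw [a1]; noncomm_ring
    have e2 : (Qᴴ * B * Q * A).trace = ((E * A⁻¹ * E) * (RBᴴ * B * RB)).trace := by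
      rw [e]
      calc (A⁻¹ * (E * (RBᴴ * B * RB) * E)).trace
          = ((A⁻¹ * E * (RBᴴ * B * RB)) * E).trace := by congr 1; noncomm_ring
        _ = (E * (A⁻¹ * E * (RBᴴ * B * RB))).trace := Matrix.trace_mul_comm _ _
        _ = ((E * A⁻¹ * E) * (RBᴴ * B * RB)).trace := by congr 1; noncomm_ring
    have e3 : ((E * A⁻¹ * E) * B⁻¹).trace = (B⁻¹ * E * A⁻¹ * E).trace := by
      rw [Matrix.trace_mul_comm]
      congr 1
      noncomm_ring
    rw [e2, ← e3]
    exact trace_resolvent_le hB hK hWA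
  have e34 : Pᴴ * B * Q * A = RA * E * RB * E := by
    rw [hPH, hQ]
    calc RA * E * B⁻¹ * B * (RB * E * A⁻¹) * A
        = RA * E * (B⁻¹ * B) * RB * E * (A⁻¹ * A) := by noncomm_ring
      _ = RA * E * RB * E := by rw [a1, b1]; noncomm_ring
  have t3 : (Pᴴ * B * Q * A).trace = (RB * E * RA * E).trace := by
    rw [e34]
    calc (RA * E * RB * E).trace = ((RA * E) * (RB * E)).trace := by congr 1; noncomm_ring
      _ = ((RB * E) * (RA * E)).trace := Matrix.trace_mul_comm _ _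
      _ = (RB * E * RA * E).trace := by congr 1; noncomm_ring
  have t4 : (Qᴴ * B * P * A).trace = star (Pᴴ * B * Q * A).trace :=
    trace_conj_aux P Q A B hAH hBH
  have h5 := h0
  rw [hexp, Matrix.trace_add, Matrix.trace_sub, Matrix.trace_sub, t4, t3] at h5
  simp only [Complex.add_re, Complex.sub_re, Complex.star_def, Complex.conj_re] at h5
  linarith

/-- Derivative of `t ↦ log |det (M + t E)|` at an invertible point. -/
theorem hasDerivAt_log_norm_det (M E : Matrix n n ℂ) (t₀ : ℝ)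
    (h : IsUnit (M + (t₀ : ℂ) • E).det) :
    HasDerivAt (fun t : ℝ => Real.log ‖(M + (t : ℂ) • E).det‖)
      (((M + (t₀ : ℂ) • E)⁻¹ * E).trace.re) t₀ := by
  have h1 := hasDerivAt_det_add_smul M E t₀ h
  have h2 := hasDerivAt_log_norm h1 h.ne_zero
  rwa [mul_div_cancel_left₀ _ h.ne_zero] at h2

theorem inv_sub_inv_eq {X Y : Matrix n n ℂ} (hX : IsUnit X.det) (hY : IsUnit Y.det) :
    X⁻¹ - Y⁻¹ = X⁻¹ * (Y - X) * Y⁻¹ := by
  rw [Matrix.mul_sub, Matrix.sub_mul, Matrix.nonsing_inv_mul X hX, Matrix.one_mul,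
    Matrix.mul_nonsing_inv_cancel_right _ _ hY]

theorem trace_inv_line_diff (M E : Matrix n n ℂ) (s t : ℝ)
    (hs : IsUnit (M + (s : ℂ) • E).det) (ht : IsUnit (M + (t : ℂ) • E).det) :
    (((M + (t : ℂ) • E)⁻¹ * E).trace - ((M + (s : ℂ) • E)⁻¹ * E).trace).re =
      (s - t) * ((M + (t : ℂ) • E)⁻¹ * E * (M + (s : ℂ) • E)⁻¹ * E).trace.re := by
  rw [← Matrix.trace_sub, ← Matrix.sub_mul, inv_sub_inv_eq ht hs]
  have h1 : M + (s : ℂ) • E - (M + (t : ℂ) • E) = (((s - t : ℝ)) : ℂ) • E := by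
    rw [Complex.ofReal_sub, sub_smul]; abel
  rw [h1, Matrix.mul_smul, Matrix.smul_mul, Matrix.smul_mul, Matrix.trace_smul, smul_eq_mul,
    Complex.re_ofReal_mul]

/-- Positive definiteness along a segment. -/
theorem posDef_line {D E : Matrix n n ℂ} (hD : D.PosDef) (hDE : (D + E).PosDef) {t : ℝ}
    (ht : t ∈ Set.Icc (0 : ℝ) 1) : (D + (t : ℂ) • E).PosDef := by
  have e : D + (t : ℂ) • E = (1 - t) • D + t • (D + E) := by
    rw [Complex.coe_smul, sub_smul, one_smul, smul_add]; abel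
  rw [e]
  rcases eq_or_lt_of_le ht.1 with h0 | h0
  · rw [← h0]; simpa using hD
  · exact Matrix.PosDef.posSemidef_add (hD.posSemidef.smul (sub_nonneg.mpr ht.2)) (hDE.smul h0)

/-- **Key Lemma, line form.** For `D` and `D + E` positive definite and `K` anti-Hermitian,
`t ↦ log |det (D + K + t E)| - log det (D + t E)` is convex on `[0, 1]`. -/
theorem keyLemma_line {D E K : Matrix n n ℂ} (hD : D.PosDef) (hDE : (D + E).PosDef)
    (hK : Kᴴ = -K) :
    ConvexOn ℝ (Set.Icc (0 : ℝ) 1)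
      (fun t : ℝ => Real.log ‖(D + K + (t : ℂ) • E).det‖ - Real.log ‖(D + (t : ℂ) • E).det‖) := by
  have hE : E.IsHermitian := by
    have h := hDE.isHermitian.sub hD.isHermitian
    rwa [add_sub_cancel_left] at h
  have hPD : ∀ t ∈ Set.Icc (0 : ℝ) 1, (D + (t : ℂ) • E).PosDef := fun t ht => posDef_line hD hDE ht
  have hu2 : ∀ t ∈ Set.Icc (0 : ℝ) 1, IsUnit (D + (t : ℂ) • E).det := fun t ht =>
    isUnit_iff_ne_zero.mpr (hPD t ht).det_pos.ne'
  have hsw : ∀ t : ℝ, D + K + (t : ℂ) • E = D + (t : ℂ) • E + K := fun t => add_right_comm _ _ _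
  have hu1 : ∀ t ∈ Set.Icc (0 : ℝ) 1, IsUnit (D + K + (t : ℂ) • E).det := fun t ht => by
    rw [hsw]; exact isUnit_det_posDef_add_antiHerm (hPD t ht) hK
  have hder : ∀ t ∈ Set.Icc (0 : ℝ) 1,
      HasDerivAt (fun t : ℝ => Real.log ‖(D + K + (t : ℂ) • E).det‖ -
          Real.log ‖(D + (t : ℂ) • E).det‖)
        (((D + K + (t : ℂ) • E)⁻¹ * E).trace.re - ((D + (t : ℂ) • E)⁻¹ * E).trace.re) t :=
    fun t ht => (hasDerivAt_log_norm_det (D + K) E t (hu1 t ht)).sub
      (hasDerivAt_log_norm_det D E t (hu2 t ht))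
  refine MonotoneOn.convexOn_of_deriv (convex_Icc 0 1)
    (fun t ht => (hder t ht).continuousAt.continuousWithinAt)
    (fun t ht => (hder t (interior_subset ht)).differentiableAt.differentiableWithinAt) ?_
  intro s hs' t ht' hst
  have hs := interior_subset hs'
  have ht := interior_subset ht'
  rw [(hder s hs).deriv, (hder t ht).deriv]
  have d1 := trace_inv_line_diff (D + K) E s t (hu1 s hs) (hu1 t ht)
  have d2 := trace_inv_line_diff D E s t (hu2 s hs) (hu2 t ht)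
  have key := key_trace_ineq (hPD s hs) (hPD t ht) hK hE
  rw [← hsw, ← hsw] at key
  rw [Complex.sub_re] at d1 d2
  nlinarith [mul_nonneg (sub_nonneg.mpr hst) (sub_nonneg.mpr key)]

/-- **Key Lemma (R4).** For a fixed anti-Hermitian `K`, the function
`D ↦ log |det (D + K)| - log |det D|` is convex on the cone of positive definite matrices. -/
theorem keyLemma_convexOn {K : Matrix n n ℂ} (hK : Kᴴ = -K) :
    ConvexOn ℝ {D : Matrix n n ℂ | D.PosDef}
      (fun D => Real.log ‖(D + K).det‖ - Real.log ‖D.det‖) := by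
  have e : ∀ (D1 D2 : Matrix n n ℂ) (a b : ℝ), a + b = 1 →
      D1 + ((b : ℝ) : ℂ) • (D2 - D1) = a • D1 + b • D2 := by
    intro D1 D2 a b hab
    have : a = 1 - b := by linarith
    rw [this, Complex.coe_smul, sub_smul, one_smul, smul_sub]; abel
  constructor
  · intro D1 h1 D2 h2 a b ha hb hab
    have hb1 : b ∈ Set.Icc (0 : ℝ) 1 := ⟨hb, by linarith⟩
    have h := posDef_line h1 (E := D2 - D1) (by rwa [add_sub_cancel]) hb1
    rwa [e D1 D2 a b hab] at h
  · intro D1 h1 D2 h2 a b ha hb hab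
    have hl := keyLemma_line h1 (E := D2 - D1) (by rwa [add_sub_cancel]) hK
    have h := hl.2 (Set.left_mem_Icc.mpr zero_le_one) (Set.right_mem_Icc.mpr zero_le_one)
      ha hb hab
    simp only [smul_eq_mul, mul_zero, mul_one, zero_add, Complex.ofReal_zero, zero_smul,
      add_zero, Complex.ofReal_one, one_smul] at h
    have e1 := e D1 D2 a b hab
    have e2 : D1 + K + ((b : ℝ) : ℂ) • (D2 - D1) = a • D1 + b • D2 + K := by
      rw [add_right_comm, e1]
    have e3 : D1 + (D2 - D1) = D2 := add_sub_cancel _ _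
    have e4 : D1 + K + (D2 - D1) = D2 + K := by rw [add_right_comm, e3]
    rw [e1, e2, e3, e4] at h
    exact h

end Crest.Agent.GAD
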