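import Mathlib
import Crest.Prelude.Def_QState
import Crest.Prelude.Def_QChannel

/-!
# Klein's inequality in eigenvector form, concavity and subadditivity of `vnEntropy`

Lane B (row 341 insurance build), module R2 (helper98).  Self-contained: depends only on Mathlib and
the frozen Prelude definitions `Crest.Quantum.vnEntropy`, `Crest.Quantum.block`.  Everything lives in
the sub-namespace `Crest.Agent.GAD.Klein`, so that no name clashes with the sibling modules
`GAD/Entropy.lean` and `GAD/Peierls.lean`.

Main statements: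
* `klein` : Klein's inequality `-tr A log B ≥ S(A) + tr A - tr B`, with `B = W diag(b) W*`;
* `vnEntropy_sum_ge`, `vnEntropy_add_ge`, `vnEntropy_ensemble_ge` : concavity of the entropy;
* `vnEntropy_le_marginals`, `vnEntropy_subadditive` (and the primed versions, stated without
  `margK`/`margD`) : subadditivity `S(AB) ≤ S(A) + S(B)`.
-/

set_option autoImplicit false
set_option linter.unusedSectionVars false

open scoped ComplexOrder
open Matrix

namespace Crest.Agent.GAD.Klein

open Crest.Quantum

section Bridge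

variable {d : Type*} [Fintype d] [DecidableEq d]

/-- The entropy of a Hermitian matrix as a sum over the roots of its characteristic polynomial. -/
theorem vnEntropy_eq_roots {A : Matrix d d ℂ} (hA : A.IsHermitian) :
    vnEntropy A = -(A.charpoly.roots.map (fun z : ℂ => z.re * Real.log z.re)).sum := by
  unfold vnEntropy
  rw [dif_pos hA, hA.roots_charpoly_eq_eigenvalues, Multiset.map_map]
  simp

theorem isHermitian_conj_diagonal (W : Matrix d d ℂ) (c : d → ℝ) :
    (W * diagonal (fun j => (c j : ℂ)) * star W).IsHermitian := by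
  have hD : (diagonal (fun j => (c j : ℂ))).IsHermitian := by
    rw [Matrix.isHermitian_diagonal_iff]
    intro i
    simp [isSelfAdjoint_iff]
  exact Matrix.isHermitian_mul_mul_conjTranspose W hD

/-- **Spectral bridge.** The entropy of `W D W*` for a unitary `W` and a real diagonal `D`. -/
theorem vnEntropy_conj_diagonal (W : Matrix d d ℂ) (hW : star W * W = 1) (c : d → ℝ) :
    vnEntropy (W * diagonal (fun j => (c j : ℂ)) * star W) = -∑ j, c j * Real.log (c j) := by
  rw [vnEntropy_eq_roots (isHermitian_conj_diagonal W c)]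
  have hcp : (W * diagonal (fun j => (c j : ℂ)) * star W).charpoly
      = ∏ j, (Polynomial.X - Polynomial.C (c j : ℂ)) := by
    rw [mul_assoc, Matrix.charpoly_mul_comm, mul_assoc, hW, mul_one, Matrix.charpoly_diagonal]
  rw [hcp, Polynomial.roots_prod _ _ (by simp [Finset.prod_ne_zero_iff, Polynomial.X_sub_C_ne_zero])]
  simp

end Bridge

section Klein

variable {d : Type*} [Fintype d] [DecidableEq d]

/-- Scalar Klein inequality. -/
theorem klein_scalar {a b : ℝ} (ha : 0 ≤ a) (hb : 0 < b) :
    0 ≤ a * Real.log a - a * Real.log b - a + b := by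
  rcases ha.eq_or_lt with rfl | ha'
  · simpa using hb.le
  · have h := Real.log_le_sub_one_of_pos (div_pos hb ha')
    rw [Real.log_div hb.ne' ha'.ne'] at h
    have h2 := mul_le_mul_of_nonneg_left h ha'.le
    have e : a * (b / a - 1) = b - a := by field_simp
    rw [e] at h2
    nlinarith

theorem re_mul_star_self (z : ℂ) : (z * star z).re = Complex.normSq z := by
  rw [Complex.normSq_apply]; simp

theorem re_star_mul_self (z : ℂ) : (star z * z).re = Complex.normSq z := by
  rw [Complex.normSq_apply]; simp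

theorem re_mul_real_mul_star (z : ℂ) (r : ℝ) : (z * (r : ℂ) * star z).re = r * Complex.normSq z := by
  rw [Complex.normSq_apply]; simp; ring

/-- The (real parts of the) diagonal entries of `A` in the basis given by the columns of `W`. -/
noncomputable def diagIn (W A : Matrix d d ℂ) (j : d) : ℝ := ((star W * A * W) j j).re

/-- Spectral data of a positive semidefinite matrix seen from a second orthonormal basis `W`:
a doubly stochastic matrix `P` with `diagIn W A j = ∑ i, a i * P j i`. -/
theorem exists_doubly_stochastic (A : Matrix d d ℂ) (hA : A.PosSemidef) (W : Matrix d d ℂ)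
    (hW : star W * W = 1) :
    ∃ (a : d → ℝ) (P : d → d → ℝ), (∀ i, 0 ≤ a i) ∧ (∀ j i, 0 ≤ P j i) ∧
      (∀ j, ∑ i, P j i = 1) ∧ (∀ i, ∑ j, P j i = 1) ∧
      (∀ j, diagIn W A j = ∑ i, a i * P j i) ∧
      vnEntropy A = -∑ i, a i * Real.log (a i) ∧ A.trace.re = ∑ i, a i := by
  have hH := hA.isHermitian
  have ha : ∀ i, 0 ≤ hH.eigenvalues i := fun i => hA.eigenvalues_nonneg i
  set U : Matrix d d ℂ := (hH.eigenvectorUnitary : Matrix d d ℂ) with hU_def
  have hUU : star U * U = 1 := Matrix.mem_unitaryGroup_iff'.mp hH.eigenvectorUnitary.2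
  have hUU' : U * star U = 1 := mul_eq_one_comm.mp hUU
  have hWW' : W * star W = 1 := mul_eq_one_comm.mp hW
  have hspec : A = U * diagonal (fun i => (hH.eigenvalues i : ℂ)) * star U := by
    have h := hH.spectral_theorem
    rw [Unitary.conjStarAlgAut_apply] at h
    exact h
  set V : Matrix d d ℂ := star W * U with hV_def
  have hVV : V * star V = 1 := by
    rw [hV_def, star_mul, star_star, mul_assoc, ← mul_assoc U, hUU', one_mul, hW]
  have hVV' : star V * V = 1 := mul_eq_one_comm.mp hVV
  refine ⟨hH.eigenvalues, fun j i => Complex.normSq (V j i), ha, fun j i => Complex.normSq_nonneg _,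
    ?_, ?_, ?_, ?_, ?_⟩
  · intro j
    have h := congrFun (congrFun hVV j) j
    rw [Matrix.mul_apply] at h
    simp only [Matrix.star_apply, Matrix.one_apply_eq] at h
    have h2 := congrArg Complex.re h
    simp only [Complex.re_sum, Complex.one_re] at h2
    rw [← h2]
    apply Finset.sum_congr rfl
    intro i _
    exact (re_mul_star_self _).symm
  · intro i
    have h := congrFun (congrFun hVV' i) i
    rw [Matrix.mul_apply] at h
    simp only [Matrix.star_apply, Matrix.one_apply_eq] at h
    have h2 := congrArg Complex.re h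
    simp only [Complex.re_sum, Complex.one_re] at h2
    rw [← h2]
    apply Finset.sum_congr rfl
    intro j _
    exact (re_star_mul_self _).symm
  · intro j
    unfold diagIn
    have h : star W * A * W = V * diagonal (fun i => (hH.eigenvalues i : ℂ)) * star V := by
      rw [hV_def, star_mul, star_star]
      conv_lhs => rw [hspec]
      simp only [mul_assoc]
    rw [h, Matrix.mul_apply]
    simp only [Matrix.mul_diagonal, Matrix.star_apply, Complex.re_sum]
    apply Finset.sum_congr rfl
    intro i _
    exact re_mul_real_mul_star _ _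
  · unfold vnEntropy
    rw [dif_pos hH]
  · rw [hH.trace_eq_sum_eigenvalues]
    simp

/-- **Klein's inequality**, flexible eigenvector form: `A` positive semidefinite, `W` unitary and
`b ≥ 0` (to be thought of as the matrix `B = W diag(b) W*`), with `supp A ⊆ supp B` expressed as
`b j = 0 → ⟨w_j, A w_j⟩ = 0`.  Then `-tr A log B ≥ S(A) + tr A - tr B`. -/
theorem klein (A : Matrix d d ℂ) (hA : A.PosSemidef) (W : Matrix d d ℂ) (hW : star W * W = 1)
    (b : d → ℝ) (hb : ∀ j, 0 ≤ b j) (hb0 : ∀ j, b j = 0 → diagIn W A j = 0) :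
    vnEntropy A + A.trace.re - ∑ j, b j ≤ -∑ j, diagIn W A j * Real.log (b j) := by
  obtain ⟨a, P, ha, hP, hrow, hcol, hdiag, hS, htr⟩ := exists_doubly_stochastic A hA W hW
  have key : ∀ j i, 0 ≤ P j i * (a i * Real.log (a i) - a i * Real.log (b j) - a i + b j) := by
    intro j i
    rcases (hb j).eq_or_lt with hbj | hbj
    · have h0 : ∑ i, a i * P j i = 0 := by rw [← hdiag]; exact hb0 j hbj.symm
      have h1 : a i * P j i = 0 :=
        (Finset.sum_eq_zero_iff_of_nonneg (fun i _ => mul_nonneg (ha i) (hP j i))).mp h0 i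
          (Finset.mem_univ i)
      rw [← hbj]
      have e : P j i * (a i * Real.log (a i) - a i * Real.log 0 - a i + 0)
          = (a i * P j i) * (Real.log (a i) - 1) := by
        simp; ring
      rw [e, h1, zero_mul]
    · exact mul_nonneg (hP j i) (klein_scalar (ha i) hbj)
  have hsum : 0 ≤ ∑ j, ∑ i, P j i * (a i * Real.log (a i) - a i * Real.log (b j) - a i + b j) :=
    Finset.sum_nonneg fun j _ => Finset.sum_nonneg fun i _ => key j i
  have e1 : ∑ j, ∑ i, P j i * (a i * Real.log (a i) - a i * Real.log (b j) - a i + b j)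
      = ∑ i, a i * Real.log (a i) - ∑ j, diagIn W A j * Real.log (b j) - ∑ i, a i + ∑ j, b j := by
    have t1 : ∑ j, ∑ i, P j i * (a i * Real.log (a i)) = ∑ i, a i * Real.log (a i) := by
      rw [Finset.sum_comm]
      apply Finset.sum_congr rfl; intro i _
      rw [← Finset.sum_mul, hcol, one_mul]
    have t2 : ∑ j, ∑ i, P j i * (a i * Real.log (b j)) = ∑ j, diagIn W A j * Real.log (b j) := by
      apply Finset.sum_congr rfl; intro j _
      rw [hdiag, Finset.sum_mul]
      apply Finset.sum_congr rfl; intro i _; ring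
    have t3 : ∑ j, ∑ i, P j i * a i = ∑ i, a i := by
      rw [Finset.sum_comm]
      apply Finset.sum_congr rfl; intro i _
      rw [← Finset.sum_mul, hcol, one_mul]
    have t4 : ∑ j, ∑ i, P j i * b j = ∑ j, b j := by
      apply Finset.sum_congr rfl; intro j _
      rw [← Finset.sum_mul, hrow, one_mul]
    rw [← t1, ← t2, ← t3, ← t4]
    simp only [← Finset.sum_sub_distrib, ← Finset.sum_add_distrib]
    apply Finset.sum_congr rfl; intro j _
    apply Finset.sum_congr rfl; intro i _
    ring
  rw [e1] at hsum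
  rw [hS, htr]
  linarith

end Klein

section Concavity

variable {d : Type*} [Fintype d] [DecidableEq d]

theorem diagIn_add (W A B : Matrix d d ℂ) (j : d) :
    diagIn W (A + B) j = diagIn W A j + diagIn W B j := by
  unfold diagIn
  rw [mul_add, add_mul, Matrix.add_apply, Complex.add_re]

theorem diagIn_zero (W : Matrix d d ℂ) (j : d) : diagIn W 0 j = 0 := by
  unfold diagIn; simp

theorem diagIn_sum {ι : Type*} (s : Finset ι) (W : Matrix d d ℂ) (M : ι → Matrix d d ℂ) (j : d) :
    diagIn W (∑ a ∈ s, M a) j = ∑ a ∈ s, diagIn W (M a) j := by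
  classical
  induction s using Finset.induction_on with
  | empty => simp [diagIn_zero]
  | insert a s ha ih => rw [Finset.sum_insert ha, Finset.sum_insert ha, diagIn_add, ih]

theorem diagIn_nonneg (W : Matrix d d ℂ) {A : Matrix d d ℂ} (hA : A.PosSemidef) (j : d) :
    0 ≤ diagIn W A j := by
  unfold diagIn
  have h : (star W * A * W).PosSemidef := hA.conjTranspose_mul_mul_same W
  have h2 := h.diag_nonneg (i := j)
  exact (Complex.nonneg_iff.mp h2).1

theorem sum_diagIn (W : Matrix d d ℂ) (hW : W * star W = 1) (A : Matrix d d ℂ) :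
    ∑ j, diagIn W A j = A.trace.re := by
  unfold diagIn
  rw [← Complex.re_sum]
  congr 1
  have h : ∑ j, (star W * A * W) j j = (star W * A * W).trace := rfl
  rw [h, Matrix.trace_mul_comm, ← mul_assoc, hW, one_mul]

theorem trace_re_nonneg {A : Matrix d d ℂ} (hA : A.PosSemidef) : 0 ≤ A.trace.re := by
  have h := hA.trace_nonneg
  exact (Complex.nonneg_iff.mp h).1

/-- An orthonormal eigenbasis of a Hermitian matrix, packaged for `klein`. -/
theorem exists_eigen (C : Matrix d d ℂ) (hC : C.IsHermitian) :
    ∃ (W : Matrix d d ℂ) (c : d → ℝ), star W * W = 1 ∧ W * star W = 1 ∧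
      (∀ j, diagIn W C j = c j) ∧ vnEntropy C = -∑ j, c j * Real.log (c j) := by
  set U : Matrix d d ℂ := (hC.eigenvectorUnitary : Matrix d d ℂ) with hU_def
  have hUU : star U * U = 1 := Matrix.mem_unitaryGroup_iff'.mp hC.eigenvectorUnitary.2
  have hUU' : U * star U = 1 := mul_eq_one_comm.mp hUU
  have hspec : C = U * diagonal (fun i => (hC.eigenvalues i : ℂ)) * star U := by
    have h := hC.spectral_theorem
    rw [Unitary.conjStarAlgAut_apply] at h
    exact h
  refine ⟨U, hC.eigenvalues, hUU, hUU', ?_, ?_⟩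
  · intro j
    unfold diagIn
    have h : star U * C * U = diagonal (fun i => (hC.eigenvalues i : ℂ)) := by
      conv_lhs => rw [hspec]
      calc star U * (U * diagonal (fun i => (hC.eigenvalues i : ℂ)) * star U) * U
          = (star U * U) * diagonal (fun i => (hC.eigenvalues i : ℂ)) * (star U * U) := by
            simp only [mul_assoc]
        _ = diagonal (fun i => (hC.eigenvalues i : ℂ)) := by rw [hUU, one_mul, mul_one]
    rw [h, Matrix.diagonal_apply_eq, Complex.ofReal_re]
  · unfold vnEntropy
    rw [dif_pos hC]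

/-- **Concavity of the entropy**, unnormalised finite-family form: for positive semidefinite
`M a` with traces `t a` and `T = ∑ t a`,
`S(∑ M a) ≥ ∑ (S(M a) + t a log t a) - T log T`. -/
theorem vnEntropy_sum_ge {ι : Type*} (s : Finset ι) (M : ι → Matrix d d ℂ)
    (hM : ∀ a ∈ s, (M a).PosSemidef) :
    ∑ a ∈ s, (vnEntropy (M a) + (M a).trace.re * Real.log (M a).trace.re)
      - (∑ a ∈ s, (M a).trace.re) * Real.log (∑ a ∈ s, (M a).trace.re)
      ≤ vnEntropy (∑ a ∈ s, M a) := by
  classical
  have hCpsd : (∑ a ∈ s, M a).PosSemidef := Matrix.posSemidef_sum s hM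
  obtain ⟨W, c, hW, hW', hdiag, hS⟩ := exists_eigen (∑ a ∈ s, M a) hCpsd.isHermitian
  set t : ι → ℝ := fun a => (M a).trace.re with ht_def
  set T : ℝ := ∑ a ∈ s, t a with hT_def
  have ht0 : ∀ a ∈ s, 0 ≤ t a := fun a ha => trace_re_nonneg (hM a ha)
  have hT0 : 0 ≤ T := Finset.sum_nonneg ht0
  have htT : ∀ a ∈ s, t a ≤ T := fun a ha => Finset.single_le_sum ht0 ha
  have hc : ∀ j, c j = ∑ a ∈ s, diagIn W (M a) j := by
    intro j; rw [← hdiag, diagIn_sum]
  have hα0 : ∀ a ∈ s, ∀ j, 0 ≤ diagIn W (M a) j := fun a ha j => diagIn_nonneg W (hM a ha) j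
  have hc0 : ∀ j, 0 ≤ c j := by
    intro j; rw [hc]; exact Finset.sum_nonneg fun a ha => hα0 a ha j
  have hαc : ∀ a ∈ s, ∀ j, diagIn W (M a) j ≤ c j := by
    intro a ha j; rw [hc]
    exact Finset.single_le_sum (f := fun a => diagIn W (M a) j) (fun a ha => hα0 a ha j) ha
  have hsumα : ∀ a, ∑ j, diagIn W (M a) j = t a := fun a => sum_diagIn W hW' (M a)
  have hsumc : ∑ j, c j = T := by
    simp only [hc]
    rw [Finset.sum_comm]
    apply Finset.sum_congr rfl; intro a _
    exact hsumα a
  have hK : ∀ a ∈ s, vnEntropy (M a) ≤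
      -(t a * Real.log (t a)) + t a * Real.log T - ∑ j, diagIn W (M a) j * Real.log (c j) := by
    intro a ha
    have hb0 : ∀ j, 0 ≤ t a / T * c j := fun j => mul_nonneg (div_nonneg (ht0 a ha) hT0) (hc0 j)
    have hzero : ∀ j, t a / T * c j = 0 → diagIn W (M a) j = 0 := by
      intro j h0
      rcases mul_eq_zero.mp h0 with h1 | h1
      · have hta : t a = 0 := by
          rcases div_eq_zero_iff.mp h1 with h2 | h2
          · exact h2
          · exact le_antisymm (h2 ▸ htT a ha) (ht0 a ha)
        exact (Finset.sum_eq_zero_iff_of_nonneg (fun j _ => hα0 a ha j)).mp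
          ((hsumα a).trans hta) j (Finset.mem_univ j)
      · exact le_antisymm (h1 ▸ hαc a ha j) (hα0 a ha j)
    have hk := klein (M a) (hM a ha) W hW (fun j => t a / T * c j) hb0 hzero
    have e1 : ∑ j, t a / T * c j = t a := by
      rw [← Finset.mul_sum, hsumc]
      rcases eq_or_ne T 0 with hT | hT
      · have h : t a = 0 := le_antisymm (hT ▸ htT a ha) (ht0 a ha)
        simp [h]
      · field_simp
    have e2 : ∀ j, diagIn W (M a) j * Real.log (t a / T * c j)
        = diagIn W (M a) j * (Real.log (t a) - Real.log T + Real.log (c j)) := by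
      intro j
      rcases eq_or_ne (diagIn W (M a) j) 0 with h0 | h0
      · rw [h0, zero_mul, zero_mul]
      · have hαpos : 0 < diagIn W (M a) j := lt_of_le_of_ne (hα0 a ha j) (Ne.symm h0)
        have hcj : c j ≠ 0 := (lt_of_lt_of_le hαpos (hαc a ha j)).ne'
        have hta : t a ≠ 0 := by
          intro h
          exact h0 ((Finset.sum_eq_zero_iff_of_nonneg (fun j _ => hα0 a ha j)).mp
            ((hsumα a).trans h) j (Finset.mem_univ j))
        have hT : T ≠ 0 := by
          intro h
          exact hta (le_antisymm (h ▸ htT a ha) (ht0 a ha))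
        rw [Real.log_mul (div_ne_zero hta hT) hcj, Real.log_div hta hT]
    have e3 : ∑ j, diagIn W (M a) j * Real.log (t a / T * c j)
        = t a * Real.log (t a) - t a * Real.log T + ∑ j, diagIn W (M a) j * Real.log (c j) := by
      simp only [e2, mul_add, mul_sub, Finset.sum_add_distrib, Finset.sum_sub_distrib,
        ← Finset.sum_mul, hsumα]
    rw [e1, e3] at hk
    have e5 : (M a).trace.re = t a := rfl
    rw [e5] at hk
    linarith
  have hsum := Finset.sum_le_sum hK
  rw [hS]
  have e4 : ∑ a ∈ s, (-(t a * Real.log (t a)) + t a * Real.log T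
        - ∑ j, diagIn W (M a) j * Real.log (c j))
      = -∑ a ∈ s, t a * Real.log (t a) + T * Real.log T - ∑ j, c j * Real.log (c j) := by
    rw [Finset.sum_sub_distrib, Finset.sum_add_distrib, Finset.sum_neg_distrib, ← Finset.sum_mul]
    congr 1
    rw [Finset.sum_comm]
    apply Finset.sum_congr rfl; intro j _
    rw [hc, Finset.sum_mul]
  rw [e4] at hsum
  rw [Finset.sum_add_distrib]
  linarith

/-- Entropy of a real multiple of a Hermitian matrix:
`S(r A) = r S(A) - r log r · tr A` (any real `r`). -/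
theorem vnEntropy_smul (r : ℝ) {A : Matrix d d ℂ} (hA : A.IsHermitian) :
    vnEntropy ((r : ℂ) • A) = r * vnEntropy A - r * Real.log r * A.trace.re := by
  set U : Matrix d d ℂ := (hA.eigenvectorUnitary : Matrix d d ℂ) with hU_def
  have hUU : star U * U = 1 := Matrix.mem_unitaryGroup_iff'.mp hA.eigenvectorUnitary.2
  have hspec : A = U * diagonal (fun i => (hA.eigenvalues i : ℂ)) * star U := by
    have h := hA.spectral_theorem
    rw [Unitary.conjStarAlgAut_apply] at h
    exact h
  have h1 : (r : ℂ) • A = U * diagonal (fun i => ((r * hA.eigenvalues i : ℝ) : ℂ)) * star U := by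
    conv_lhs => rw [hspec]
    rw [← Matrix.smul_mul, ← Matrix.mul_smul]
    congr 2
    ext i j
    by_cases hij : i = j
    · subst hij; simp
    · simp [hij]
  have h2 : vnEntropy A = -∑ i, hA.eigenvalues i * Real.log (hA.eigenvalues i) := by
    unfold vnEntropy
    rw [dif_pos hA]
  have h3 : A.trace.re = ∑ i, hA.eigenvalues i := by
    rw [hA.trace_eq_sum_eigenvalues]
    simp
  rw [h1, vnEntropy_conj_diagonal U hUU, h2, h3, mul_neg, Finset.mul_sum, Finset.mul_sum,
    ← Finset.sum_neg_distrib, ← Finset.sum_neg_distrib, ← Finset.sum_sub_distrib]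
  apply Finset.sum_congr rfl
  intro i _
  rcases eq_or_ne r 0 with hr | hr
  · simp [hr]
  rcases eq_or_ne (hA.eigenvalues i) 0 with ha | ha
  · simp [ha]
  · rw [Real.log_mul hr ha]
    ring

/-- Concavity, two-term unnormalised form. -/
theorem vnEntropy_add_ge {A B : Matrix d d ℂ} (hA : A.PosSemidef) (hB : B.PosSemidef) :
    vnEntropy A + vnEntropy B + A.trace.re * Real.log A.trace.re
        + B.trace.re * Real.log B.trace.re
        - (A.trace.re + B.trace.re) * Real.log (A.trace.re + B.trace.re)
      ≤ vnEntropy (A + B) := by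
  have h := vnEntropy_sum_ge (Finset.univ : Finset Bool) (fun b => if b then A else B)
    (by intro a _; cases a <;> simpa)
  simp only [Fintype.sum_bool, if_true, Bool.false_eq_true, if_false] at h
  linarith

/-- **Concavity of the entropy** for ensembles: `S(∑ q_a ρ_a) ≥ ∑ q_a S(ρ_a)`. -/
theorem vnEntropy_ensemble_ge {m : ℕ} (q : Fin m → ℝ) (ρ : Fin m → Matrix d d ℂ)
    (h : IsEnsemble q ρ) :
    ∑ a, q a * vnEntropy (ρ a) ≤ vnEntropy (∑ a, (q a : ℂ) • ρ a) := by
  obtain ⟨hq0, hq1, hρ⟩ := h
  have hpsd : ∀ a ∈ (Finset.univ : Finset (Fin m)), ((q a : ℂ) • ρ a).PosSemidef := by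
    intro a _
    exact (hρ a).1.smul (Complex.zero_le_real.mpr (hq0 a))
  have htr : ∀ a, ((q a : ℂ) • ρ a).trace.re = q a := by
    intro a
    rw [Matrix.trace_smul, (hρ a).2]
    simp
  have hmain := vnEntropy_sum_ge (Finset.univ : Finset (Fin m)) (fun a => (q a : ℂ) • ρ a) hpsd
  simp only [htr, hq1, Real.log_one, mul_zero, sub_zero] at hmain
  refine le_trans (le_of_eq ?_) hmain
  apply Finset.sum_congr rfl
  intro a _
  rw [vnEntropy_smul (q a) (hρ a).1.isHermitian, (hρ a).2]
  simp

end Concavity

section Subadditivity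

open Kronecker

variable {k d : Type*} [Fintype k] [Fintype d] [DecidableEq k] [DecidableEq d]

/-- Marginal on the first factor of a matrix indexed by `k × d`: `(s, t) ↦ tr (block M s t)`. -/
def margK (M : Matrix (k × d) (k × d) ℂ) : Matrix k k ℂ :=
  Matrix.of fun s t => (block M s t).trace

/-- Marginal on the second factor of a matrix indexed by `k × d`: `∑ s, block M s s`. -/
def margD (M : Matrix (k × d) (k × d) ℂ) : Matrix d d ℂ :=
  ∑ s, block M s s

theorem margK_apply (M : Matrix (k × d) (k × d) ℂ) (s t : k) :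
    margK M s t = ∑ i, M (s, i) (t, i) := rfl

theorem margD_apply (M : Matrix (k × d) (k × d) ℂ) (i j : d) :
    margD M i j = ∑ s, M (s, i) (s, j) := by
  unfold margD
  rw [Matrix.sum_apply]
  rfl

theorem margK_isHermitian {M : Matrix (k × d) (k × d) ℂ} (hM : M.IsHermitian) :
    (margK M).IsHermitian := by
  ext s t
  rw [Matrix.conjTranspose_apply, margK_apply, margK_apply, star_sum]
  apply Finset.sum_congr rfl
  intro i _
  exact hM.apply (s, i) (t, i)

theorem margD_isHermitian {M : Matrix (k × d) (k × d) ℂ} (hM : M.IsHermitian) :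
    (margD M).IsHermitian := by
  ext i j
  rw [Matrix.conjTranspose_apply, margD_apply, margD_apply, star_sum]
  apply Finset.sum_congr rfl
  intro s _
  exact hM.apply (s, i) (s, j)

theorem kron_unitary {U : Matrix k k ℂ} {V : Matrix d d ℂ} (hU : star U * U = 1)
    (hV : star V * V = 1) : star (U ⊗ₖ V) * (U ⊗ₖ V) = 1 := by
  rw [Matrix.star_eq_conjTranspose, Matrix.conjTranspose_kronecker, ← Matrix.mul_kronecker_mul,
    ← Matrix.star_eq_conjTranspose, ← Matrix.star_eq_conjTranspose, hU, hV,
    Matrix.one_kronecker_one]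

theorem conj_entry {n : Type*} [Fintype n] (W M : Matrix n n ℂ) (x : n) :
    (star W * M * W) x x = ∑ p, ∑ q, star (W p x) * M p q * W q x := by
  simp only [Matrix.mul_apply, Matrix.star_apply, Finset.sum_mul]
  rw [Finset.sum_comm]

theorem unitary_row_sum {n : Type*} [Fintype n] [DecidableEq n] {V : Matrix n n ℂ}
    (hV : V * star V = 1) (i1 i2 : n) :
    ∑ i, V i2 i * star (V i1 i) = if i2 = i1 then 1 else 0 := by
  have h := congrFun (congrFun hV i2) i1
  rw [Matrix.mul_apply] at h
  simpa [Matrix.star_apply, Matrix.one_apply] using h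

theorem sum_diagIn_kron_right (U : Matrix k k ℂ) (V : Matrix d d ℂ) (hV : V * star V = 1)
    (M : Matrix (k × d) (k × d) ℂ) (s : k) :
    ∑ i, diagIn (U ⊗ₖ V) M (s, i) = diagIn U (margK M) s := by
  unfold diagIn
  rw [← Complex.re_sum]
  congr 1
  simp only [conj_entry, Fintype.sum_prod_type, Matrix.kronecker_apply, margK_apply]
  have hterm : ∀ (i : d) (s1 : k) (i1 : d) (s2 : k) (i2 : d),
      star (U s1 s * V i1 i) * M (s1, i1) (s2, i2) * (U s2 s * V i2 i)
        = (star (U s1 s) * M (s1, i1) (s2, i2) * U s2 s) * (V i2 i * star (V i1 i)) := by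
    intro i s1 i1 s2 i2
    rw [star_mul']
    ring
  simp only [hterm]
  calc ∑ i, ∑ s1, ∑ i1, ∑ s2, ∑ i2,
          (star (U s1 s) * M (s1, i1) (s2, i2) * U s2 s) * (V i2 i * star (V i1 i))
      = ∑ s1, ∑ i1, ∑ s2, ∑ i2, ∑ i,
          (star (U s1 s) * M (s1, i1) (s2, i2) * U s2 s) * (V i2 i * star (V i1 i)) := by
        rw [Finset.sum_comm]
        refine Finset.sum_congr rfl fun s1 _ => ?_
        rw [Finset.sum_comm]
        refine Finset.sum_congr rfl fun i1 _ => ?_
        rw [Finset.sum_comm]
        refine Finset.sum_congr rfl fun s2 _ => ?_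
        rw [Finset.sum_comm]
    _ = ∑ s1, ∑ i1, ∑ s2, ∑ i2,
          (star (U s1 s) * M (s1, i1) (s2, i2) * U s2 s) * (if i2 = i1 then 1 else 0) := by
        simp only [← Finset.mul_sum, unitary_row_sum hV]
    _ = ∑ s1, ∑ i1, ∑ s2, star (U s1 s) * M (s1, i1) (s2, i1) * U s2 s := by
        simp
    _ = ∑ s1, ∑ s2, star (U s1 s) * (∑ j, M (s1, j) (s2, j)) * U s2 s := by
        refine Finset.sum_congr rfl fun s1 _ => ?_
        rw [Finset.sum_comm]
        refine Finset.sum_congr rfl fun s2 _ => ?_
        rw [Finset.mul_sum, Finset.sum_mul]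

theorem sum_diagIn_kron_left (U : Matrix k k ℂ) (V : Matrix d d ℂ) (hU : U * star U = 1)
    (M : Matrix (k × d) (k × d) ℂ) (i : d) :
    ∑ s, diagIn (U ⊗ₖ V) M (s, i) = diagIn V (margD M) i := by
  unfold diagIn
  rw [← Complex.re_sum]
  congr 1
  simp only [conj_entry, Fintype.sum_prod_type, Matrix.kronecker_apply, margD_apply]
  have hterm : ∀ (s : k) (s1 : k) (i1 : d) (s2 : k) (i2 : d),
      star (U s1 s * V i1 i) * M (s1, i1) (s2, i2) * (U s2 s * V i2 i)
        = (star (V i1 i) * M (s1, i1) (s2, i2) * V i2 i) * (U s2 s * star (U s1 s)) := by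
    intro s s1 i1 s2 i2
    rw [star_mul']
    ring
  simp only [hterm]
  calc ∑ s, ∑ s1, ∑ i1, ∑ s2, ∑ i2,
          (star (V i1 i) * M (s1, i1) (s2, i2) * V i2 i) * (U s2 s * star (U s1 s))
      = ∑ s1, ∑ i1, ∑ s2, ∑ i2, ∑ s,
          (star (V i1 i) * M (s1, i1) (s2, i2) * V i2 i) * (U s2 s * star (U s1 s)) := by
        rw [Finset.sum_comm]
        refine Finset.sum_congr rfl fun s1 _ => ?_
        rw [Finset.sum_comm]
        refine Finset.sum_congr rfl fun i1 _ => ?_
        rw [Finset.sum_comm]
        refine Finset.sum_congr rfl fun s2 _ => ?_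
        rw [Finset.sum_comm]
    _ = ∑ s1, ∑ i1, ∑ s2, ∑ i2,
          (star (V i1 i) * M (s1, i1) (s2, i2) * V i2 i) * (if s2 = s1 then 1 else 0) := by
        simp only [← Finset.mul_sum, unitary_row_sum hU]
    _ = ∑ s1, ∑ i1, ∑ i2, star (V i1 i) * M (s1, i1) (s1, i2) * V i2 i := by
        refine Finset.sum_congr rfl fun s1 _ => ?_
        refine Finset.sum_congr rfl fun i1 _ => ?_
        rw [Finset.sum_comm]
        simp
    _ = ∑ i1, ∑ i2, star (V i1 i) * (∑ t, M (t, i1) (t, i2)) * V i2 i := by
        rw [Finset.sum_comm]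
        refine Finset.sum_congr rfl fun i1 _ => ?_
        rw [Finset.sum_comm]
        refine Finset.sum_congr rfl fun i2 _ => ?_
        rw [Finset.mul_sum, Finset.sum_mul]

/-- **Subadditivity of the entropy**, unnormalised form: for positive semidefinite `M` on `k × d`
with trace `t`, `S(M) ≤ S(M_K) + S(M_D) + t log t`. -/
theorem vnEntropy_le_marginals {M : Matrix (k × d) (k × d) ℂ} (hM : M.PosSemidef) :
    vnEntropy M ≤ vnEntropy (margK M) + vnEntropy (margD M)
      + M.trace.re * Real.log M.trace.re := by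
  obtain ⟨U, a, hU, hU', hdU, hSU⟩ := exists_eigen (margK M) (margK_isHermitian hM.isHermitian)
  obtain ⟨V, b, hV, hV', hdV, hSV⟩ := exists_eigen (margD M) (margD_isHermitian hM.isHermitian)
  have hW : star (U ⊗ₖ V) * (U ⊗ₖ V) = 1 := kron_unitary hU hV
  have hW' : (U ⊗ₖ V) * star (U ⊗ₖ V) = 1 := mul_eq_one_comm.mp hW
  set m : k × d → ℝ := fun x => diagIn (U ⊗ₖ V) M x with hm_def
  have hm0 : ∀ x, 0 ≤ m x := fun x => diagIn_nonneg (U ⊗ₖ V) hM x
  have ha : ∀ s, a s = ∑ i, m (s, i) := by
    intro s; rw [← hdU s]; exact (sum_diagIn_kron_right U V hV' M s).symm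
  have hb : ∀ i, b i = ∑ s, m (s, i) := by
    intro i; rw [← hdV i]; exact (sum_diagIn_kron_left U V hU' M i).symm
  have ha0 : ∀ s, 0 ≤ a s := fun s => by rw [ha]; exact Finset.sum_nonneg fun i _ => hm0 _
  have hb0 : ∀ i, 0 ≤ b i := fun i => by rw [hb]; exact Finset.sum_nonneg fun s _ => hm0 _
  have hma : ∀ x : k × d, m x ≤ a x.1 := by
    intro x; rw [ha]
    exact Finset.single_le_sum (f := fun i => m (x.1, i)) (fun i _ => hm0 _) (Finset.mem_univ x.2)
  have hmb : ∀ x : k × d, m x ≤ b x.2 := by
    intro x; rw [hb]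
    exact Finset.single_le_sum (f := fun s => m (s, x.2)) (fun s _ => hm0 _) (Finset.mem_univ x.1)
  set t : ℝ := M.trace.re with ht_def
  have hmt : ∑ x, m x = t := sum_diagIn (U ⊗ₖ V) hW' M
  have hat : ∑ s, a s = t := by
    simp only [ha]; rw [← hmt, Fintype.sum_prod_type]
  have hbt : ∑ i, b i = t := by
    simp only [hb]; rw [← hmt, Fintype.sum_prod_type, Finset.sum_comm]
  have ht0 : 0 ≤ t := trace_re_nonneg hM
  have hmle : ∀ x, m x ≤ t := by
    intro x; rw [← hmt]; exact Finset.single_le_sum (fun x _ => hm0 x) (Finset.mem_univ x)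
  have hk := klein M hM (U ⊗ₖ V) hW (fun x => a x.1 * b x.2 / t)
    (fun x => div_nonneg (mul_nonneg (ha0 _) (hb0 _)) ht0)
    (by
      intro x h0
      rcases div_eq_zero_iff.mp h0 with h1 | h1
      · rcases mul_eq_zero.mp h1 with h2 | h2
        · exact le_antisymm (h2 ▸ hma x) (hm0 x)
        · exact le_antisymm (h2 ▸ hmb x) (hm0 x)
      · exact le_antisymm (h1 ▸ hmle x) (hm0 x))
  have e1 : ∑ x : k × d, a x.1 * b x.2 / t = t := by
    rw [← Finset.sum_div, Fintype.sum_prod_type]
    simp only [← Finset.mul_sum, hbt]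
    rw [← Finset.sum_mul, hat]
    rcases eq_or_ne t 0 with h | h
    · simp [h]
    · field_simp
  have e2 : ∀ x : k × d, diagIn (U ⊗ₖ V) M x * Real.log (a x.1 * b x.2 / t)
      = m x * Real.log (a x.1) + m x * Real.log (b x.2) - m x * Real.log t := by
    intro x
    show m x * _ = _
    rcases eq_or_ne (m x) 0 with h0 | h0
    · rw [h0, zero_mul, zero_mul, zero_mul, zero_mul]; ring
    · have hpos : 0 < m x := lt_of_le_of_ne (hm0 x) (Ne.symm h0)
      have h1 : a x.1 ≠ 0 := (lt_of_lt_of_le hpos (hma x)).ne'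
      have h2 : b x.2 ≠ 0 := (lt_of_lt_of_le hpos (hmb x)).ne'
      have h3 : t ≠ 0 := (lt_of_lt_of_le hpos (hmle x)).ne'
      rw [Real.log_div (mul_ne_zero h1 h2) h3, Real.log_mul h1 h2]
      ring
  have e3 : ∑ x : k × d, diagIn (U ⊗ₖ V) M x * Real.log (a x.1 * b x.2 / t)
      = ∑ s, a s * Real.log (a s) + ∑ i, b i * Real.log (b i) - t * Real.log t := by
    simp only [e2, Finset.sum_add_distrib, Finset.sum_sub_distrib]
    rw [← Finset.sum_mul, hmt]
    congr 1
    congr 1
    · rw [Fintype.sum_prod_type]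
      apply Finset.sum_congr rfl; intro s _
      dsimp only
      rw [← Finset.sum_mul, ← ha]
    · rw [Fintype.sum_prod_type, Finset.sum_comm]
      apply Finset.sum_congr rfl; intro i _
      dsimp only
      rw [← Finset.sum_mul, ← hb]
  rw [e1, e3] at hk
  rw [hSU, hSV]
  linarith

/-- **Subadditivity of the entropy** for density matrices: `S(AB) ≤ S(A) + S(B)`. -/
theorem vnEntropy_subadditive {M : Matrix (k × d) (k × d) ℂ} (hM : IsDensity M) :
    vnEntropy M ≤ vnEntropy (margK M) + vnEntropy (margD M) := by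
  have h := vnEntropy_le_marginals hM.1
  rw [hM.2] at h
  simpa using h

/-- Subadditivity, unnormalised, with the marginals written out. -/
theorem vnEntropy_le_marginals' {M : Matrix (k × d) (k × d) ℂ} (hM : M.PosSemidef) :
    vnEntropy M ≤ vnEntropy (Matrix.of fun s t => (block M s t).trace : Matrix k k ℂ)
      + vnEntropy (∑ s, block M s s) - Real.negMulLog M.trace.re := by
  have h := vnEntropy_le_marginals hM
  unfold margK margD at h
  rw [Real.negMulLog]
  linarith

/-- Subadditivity for density matrices, with the marginals written out. -/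
theorem vnEntropy_subadditive' {M : Matrix (k × d) (k × d) ℂ} (hM : IsDensity M) :
    vnEntropy M ≤ vnEntropy (Matrix.of fun s t => (block M s t).trace : Matrix k k ℂ)
      + vnEntropy (∑ s, block M s s) :=
  vnEntropy_subadditive hM

end Subadditivity

end Crest.Agent.GAD.Klein
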