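import Mathlib
import Crest.Prelude.Def_QState
import Crest.Prelude.Def_QChannel
import Crest.Prelude.Def_AmpDamp

/-!
# Row 341: Kraus form of `gadMap γ ν ⊗ id`

* `lift K` : the matrix `K ⊗ 1` on `Bool × e` for a `2 × 2` matrix `K`;
* `qubitTensor_id_eq_kraus` : if the transfer coefficients of a qubit map `Φ` are
  `∑ j, K j s s' * star (K j t t')`, then `qubitTensor Φ id M = ∑ j, lift (K j) * M * (lift (K j))ᴴ`;
* `gadKraus γ ν` : the four Kraus operators of the generalized amplitude-damping channel and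
  `gad_coeff` : their coefficient identity for `γ, ν ∈ [0, 1]`;
* consequences: `qubitTensor (gadMap γ ν) id` preserves positive semidefiniteness and the trace,
  hence density matrices; explicit diagonal blocks of `qubitTensor (gadMap γ ν) Ψ ρ`.
-/

set_option autoImplicit false

namespace Crest.Agent.GAD

open Crest.Quantum Crest.MathPhysics.AmpDamp Matrix
open scoped ComplexOrder

variable {e : Type*} [Fintype e] [DecidableEq e]

/-- `K ⊗ 1` on `Bool × e`. -/
def lift (K : Matrix Bool Bool ℂ) : Matrix (Bool × e) (Bool × e) ℂ :=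
  Matrix.of fun p q => if p.2 = q.2 then K p.1 q.1 else 0

theorem lift_conj_apply (K : Matrix Bool Bool ℂ) (M : Matrix (Bool × e) (Bool × e) ℂ)
    (s t : Bool) (i j : e) :
    (lift K * M * (lift K)ᴴ : Matrix (Bool × e) (Bool × e) ℂ) (s, i) (t, j)
      = ∑ s', ∑ t', K s s' * M (s', i) (t', j) * star (K t t') := by
  simp only [Matrix.mul_apply, Matrix.conjTranspose_apply, lift, Matrix.of_apply,
    Fintype.sum_prod_type]
  simp only [ite_mul, zero_mul, mul_ite, mul_zero, apply_ite star, star_zero,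
    Finset.sum_ite_eq, Finset.mem_univ, if_true]
  rw [Finset.sum_comm]
  refine Finset.sum_congr rfl fun s' _ => ?_
  rw [Finset.sum_mul]

/-- Kraus form of `Φ ⊗ id` from the coefficient identity. -/
theorem qubitTensor_id_eq_kraus {Φ : Matrix Bool Bool ℂ → Matrix Bool Bool ℂ} {n : ℕ}
    {K : Fin n → Matrix Bool Bool ℂ}
    (h : ∀ s t s' t', qubitCoeff Φ s t s' t' = ∑ j, K j s s' * star (K j t t'))
    (M : Matrix (Bool × e) (Bool × e) ℂ) :
    qubitTensor Φ (id : Matrix e e ℂ → Matrix e e ℂ) M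
      = ∑ j, (lift (K j) * M * (lift (K j))ᴴ : Matrix (Bool × e) (Bool × e) ℂ) := by
  ext ⟨s, i⟩ ⟨t, j⟩
  rw [Matrix.sum_apply]
  simp only [lift_conj_apply, qubitTensor, Matrix.of_apply, id, block, h, Finset.sum_mul]
  have h1 : ∀ s' : Bool, (∑ t' : Bool, ∑ x : Fin n, K x s s' * star (K x t t') * M (s', i) (t', j))
      = ∑ x : Fin n, ∑ t' : Bool, K x s s' * M (s', i) (t', j) * star (K x t t') := by
    intro s'
    rw [Finset.sum_comm]
    refine Finset.sum_congr rfl fun x _ => Finset.sum_congr rfl fun t' _ => ?_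
    ring
  simp only [h1]
  exact Finset.sum_comm

theorem posSemidef_qubitTensor_id_of_kraus {Φ : Matrix Bool Bool ℂ → Matrix Bool Bool ℂ} {n : ℕ}
    {K : Fin n → Matrix Bool Bool ℂ}
    (h : ∀ s t s' t', qubitCoeff Φ s t s' t' = ∑ j, K j s s' * star (K j t t'))
    {M : Matrix (Bool × e) (Bool × e) ℂ} (hM : M.PosSemidef) :
    (qubitTensor Φ (id : Matrix e e ℂ → Matrix e e ℂ) M).PosSemidef := by
  rw [qubitTensor_id_eq_kraus h]
  exact Matrix.posSemidef_sum _ fun j _ => hM.mul_mul_conjTranspose_same _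

end Crest.Agent.GAD

namespace Crest.Agent.GAD

open Crest.Quantum Crest.MathPhysics.AmpDamp Matrix
open scoped ComplexOrder

/-- Real entries of the four Kraus operators of the generalized amplitude-damping channel:
`√(1-ν) diag(1, √(1-γ))`, `√((1-ν)γ) |0⟩⟨1|`, `√ν diag(√(1-γ), 1)`, `√(νγ) |1⟩⟨0|`
(`false = 0`, `true = 1`). -/
noncomputable def gadKrausR (γ ν : ℝ) : Fin 4 → Bool → Bool → ℝ :=
  ![fun s t => if s = t then (if s then Real.sqrt (1 - ν) * Real.sqrt (1 - γ) else Real.sqrt (1 - ν))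
      else 0,
    fun s t => if s = false ∧ t = true then Real.sqrt (1 - ν) * Real.sqrt γ else 0,
    fun s t => if s = t then (if s then Real.sqrt ν else Real.sqrt ν * Real.sqrt (1 - γ)) else 0,
    fun s t => if s = true ∧ t = false then Real.sqrt ν * Real.sqrt γ else 0]

/-- The four Kraus operators of the generalized amplitude-damping channel. -/
noncomputable def gadKraus (γ ν : ℝ) (j : Fin 4) : Matrix Bool Bool ℂ :=
  Matrix.of fun s t => ((gadKrausR γ ν j s t : ℝ) : ℂ)

theorem gad_coeff {γ ν : ℝ} (hγ : γ ∈ Set.Icc (0 : ℝ) 1) (hν : ν ∈ Set.Icc (0 : ℝ) 1)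
    (s t s' t' : Bool) :
    qubitCoeff (gadMap γ ν) s t s' t'
      = ∑ j, gadKraus γ ν j s s' * star (gadKraus γ ν j t t') := by
  have ha : Real.sqrt (1 - ν) * Real.sqrt (1 - ν) = 1 - ν := Real.mul_self_sqrt (by linarith [hν.2])
  have hb : Real.sqrt ν * Real.sqrt ν = ν := Real.mul_self_sqrt hν.1
  have hc : Real.sqrt (1 - γ) * Real.sqrt (1 - γ) = 1 - γ := Real.mul_self_sqrt (by linarith [hγ.2])
  have hg : Real.sqrt γ * Real.sqrt γ = γ := Real.mul_self_sqrt hγ.1
  simp only [Fin.sum_univ_four, gadKraus, gadKrausR, Matrix.of_apply, qubitCoeff, gadMap,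
    Matrix.single_apply]
  generalize Real.sqrt (1 - ν) = a at ha ⊢
  generalize Real.sqrt ν = b at hb ⊢
  generalize Real.sqrt (1 - γ) = c at hc ⊢
  generalize Real.sqrt γ = g at hg ⊢
  have ha' : (a : ℂ) * a = 1 - ν := by exact_mod_cast ha
  have hb' : (b : ℂ) * b = ν := by exact_mod_cast hb
  have hc' : (c : ℂ) * c = 1 - γ := by exact_mod_cast hc
  have hg' : (g : ℂ) * g = γ := by exact_mod_cast hg
  cases s <;> cases t <;> cases s' <;> cases t' <;> simp
  · linear_combination (-1 : ℂ) * ha' - (c : ℂ) * c * hb' - (ν : ℂ) * hc'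
  · linear_combination -((g : ℂ) * g) * ha' - (1 - (ν : ℂ)) * hg'
  · linear_combination -(c : ℂ) * ha' - (c : ℂ) * hb'
  · linear_combination -(c : ℂ) * ha' - (c : ℂ) * hb'
  · linear_combination -((g : ℂ) * g) * hb' - (ν : ℂ) * hg'
  · linear_combination -((c : ℂ) * c) * ha' - (1 - (ν : ℂ)) * hc' - hb'

section consequences

set_option linter.unusedSectionVars false

variable {d e : Type*} [Fintype d] [DecidableEq d] [Fintype e] [DecidableEq e]

/-- `gadMap γ ν ⊗ id` preserves positive semidefiniteness (`γ, ν ∈ [0, 1]`). -/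
theorem posSemidef_gad_id {γ ν : ℝ} (hγ : γ ∈ Set.Icc (0 : ℝ) 1) (hν : ν ∈ Set.Icc (0 : ℝ) 1)
    {M : Matrix (Bool × e) (Bool × e) ℂ} (hM : M.PosSemidef) :
    (qubitTensor (gadMap γ ν) (id : Matrix e e ℂ → Matrix e e ℂ) M).PosSemidef :=
  posSemidef_qubitTensor_id_of_kraus (gad_coeff hγ hν) hM

/-- The four blocks of `(gadMap γ ν ⊗ Ψ) ρ`. -/
theorem block_gad_ff (γ ν : ℝ) (Ψ : Matrix d d ℂ → Matrix e e ℂ)
    (ρ : Matrix (Bool × d) (Bool × d) ℂ) :
    block (qubitTensor (gadMap γ ν) Ψ ρ) false false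
      = ((1 - γ * ν : ℝ) : ℂ) • Ψ (block ρ false false)
        + ((γ * (1 - ν) : ℝ) : ℂ) • Ψ (block ρ true true) := by
  ext i j
  simp [block, qubitTensor, qubitCoeff, gadMap, Matrix.single_apply]
  try ring

theorem block_gad_tt (γ ν : ℝ) (Ψ : Matrix d d ℂ → Matrix e e ℂ)
    (ρ : Matrix (Bool × d) (Bool × d) ℂ) :
    block (qubitTensor (gadMap γ ν) Ψ ρ) true true
      = ((γ * ν : ℝ) : ℂ) • Ψ (block ρ false false)
        + ((1 - γ + γ * ν : ℝ) : ℂ) • Ψ (block ρ true true) := by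
  ext i j
  simp [block, qubitTensor, qubitCoeff, gadMap, Matrix.single_apply]
  try ring

theorem block_gad_ft (γ ν : ℝ) (Ψ : Matrix d d ℂ → Matrix e e ℂ)
    (ρ : Matrix (Bool × d) (Bool × d) ℂ) :
    block (qubitTensor (gadMap γ ν) Ψ ρ) false true
      = ((Real.sqrt (1 - γ) : ℝ) : ℂ) • Ψ (block ρ false true) := by
  ext i j
  simp [block, qubitTensor, qubitCoeff, gadMap, Matrix.single_apply]

theorem block_gad_tf (γ ν : ℝ) (Ψ : Matrix d d ℂ → Matrix e e ℂ)
    (ρ : Matrix (Bool × d) (Bool × d) ℂ) :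
    block (qubitTensor (gadMap γ ν) Ψ ρ) true false
      = ((Real.sqrt (1 - γ) : ℝ) : ℂ) • Ψ (block ρ true false) := by
  ext i j
  simp [block, qubitTensor, qubitCoeff, gadMap, Matrix.single_apply]

omit [DecidableEq d] [DecidableEq e] in
/-- The trace of a matrix on `Bool × d` is the sum of the traces of its diagonal blocks. -/
theorem trace_eq_block_add (M : Matrix (Bool × d) (Bool × d) ℂ) :
    M.trace = (block M false false).trace + (block M true true).trace := by
  simp [Matrix.trace, Fintype.sum_prod_type, block, add_comm]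

/-- `gadMap γ ν ⊗ Ψ` preserves the trace when `Ψ` does. -/
theorem trace_gad_tensor (γ ν : ℝ) {Ψ : Matrix d d ℂ → Matrix e e ℂ} (hΨ : IsTracePreserving Ψ)
    (ρ : Matrix (Bool × d) (Bool × d) ℂ) :
    (qubitTensor (gadMap γ ν) Ψ ρ).trace = ρ.trace := by
  rw [trace_eq_block_add, block_gad_ff, block_gad_tt, trace_eq_block_add ρ]
  simp only [Matrix.trace_add, Matrix.trace_smul, hΨ _, smul_eq_mul]
  push_cast
  ring

/-- `gadMap γ ν ⊗ id` maps density matrices to density matrices (`γ, ν ∈ [0, 1]`). -/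
theorem isDensity_gad_id {γ ν : ℝ} (hγ : γ ∈ Set.Icc (0 : ℝ) 1) (hν : ν ∈ Set.Icc (0 : ℝ) 1)
    {M : Matrix (Bool × e) (Bool × e) ℂ} (hM : IsDensity M) :
    IsDensity (qubitTensor (gadMap γ ν) (id : Matrix e e ℂ → Matrix e e ℂ) M) :=
  ⟨posSemidef_gad_id hγ hν hM.1, by
    rw [trace_gad_tensor (Ψ := (id : Matrix e e ℂ → Matrix e e ℂ)) γ ν (fun _ => rfl) M, hM.2]⟩

end consequences

end Crest.Agent.GAD
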