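import Mathlib
import Crest.Prelude.Def_QState

/-!
# Log-determinant representation of the von Neumann entropy (root R3 of row 341, lane B)

For a positive semidefinite `A : Matrix n n ℂ` with eigenvalues `λ_i`:

* `det (A + s) = ∏ (λ_i + s)` (`det_add_smul_one_eq`), hence for `s > 0`
  `log det (A + s) = ∑ log (λ_i + s)` (`log_det_add_eq_sum`);
* `logDetInt A L = ∫_0^L log det (A + s) ds` has the closed form
  `∑ ((λ_i + L) log (λ_i + L) - λ_i log λ_i - L)` (`logDetInt_eq`);
* `vnEntropy A = lim_{L → ∞} [logDetInt A L - n (L log L - L) - tr A (log L + 1)]`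
  (`vnEntropy_eq_lim`).

Only Mathlib and the frozen definition `Crest.Quantum.vnEntropy` are used.
-/

set_option autoImplicit false

open Crest.Quantum
open scoped ComplexOrder
open Filter Topology MeasureTheory

namespace Crest.Agent.GAD

variable {n : Type*} [Fintype n] [DecidableEq n]

/-- `det (A + s) = ∏ (λ_i + s)` for a Hermitian matrix `A` and a real shift `s`. -/
theorem det_add_smul_one_eq {A : Matrix n n ℂ} (hA : A.IsHermitian) (s : ℝ) :
    (A + (s : ℂ) • (1 : Matrix n n ℂ)).det = ((∏ i, (hA.eigenvalues i + s) : ℝ) : ℂ) := by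
  have h1 : A + (s : ℂ) • (1 : Matrix n n ℂ) = -(Matrix.scalar n (-(s : ℂ)) - A) := by
    ext i j
    by_cases hij : i = j
    · subst hij; simp [Matrix.smul_apply]
    · simp [Matrix.smul_apply, hij]
  rw [h1, Matrix.det_neg, ← Matrix.eval_charpoly, hA.charpoly_eq, Polynomial.eval_prod]
  simp only [Polynomial.eval_sub, Polynomial.eval_X, Polynomial.eval_C]
  rw [← Finset.card_univ, ← Finset.prod_const, ← Finset.prod_mul_distrib]
  push_cast
  refine Finset.prod_congr rfl fun i _ => ?_
  simp

/-- For PSD `A` and `s ≥ 0` the determinant of `A + s` is a nonnegative real. -/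
theorem prod_eigenvalues_add_nonneg {A : Matrix n n ℂ} (hA : A.PosSemidef) {s : ℝ} (hs : 0 ≤ s) :
    0 ≤ ∏ i, (hA.1.eigenvalues i + s) :=
  Finset.prod_nonneg fun i _ => add_nonneg (hA.eigenvalues_nonneg i) hs

theorem det_add_smul_one_re {A : Matrix n n ℂ} (hA : A.IsHermitian) (s : ℝ) :
    (A + (s : ℂ) • (1 : Matrix n n ℂ)).det.re = ∏ i, (hA.eigenvalues i + s) := by
  rw [det_add_smul_one_eq hA s, Complex.ofReal_re]

/-- Bridge to the norm form: for PSD `A` and `s ≥ 0`, `‖det (A + s)‖ = (det (A + s)).re`. -/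
theorem norm_det_add_smul_one {A : Matrix n n ℂ} (hA : A.PosSemidef) {s : ℝ} (hs : 0 ≤ s) :
    ‖(A + (s : ℂ) • (1 : Matrix n n ℂ)).det‖ = (A + (s : ℂ) • (1 : Matrix n n ℂ)).det.re := by
  rw [det_add_smul_one_eq hA.1 s, Complex.ofReal_re, Complex.norm_real, Real.norm_eq_abs,
    abs_of_nonneg (prod_eigenvalues_add_nonneg hA hs)]

/-- For PSD `A` and `s > 0`: `log det (A + s) = ∑ log (λ_i + s)`. -/
theorem log_det_add_eq_sum {A : Matrix n n ℂ} (hA : A.PosSemidef) {s : ℝ} (hs : 0 < s) :
    Real.log (A + (s : ℂ) • (1 : Matrix n n ℂ)).det.re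
      = ∑ i, Real.log (hA.1.eigenvalues i + s) := by
  rw [det_add_smul_one_re hA.1 s, Real.log_prod]
  intro i _
  have := hA.eigenvalues_nonneg i
  positivity

/-- The scalar integral `∫_0^L log (l + s) ds`. -/
theorem integral_log_add (l L : ℝ) :
    ∫ s in (0:ℝ)..L, Real.log (l + s) = (l + L) * Real.log (l + L) - l * Real.log l - L := by
  rw [intervalIntegral.integral_comp_add_left (fun x => Real.log x) l, integral_log]
  simp only [add_zero]
  ring

theorem intervalIntegrable_log_add (l a b : ℝ) :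
    IntervalIntegrable (fun s : ℝ => Real.log (l + s)) volume a b := by
  have h := (intervalIntegral.intervalIntegrable_log' (a := l + a) (b := l + b)).comp_add_left l
  simpa using h

/-- `∫_0^L log det (A + s) ds`. -/
noncomputable def logDetInt (A : Matrix n n ℂ) (L : ℝ) : ℝ :=
  ∫ s in (0:ℝ)..L, Real.log (A + (s : ℂ) • (1 : Matrix n n ℂ)).det.re

/-- `s ↦ log det (A + s)` is interval integrable on `[0, L]` for PSD `A`. -/
theorem intervalIntegrable_log_det {A : Matrix n n ℂ} (hA : A.PosSemidef) {L : ℝ} (hL : 0 ≤ L) :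
    IntervalIntegrable (fun s : ℝ => Real.log (A + (s : ℂ) • (1 : Matrix n n ℂ)).det.re)
      volume 0 L := by
  rw [intervalIntegrable_iff_integrableOn_Ioc_of_le hL]
  have hsum : IntegrableOn (fun s : ℝ => ∑ i, Real.log (hA.1.eigenvalues i + s))
      (Set.Ioc 0 L) volume := by
    refine integrable_finsetSum _ fun i _ => ?_
    exact (intervalIntegrable_iff_integrableOn_Ioc_of_le hL).1
      (intervalIntegrable_log_add (hA.1.eigenvalues i) 0 L)
  exact hsum.congr_fun (fun s hs => (log_det_add_eq_sum hA hs.1).symm) measurableSet_Ioc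

/-- Closed form of `logDetInt` for PSD `A`. -/
theorem logDetInt_eq {A : Matrix n n ℂ} (hA : A.PosSemidef) {L : ℝ} (hL : 0 ≤ L) :
    logDetInt A L = ∑ i, ((hA.1.eigenvalues i + L) * Real.log (hA.1.eigenvalues i + L)
      - hA.1.eigenvalues i * Real.log (hA.1.eigenvalues i) - L) := by
  unfold logDetInt
  have h1 : ∫ s in (0:ℝ)..L, Real.log (A + (s : ℂ) • (1 : Matrix n n ℂ)).det.re
      = ∫ s in (0:ℝ)..L, ∑ i, Real.log (hA.1.eigenvalues i + s) := by
    rw [intervalIntegral.integral_of_le hL, intervalIntegral.integral_of_le hL]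
    exact setIntegral_congr_fun measurableSet_Ioc (fun s hs => log_det_add_eq_sum hA hs.1)
  rw [h1, intervalIntegral.integral_finsetSum]
  · exact Finset.sum_congr rfl fun i _ => integral_log_add _ _
  · intro i _
    exact intervalIntegrable_log_add _ _ _

/-- The entropy of a PSD matrix in terms of its eigenvalues. -/
theorem vnEntropy_eq_neg_sum_eigenvalues {A : Matrix n n ℂ} (hA : A.IsHermitian) :
    vnEntropy A = -∑ i, hA.eigenvalues i * Real.log (hA.eigenvalues i) := by
  unfold vnEntropy
  rw [dif_pos hA]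

theorem trace_re_eq_sum' {A : Matrix n n ℂ} (hA : A.IsHermitian) :
    A.trace.re = ∑ i, hA.eigenvalues i := by
  rw [hA.trace_eq_sum_eigenvalues]
  simp

/-- Scalar limit: `(l + L) log (l + L) - l log l - L - (L log L - L) - l (log L + 1) → -l log l`. -/
theorem tendsto_scalar_logint (l : ℝ) :
    Tendsto (fun L : ℝ => (l + L) * Real.log (l + L) - l * Real.log l - L
        - (L * Real.log L - L) - l * (Real.log L + 1)) atTop (𝓝 (-(l * Real.log l))) := by
  have h1 : Tendsto (fun L : ℝ => L * Real.log (1 + l / L)) atTop (𝓝 l) :=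
    Real.tendsto_mul_log_one_add_div_atTop l
  have h2 : Tendsto (fun L : ℝ => l * Real.log (1 + l / L)) atTop (𝓝 (l * Real.log 1)) := by
    have h3 : Tendsto (fun L : ℝ => 1 + l / L) atTop (𝓝 (1 + 0)) :=
      tendsto_const_nhds.add (tendsto_const_nhds.div_atTop tendsto_id)
    rw [add_zero] at h3
    exact ((Real.continuousAt_log one_ne_zero).tendsto.comp h3).const_mul l
  have h4 : Tendsto (fun L : ℝ => L * Real.log (1 + l / L) + l * Real.log (1 + l / L)
      - l - l * Real.log l) atTop (𝓝 (l + l * Real.log 1 - l - l * Real.log l)) :=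
    ((h1.add h2).sub tendsto_const_nhds).sub tendsto_const_nhds
  have h5 : l + l * Real.log 1 - l - l * Real.log l = -(l * Real.log l) := by
    rw [Real.log_one]; ring
  rw [h5] at h4
  refine h4.congr' ?_
  filter_upwards [eventually_gt_atTop (0 : ℝ), eventually_gt_atTop (-l)] with L hL hL'
  have hL0 : L ≠ 0 := ne_of_gt hL
  have hpos : 0 < l + L := by linarith
  have hlog : Real.log (1 + l / L) = Real.log (l + L) - Real.log L := by
    rw [← Real.log_div (ne_of_gt hpos) hL0]
    congr 1
    field_simp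
    ring
  rw [hlog]
  ring

/-- **Log-det representation of the entropy** (R3): for PSD `A`,
`S(A) = lim_{L → ∞} [∫_0^L log det (A + s) ds - n (L log L - L) - tr A (log L + 1)]`. -/
theorem vnEntropy_eq_lim {A : Matrix n n ℂ} (hA : A.PosSemidef) :
    Tendsto (fun L : ℝ => logDetInt A L - (Fintype.card n : ℝ) * (L * Real.log L - L)
        - A.trace.re * (Real.log L + 1)) atTop (𝓝 (vnEntropy A)) := by
  rw [vnEntropy_eq_neg_sum_eigenvalues hA.1, ← Finset.sum_neg_distrib]
  have hlim : Tendsto (fun L : ℝ => ∑ i, ((hA.1.eigenvalues i + L) * Real.log (hA.1.eigenvalues i + L)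
        - hA.1.eigenvalues i * Real.log (hA.1.eigenvalues i) - L
        - (L * Real.log L - L) - hA.1.eigenvalues i * (Real.log L + 1))) atTop
      (𝓝 (∑ i, -(hA.1.eigenvalues i * Real.log (hA.1.eigenvalues i)))) :=
    tendsto_finsetSum _ fun i _ => tendsto_scalar_logint (hA.1.eigenvalues i)
  refine hlim.congr' ?_
  filter_upwards [eventually_ge_atTop (0 : ℝ)] with L hL
  rw [logDetInt_eq hA hL, trace_re_eq_sum' hA.1, Finset.sum_mul]
  simp only [Finset.sum_sub_distrib, Finset.sum_const, Finset.card_univ, nsmul_eq_mul]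
  ring

/-- **Transfer principle**: a pointwise (in the shift `s > 0`) inequality between log-determinants
of finitely many PSD matrices `A k` (possibly of different sizes), with real coefficients `c k`
that balance the dimensions and the traces, integrates to the same inequality between their
von Neumann entropies. -/
theorem sum_mul_vnEntropy_nonpos_of_logdet {ι : Type*} [Fintype ι] (m : ι → Type*)
    [∀ k, Fintype (m k)] [∀ k, DecidableEq (m k)] (A : ∀ k, Matrix (m k) (m k) ℂ)
    (hA : ∀ k, (A k).PosSemidef) (c : ι → ℝ)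
    (hcard : ∑ k, c k * (Fintype.card (m k) : ℝ) = 0)
    (htr : ∑ k, c k * (A k).trace.re = 0)
    (hpt : ∀ s : ℝ, 0 < s →
      ∑ k, c k * Real.log (A k + (s : ℂ) • (1 : Matrix (m k) (m k) ℂ)).det.re ≤ 0) :
    ∑ k, c k * vnEntropy (A k) ≤ 0 := by
  have hlim : Tendsto (fun L : ℝ => ∑ k, c k * (logDetInt (A k) L
        - (Fintype.card (m k) : ℝ) * (L * Real.log L - L)
        - (A k).trace.re * (Real.log L + 1))) atTop (𝓝 (∑ k, c k * vnEntropy (A k))) :=
    tendsto_finsetSum _ fun k _ => (vnEntropy_eq_lim (hA k)).const_mul (c k)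
  refine le_of_tendsto hlim ?_
  filter_upwards [eventually_ge_atTop (0 : ℝ)] with L hL
  have hsplit : ∑ k, c k * (logDetInt (A k) L - (Fintype.card (m k) : ℝ) * (L * Real.log L - L)
        - (A k).trace.re * (Real.log L + 1))
      = ∑ k, c k * logDetInt (A k) L
        - (∑ k, c k * (Fintype.card (m k) : ℝ)) * (L * Real.log L - L)
        - (∑ k, c k * (A k).trace.re) * (Real.log L + 1) := by
    rw [Finset.sum_mul, Finset.sum_mul, ← Finset.sum_sub_distrib, ← Finset.sum_sub_distrib]
    exact Finset.sum_congr rfl fun k _ => by ring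
  rw [hsplit, hcard, htr, zero_mul, zero_mul, sub_zero, sub_zero]
  have hint : ∑ k, c k * logDetInt (A k) L
      = ∫ s in (0:ℝ)..L, ∑ k, c k * Real.log (A k + (s : ℂ) • (1 : Matrix (m k) (m k) ℂ)).det.re := by
    rw [intervalIntegral.integral_finsetSum]
    · exact Finset.sum_congr rfl fun k _ => (intervalIntegral.integral_const_mul _ _).symm
    · intro k _
      exact (intervalIntegrable_log_det (hA k) hL).const_mul (c k)
  rw [hint, intervalIntegral.integral_of_le hL]
  exact setIntegral_nonpos measurableSet_Ioc fun s hs => hpt s hs.1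

end Crest.Agent.GAD
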