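import Mathlib
import Crest.Prelude.Def_QState
import Crest.Prelude.Def_QChannel
import Crest.Prelude.Def_AmpDamp
import Crest.Agent.GAD.Entropy
import Crest.Agent.GAD.Peierls

/-!
# CONSEQ: `(AD4) ⇒ (L')` for every generalized amplitude damping channel (row 341)

`(AD4)` (four PSD pieces; helper94's theorem) enters as the explicit hypothesis `Conseq.AD4`.
-/

set_option autoImplicit false

open Crest.Quantum Crest.MathPhysics.AmpDamp Matrix
open scoped ComplexOrder

namespace Crest.Agent.GAD.Conseq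

variable {d : Type*} [Fintype d] [DecidableEq d]

/-! ### 0. The interface: `Psi4`, the `1 × 1` instance, and `(AD4)` -/

/-- `Ψ₄(a, b, T₀, T₁) = S([[aa* + T₀, ab*],[ba*, bb* + T₁]]) - S(aa*) - S(bb*) - S(T₀) - S(T₁)`. -/
noncomputable def Psi4 {d d' : Type*} [Fintype d] [DecidableEq d] [Fintype d']
    (a b : Matrix d d' ℂ) (T0 T1 : Matrix d d ℂ) : ℝ :=
  vnEntropy (Matrix.fromBlocks (a * aᴴ + T0) (a * bᴴ) (b * aᴴ) (b * bᴴ + T1))
    - vnEntropy (a * aᴴ) - vnEntropy (b * bᴴ) - vnEntropy T0 - vnEntropy T1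

/-- The `1 × 1` matrix with the real entry `x`. -/
def scal (x : ℝ) : Matrix Unit Unit ℂ := Matrix.of fun _ _ => (x : ℂ)

/-- **(AD4)**: among all data with the same four traces the `1 × 1` instance minimises `Ψ₄`. -/
def AD4 : Prop :=
  ∀ (d d' : Type) [Fintype d] [DecidableEq d] [Fintype d'] [DecidableEq d']
    (a b : Matrix d d' ℂ) (T0 T1 : Matrix d d ℂ), T0.PosSemidef → T1.PosSemidef →
    Psi4 (scal (Real.sqrt (a * aᴴ).trace.re)) (scal (Real.sqrt (b * bᴴ).trace.re))
        (scal T0.trace.re) (scal T1.trace.re)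
      ≤ Psi4 a b T0 T1

/-! ### 1. The blocks of `(gadMap γ ν ⊗ id) M` -/

omit [Fintype d] [DecidableEq d] in
theorem gad_block_ff (γ ν : ℝ) (M : Matrix (Bool × d) (Bool × d) ℂ) :
    block (qubitTensor (gadMap γ ν) (id : Matrix d d ℂ → Matrix d d ℂ) M) false false =
      ((1 - γ * ν : ℝ) : ℂ) • block M false false + ((γ * (1 - ν) : ℝ) : ℂ) • block M true true := by
  ext i j
  simp [block, qubitTensor, qubitCoeff, gadMap, Matrix.single]
  ring

omit [Fintype d] [DecidableEq d] in
theorem gad_block_tt (γ ν : ℝ) (M : Matrix (Bool × d) (Bool × d) ℂ) :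
    block (qubitTensor (gadMap γ ν) (id : Matrix d d ℂ → Matrix d d ℂ) M) true true =
      ((γ * ν : ℝ) : ℂ) • block M false false + ((1 - γ + γ * ν : ℝ) : ℂ) • block M true true := by
  ext i j
  simp [block, qubitTensor, qubitCoeff, gadMap, Matrix.single]
  ring

omit [Fintype d] [DecidableEq d] in
theorem gad_block_ft (γ ν : ℝ) (M : Matrix (Bool × d) (Bool × d) ℂ) :
    block (qubitTensor (gadMap γ ν) (id : Matrix d d ℂ → Matrix d d ℂ) M) false true =
      ((Real.sqrt (1 - γ) : ℝ) : ℂ) • block M false true := by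
  ext i j
  simp [block, qubitTensor, qubitCoeff, gadMap, Matrix.single]

omit [Fintype d] [DecidableEq d] in
theorem gad_block_tf (γ ν : ℝ) (M : Matrix (Bool × d) (Bool × d) ℂ) :
    block (qubitTensor (gadMap γ ν) (id : Matrix d d ℂ → Matrix d d ℂ) M) true false =
      ((Real.sqrt (1 - γ) : ℝ) : ℂ) • block M true false := by
  ext i j
  simp [block, qubitTensor, qubitCoeff, gadMap, Matrix.single]

/-! ### 2. Entropy of a `Bool × d` matrix through `fromBlocks` -/

omit [Fintype d] [DecidableEq d] in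
theorem eq_submatrix_fromBlocks (N : Matrix (Bool × d) (Bool × d) ℂ) :
    N = (Matrix.fromBlocks (block N false false) (block N false true)
          (block N true false) (block N true true)).submatrix
        (Equiv.boolProdEquivSum d) (Equiv.boolProdEquivSum d) := by
  ext ⟨s, i⟩ ⟨t, j⟩
  cases s <;> cases t <;> simp [Equiv.boolProdEquivSum, block]

theorem vnEntropy_eq_fromBlocks (N : Matrix (Bool × d) (Bool × d) ℂ) :
    vnEntropy N = vnEntropy (Matrix.fromBlocks (block N false false) (block N false true)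
          (block N true false) (block N true true)) := by
  conv_lhs => rw [eq_submatrix_fromBlocks N]
  exact vnEntropy_submatrix_equiv (Equiv.boolProdEquivSum d) _

/-! ### 3. The scalar (`1 × 1`) instance -/

theorem scal_eq_diagonal (x : ℝ) : scal x = Matrix.diagonal (fun _ : Unit => (x : ℂ)) := by
  ext i j
  simp [scal]

theorem vnEntropy_scal (x : ℝ) : vnEntropy (scal x) = Real.negMulLog x := by
  rw [scal_eq_diagonal, vnEntropy_diagonal]
  simp

theorem scal_mul_conjTranspose (x y : ℝ) : scal x * (scal y)ᴴ = scal (x * y) := by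
  ext i j
  simp [scal, Matrix.mul_apply]

theorem scal_add (x y : ℝ) : scal x + scal y = scal (x + y) := by
  ext i j
  simp [scal]

theorem trace_scal (x : ℝ) : (scal x).trace = (x : ℂ) := by
  simp [scal, Matrix.trace]

/-- The real symmetric `2 × 2` matrix `[[p, r], [r, q]]` (index `false` first). -/
def qmat (p q r : ℝ) : Matrix Bool Bool ℂ :=
  Matrix.of fun s t => if s = t then (if s then (q : ℂ) else (p : ℂ)) else (r : ℂ)

theorem qmat_isHermitian (p q r : ℝ) : (qmat p q r).IsHermitian := by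
  ext s t
  cases s <;> cases t <;> simp [qmat]

theorem qmat_trace (p q r : ℝ) : (qmat p q r).trace = ((p + q : ℝ) : ℂ) := by
  simp [qmat, Matrix.trace]
  ring

theorem qmat_det (p q r : ℝ) : (qmat p q r).det.re = p * q - r * r := by
  have h : (qmat p q r).det = ((p * q - r * r : ℝ) : ℂ) := by
    have h0 : finTwoEquiv 0 = false := rfl
    have h1 : finTwoEquiv 1 = true := rfl
    rw [← Matrix.det_submatrix_equiv_self finTwoEquiv (qmat p q r), Matrix.det_fin_two]
    simp [qmat, h0, h1]
  rw [h, Complex.ofReal_re]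

theorem vnEntropy_fromBlocks_scal (p q r : ℝ) :
    vnEntropy (Matrix.fromBlocks (scal p) (scal r) (scal r) (scal q)) = vnEntropy (qmat p q r) := by
  have h : qmat p q r = (Matrix.fromBlocks (scal p) (scal r) (scal r) (scal q)).submatrix
      Equiv.boolEquivPUnitSumPUnit Equiv.boolEquivPUnitSumPUnit := by
    ext s t
    cases s <;> cases t <;> simp [qmat, scal, Equiv.boolEquivPUnitSumPUnit]
  rw [h]
  exact (vnEntropy_submatrix_equiv Equiv.boolEquivPUnitSumPUnit _).symm

theorem Psi4_scal (x y w0 w1 : ℝ) (hx : 0 ≤ x) (hy : 0 ≤ y) :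
    Psi4 (scal (Real.sqrt x)) (scal (Real.sqrt y)) (scal w0) (scal w1)
      = vnEntropy (qmat (x + w0) (y + w1) (Real.sqrt x * Real.sqrt y))
        - Real.negMulLog x - Real.negMulLog y - Real.negMulLog w0 - Real.negMulLog w1 := by
  unfold Psi4
  simp only [scal_mul_conjTranspose, scal_add, vnEntropy_scal,
    Real.mul_self_sqrt hx, Real.mul_self_sqrt hy]
  rw [mul_comm (Real.sqrt y) (Real.sqrt x), vnEntropy_fromBlocks_scal]

/-! ### 4. Superadditivity of `A ↦ S(A) - η(tr A)` on PSD matrices -/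

theorem exists_eq_conjTranspose_mul_self {n : Type*} [Fintype n] [DecidableEq n]
    {A : Matrix n n ℂ} (hA : A.PosSemidef) : ∃ B : Matrix n n ℂ, A = Bᴴ * B := by
  open scoped MatrixOrder in
  obtain ⟨X, hX, -, h⟩ :=
    sub_zero A ▸ CFC.exists_sqrt_of_isSelfAdjoint_of_quasispectrumRestricts hA.isHermitian
      (QuasispectrumRestricts.nnreal_of_nonneg hA.nonneg)
  refine ⟨X, ?_⟩
  have : Xᴴ = X := hX
  rw [this]
  rw [sub_zero] at h
  exact h.symm

theorem trace_re_nonneg {n : Type*} [Fintype n] {A : Matrix n n ℂ} (hA : A.PosSemidef) :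
    0 ≤ A.trace.re :=
  (Complex.nonneg_iff.1 hA.trace_nonneg).1

theorem trace_eq_ofReal {n : Type*} [Fintype n] {A : Matrix n n ℂ} (hA : A.PosSemidef) :
    A.trace = ((A.trace.re : ℝ) : ℂ) := by
  have h := (Complex.nonneg_iff.1 hA.trace_nonneg).2
  apply Complex.ext
  · simp
  · simp [← h]

theorem posSemidef_ofReal_smul {n : Type*} [Fintype n] {A : Matrix n n ℂ} (hA : A.PosSemidef)
    {c : ℝ} (hc : 0 ≤ c) : (((c : ℝ) : ℂ) • A).PosSemidef :=
  hA.smul (Complex.zero_le_real.2 hc)

theorem trace_re_ofReal_smul {n : Type*} [Fintype n] (A : Matrix n n ℂ) (c : ℝ) :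
    (((c : ℝ) : ℂ) • A).trace.re = c * A.trace.re := by
  rw [Matrix.trace_smul, smul_eq_mul, Complex.re_ofReal_mul]

theorem vnEntropy_add_ge {n : Type*} [Fintype n] [DecidableEq n] (A B : Matrix n n ℂ)
    (hA : A.PosSemidef) (hB : B.PosSemidef) :
    vnEntropy A + vnEntropy B + Real.negMulLog (A.trace.re + B.trace.re)
        - Real.negMulLog A.trace.re - Real.negMulLog B.trace.re ≤ vnEntropy (A + B) := by
  have ha0 := trace_re_nonneg hA
  have hb0 := trace_re_nonneg hB
  rcases ha0.eq_or_lt with h | ha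
  · have hA0 : A = 0 := (hA.trace_eq_zero_iff).1 (by rw [trace_eq_ofReal hA, ← h]; simp)
    subst hA0
    simp [vnEntropy_zero]
  rcases hb0.eq_or_lt with h | hb
  · have hB0 : B = 0 := (hB.trace_eq_zero_iff).1 (by rw [trace_eq_ofReal hB, ← h]; simp)
    subst hB0
    simp [vnEntropy_zero]
  set a := A.trace.re with hadef
  set b := B.trace.re with hbdef
  have hab : 0 < a + b := by linarith
  set t := a / (a + b) with htdef
  have ht0 : 0 < t := div_pos ha hab
  have ht1 : t < 1 := by rw [htdef, div_lt_one hab]; linarith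
  have h1t : 1 - t = b / (a + b) := by rw [htdef]; field_simp; ring
  have h1t0 : 0 < 1 - t := by linarith
  have key := vnEntropy_concave (((1 / t : ℝ) : ℂ) • A) (((1 / (1 - t) : ℝ) : ℂ) • B)
    (posSemidef_ofReal_smul hA (by positivity)) (posSemidef_ofReal_smul hB (by positivity))
    t ht0.le ht1.le
  have hsum : (t : ℂ) • (((1 / t : ℝ) : ℂ) • A) + ((1 - t : ℝ) : ℂ) • (((1 / (1 - t) : ℝ) : ℂ) • B)
      = A + B := by
    rw [smul_smul, smul_smul, ← Complex.ofReal_mul, ← Complex.ofReal_mul,
      mul_one_div_cancel ht0.ne', mul_one_div_cancel h1t0.ne']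
    simp
  rw [hsum, vnEntropy_smul hA.1, vnEntropy_smul hB.1, ← hadef, ← hbdef] at key
  have e1 : Real.negMulLog (1 / t) = (1 / t) * Real.log t := by
    rw [Real.negMulLog, one_div, Real.log_inv]; ring
  have e2 : Real.negMulLog (1 / (1 - t)) = (1 / (1 - t)) * Real.log (1 - t) := by
    rw [Real.negMulLog, one_div, Real.log_inv]; ring
  have e3 : Real.log t = Real.log a - Real.log (a + b) := by
    rw [htdef, Real.log_div ha.ne' hab.ne']
  have e4 : Real.log (1 - t) = Real.log b - Real.log (a + b) := by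
    rw [h1t, Real.log_div hb.ne' hab.ne']
  have e5 : t * (1 / t * vnEntropy A + Real.negMulLog (1 / t) * a)
      = vnEntropy A + a * Real.log t := by
    rw [e1]; field_simp
  have e6 : (1 - t) * (1 / (1 - t) * vnEntropy B + Real.negMulLog (1 / (1 - t)) * b)
      = vnEntropy B + b * Real.log (1 - t) := by
    rw [e2]; field_simp
  rw [e5, e6, e3, e4] at key
  simp only [Real.negMulLog]
  linarith

/-! ### 5. `(AD4) ⇒ (L')` -/

/-- The scalar identity behind `fOut`: determinant of the GADC output on a pure qubit state. -/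
theorem gad_det_identity (γ ν z : ℝ) :
    ((1 - γ * ν) * (1 - z) + γ * (1 - ν) * z) * (γ * ν * (1 - z) + (1 - γ + γ * ν) * z)
        - (1 - γ) * (1 - z) * z
      = γ * ν * (1 - ν) + γ * (1 - γ) * (z - ν) ^ 2 := by
  ring

/-- **CONSEQ**: `(AD4)` implies `(L')` for the generalized amplitude damping channel with
arbitrary parameters `γ, ν ∈ [0, 1]` (statement `Lprime γ ν` of the lead's interface, unfolded). -/
theorem lprime_of_AD4 (h4 : AD4) {γ ν : ℝ} (hγ : γ ∈ Set.Icc (0 : ℝ) 1)
    (hν : ν ∈ Set.Icc (0 : ℝ) 1) (d : Type) [Fintype d] [DecidableEq d]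
    (M : Matrix (Bool × d) (Bool × d) ℂ) (hM : IsDensity M) :
    Real.binEntropy ((1 + Real.sqrt (1 - 4 * (γ * ν * (1 - ν)
          + γ * (1 - γ) * ((block M true true).trace.re - ν) ^ 2))) / 2)
        + vnEntropy (block M false false) + vnEntropy (block M true true)
        - Real.binEntropy ((block M true true).trace.re)
      ≤ vnEntropy (qubitTensor (gadMap γ ν) (id : Matrix d d ℂ → Matrix d d ℂ) M) := by
  obtain ⟨hγ0, hγ1⟩ := hγ
  obtain ⟨hν0, hν1⟩ := hν
  obtain ⟨B, hB⟩ := exists_eq_conjTranspose_mul_self hM.1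
  set Bf : Matrix (Bool × d) d ℂ := B.submatrix id (fun i => (false, i)) with hBf
  set Bt : Matrix (Bool × d) d ℂ := B.submatrix id (fun i => (true, i)) with hBt
  have hX : block M false false = Bfᴴ * Bf := by
    ext i j; rw [hB]; simp [block, Matrix.mul_apply, hBf]
  have hZ : block M true true = Btᴴ * Bt := by
    ext i j; rw [hB]; simp [block, Matrix.mul_apply, hBt]
  have hY : block M false true = Bfᴴ * Bt := by
    ext i j; rw [hB]; simp [block, Matrix.mul_apply, hBf, hBt]
  have hY' : block M true false = Btᴴ * Bf := by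
    ext i j; rw [hB]; simp [block, Matrix.mul_apply, hBf, hBt]
  set X := block M false false with hXdef
  set Z := block M true true with hZdef
  have hXpsd : X.PosSemidef := hX ▸ Matrix.posSemidef_conjTranspose_mul_self Bf
  have hZpsd : Z.PosSemidef := hZ ▸ Matrix.posSemidef_conjTranspose_mul_self Bt
  set x := X.trace.re with hxdef
  set z := Z.trace.re with hzdef
  have hx0 : 0 ≤ x := trace_re_nonneg hXpsd
  have hz0 : 0 ≤ z := trace_re_nonneg hZpsd
  have hxz : x + z = 1 := by
    have h1 : M.trace = X.trace + Z.trace := by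
      simp only [Matrix.trace, Matrix.diag_apply, Fintype.sum_prod_type, Fintype.sum_bool, hXdef,
        hZdef, block, Matrix.of_apply]
      ring
    have h2 := congrArg Complex.re (h1.symm.trans hM.2)
    simpa using h2
  rw [vnEntropy_eq_fromBlocks, gad_block_ff, gad_block_ft, gad_block_tf, gad_block_tt,
    ← hXdef, ← hZdef]
  have hα0 : 0 ≤ 1 - γ * ν := by nlinarith
  rcases hα0.eq_or_lt with hα | hα
  · -- degenerate case `γ = ν = 1`
    have hγ : γ = 1 := by nlinarith
    have hν' : ν = 1 := by nlinarith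
    subst hγ hν'
    have e1 : Matrix.fromBlocks ((((1 - 1 * 1 : ℝ)) : ℂ) • X + (((1 * (1 - 1) : ℝ)) : ℂ) • Z)
        (((Real.sqrt (1 - 1) : ℝ) : ℂ) • block M false true)
        (((Real.sqrt (1 - 1) : ℝ) : ℂ) • block M true false)
        ((((1 * 1 : ℝ)) : ℂ) • X + (((1 - 1 + 1 * 1 : ℝ)) : ℂ) • Z)
        = Matrix.fromBlocks (0 : Matrix d d ℂ) 0 0 (X + Z) := by
      simp
    rw [e1, vnEntropy_fromBlocks_diag Matrix.isHermitian_zero (hXpsd.1.add hZpsd.1), vnEntropy_zero,
      zero_add]
    have h1 := vnEntropy_add_ge X Z hXpsd hZpsd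
    rw [← hxdef, ← hzdef, hxz] at h1
    have hx' : x = 1 - z := by linarith
    have hbin : Real.binEntropy z = Real.negMulLog z + Real.negMulLog x := by
      rw [Real.binEntropy_eq_negMulLog_add_negMulLog_one_sub, hx']
    have h0 : Real.binEntropy ((1 + Real.sqrt (1 - 4 * (1 * 1 * (1 - 1)
        + 1 * (1 - 1) * (z - 1) ^ 2))) / 2) = 0 := by
      norm_num
    rw [h0, hbin]
    simp only [Real.negMulLog_one] at h1
    linarith
  · set α := 1 - γ * ν with hαdef
    set c := Real.sqrt (1 - γ) with hcdef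
    have hc0 : 0 ≤ c := Real.sqrt_nonneg _
    have hc2 : c * c = 1 - γ := Real.mul_self_sqrt (by linarith)
    set sα := Real.sqrt α with hsα
    have hsα2 : sα * sα = α := Real.mul_self_sqrt hα.le
    have hsαpos : 0 < sα := Real.sqrt_pos.2 hα
    have hβ0 : 0 ≤ γ * (1 - ν) := mul_nonneg hγ0 (by linarith)
    have hα'0 : 0 ≤ γ * ν := mul_nonneg hγ0 hν0
    set κ := γ * (1 - ν) * (γ * ν) / α with hκ
    have hκ0 : 0 ≤ κ := div_nonneg (mul_nonneg hβ0 hα'0) hα.le
    have hcα0 : 0 ≤ (1 - γ) / α := div_nonneg (by linarith) hα.le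
    set a : Matrix d (Bool × d) ℂ := ((sα : ℝ) : ℂ) • Bfᴴ with ha
    set b : Matrix d (Bool × d) ℂ := ((c / sα : ℝ) : ℂ) • Btᴴ with hb
    set T0 : Matrix d d ℂ := ((γ * (1 - ν) : ℝ) : ℂ) • Z with hT0
    set T1 : Matrix d d ℂ := ((γ * ν : ℝ) : ℂ) • X + ((κ : ℝ) : ℂ) • Z with hT1
    have e1 : a * aᴴ = ((α : ℝ) : ℂ) • X := by
      rw [ha, hX, Matrix.conjTranspose_smul, Matrix.conjTranspose_conjTranspose, Matrix.smul_mul,
        Matrix.mul_smul, smul_smul]
      congr 1
      rw [Complex.star_def, Complex.conj_ofReal, ← Complex.ofReal_mul, mul_comm, hsα2]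
    have e2 : b * bᴴ = (((1 - γ) / α : ℝ) : ℂ) • Z := by
      rw [hb, hZ, Matrix.conjTranspose_smul, Matrix.conjTranspose_conjTranspose, Matrix.smul_mul,
        Matrix.mul_smul, smul_smul]
      congr 1
      rw [Complex.star_def, Complex.conj_ofReal, ← Complex.ofReal_mul, div_mul_div_comm, hc2, hsα2]
    have e3 : a * bᴴ = ((c : ℝ) : ℂ) • block M false true := by
      rw [ha, hb, hY, Matrix.conjTranspose_smul, Matrix.conjTranspose_conjTranspose,
        Matrix.smul_mul, Matrix.mul_smul, smul_smul]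
      congr 1
      rw [Complex.star_def, Complex.conj_ofReal, ← Complex.ofReal_mul]
      congr 1
      field_simp
    have e4 : b * aᴴ = ((c : ℝ) : ℂ) • block M true false := by
      rw [ha, hb, hY', Matrix.conjTranspose_smul, Matrix.conjTranspose_conjTranspose,
        Matrix.smul_mul, Matrix.mul_smul, smul_smul]
      congr 1
      rw [Complex.star_def, Complex.conj_ofReal, ← Complex.ofReal_mul]
      congr 1
      field_simp
    have hT0psd : T0.PosSemidef := posSemidef_ofReal_smul hZpsd hβ0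
    have hT1psd : T1.PosSemidef :=
      (posSemidef_ofReal_smul hXpsd hα'0).add (posSemidef_ofReal_smul hZpsd hκ0)
    have key := h4 d (Bool × d) a b T0 T1 hT0psd hT1psd
    have t1 : (a * aᴴ).trace.re = α * x := by rw [e1, trace_re_ofReal_smul]
    have t2 : (b * bᴴ).trace.re = (1 - γ) / α * z := by rw [e2, trace_re_ofReal_smul]
    have t3 : T0.trace.re = γ * (1 - ν) * z := by rw [hT0, trace_re_ofReal_smul]
    have t4 : T1.trace.re = γ * ν * x + κ * z := by
      rw [hT1, Matrix.trace_add, Complex.add_re, trace_re_ofReal_smul, trace_re_ofReal_smul]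
    rw [t1, t2, t3, t4, Psi4_scal _ _ _ _ (mul_nonneg hα.le hx0) (mul_nonneg hcα0 hz0)] at key
    unfold Psi4 at key
    rw [e1, e2, e3, e4] at key
    have hsum1 : (1 - γ) / α + γ * (1 - ν) + κ = 1 := by
      rw [hκ, hαdef]
      have : (1 - γ * ν) ≠ 0 := by rw [← hαdef]; exact hα.ne'
      field_simp
      ring
    have e6 : (((1 - γ) / α : ℝ) : ℂ) • Z + T1
        = ((γ * ν : ℝ) : ℂ) • X + ((1 - γ + γ * ν : ℝ) : ℂ) • Z := by
      rw [hT1, add_left_comm, ← add_smul, ← Complex.ofReal_add]
      congr 3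
      linarith
    rw [e6] at key
    -- the entropies of the pieces
    have hSX := vnEntropy_smul hXpsd.1 α
    have hSZ := vnEntropy_smul hZpsd.1 ((1 - γ) / α)
    have hST0 : vnEntropy T0 = γ * (1 - ν) * vnEntropy Z + Real.negMulLog (γ * (1 - ν)) * z := by
      rw [hT0, vnEntropy_smul hZpsd.1]
    have hST1 := vnEntropy_add_ge (((γ * ν : ℝ) : ℂ) • X) (((κ : ℝ) : ℂ) • Z)
      (posSemidef_ofReal_smul hXpsd hα'0) (posSemidef_ofReal_smul hZpsd hκ0)
    rw [trace_re_ofReal_smul, trace_re_ofReal_smul, vnEntropy_smul hXpsd.1, vnEntropy_smul hZpsd.1,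
      ← hT1, ← hxdef, ← hzdef] at hST1
    rw [← hxdef] at hSX
    rw [← hzdef] at hSZ
    -- the scalar `2 × 2` entropy
    set p := α * x + γ * (1 - ν) * z with hp
    set q := (1 - γ) / α * z + (γ * ν * x + κ * z) with hq
    set r := Real.sqrt (α * x) * Real.sqrt ((1 - γ) / α * z) with hr
    have hq' : q = γ * ν * x + (1 - γ + γ * ν) * z := by
      rw [hq]
      have : (1 - γ) / α * z + κ * z = (1 - γ + γ * ν) * z := by
        have h := hsum1
        have : (1 - γ) / α + κ = 1 - γ + γ * ν := by linarith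
        rw [← this]; ring
      linarith
    have hx' : x = 1 - z := by linarith
    have hrr : r * r = (1 - γ) * x * z := by
      rw [hr, mul_mul_mul_comm, Real.mul_self_sqrt (mul_nonneg hα.le hx0),
        Real.mul_self_sqrt (mul_nonneg hcα0 hz0)]
      field_simp
    have hpq : p + q = 1 := by
      rw [hq', hp, hαdef, hx']; ring
    have hdet : (qmat p q r).det.re = γ * ν * (1 - ν) + γ * (1 - γ) * (z - ν) ^ 2 := by
      rw [qmat_det, hrr, hq', hp, hαdef, hx']
      exact gad_det_identity γ ν z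
    have hS2 : vnEntropy (qmat p q r) = Real.binEntropy ((1 + Real.sqrt (1 - 4 * (γ * ν * (1 - ν)
          + γ * (1 - γ) * (z - ν) ^ 2))) / 2) := by
      rw [vnEntropy_qubit (qmat_isHermitian p q r) (by rw [qmat_trace, hpq]; simp), hdet]
    rw [hS2] at key
    -- logarithm bookkeeping
    have l1 := Real.negMulLog_mul α x
    have l2 := Real.negMulLog_mul ((1 - γ) / α) z
    have l3 := Real.negMulLog_mul (γ * (1 - ν)) z
    have l4 := Real.negMulLog_mul (γ * ν) x
    have l5 := Real.negMulLog_mul κ z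
    have hbin : Real.binEntropy z = Real.negMulLog z + Real.negMulLog x := by
      rw [Real.binEntropy_eq_negMulLog_add_negMulLog_one_sub, hx']
    have i1 : α * vnEntropy X + γ * ν * vnEntropy X = vnEntropy X := by rw [hαdef]; ring
    have i2 : (1 - γ) / α * vnEntropy Z + γ * (1 - ν) * vnEntropy Z + κ * vnEntropy Z
        = vnEntropy Z := by
      rw [← add_mul, ← add_mul, hsum1, one_mul]
    have i3 : α * Real.negMulLog x + γ * ν * Real.negMulLog x = Real.negMulLog x := by
      rw [hαdef]; ring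
    have i4 : (1 - γ) / α * Real.negMulLog z + γ * (1 - ν) * Real.negMulLog z
        + κ * Real.negMulLog z = Real.negMulLog z := by
      rw [← add_mul, ← add_mul, hsum1, one_mul]
    rw [hbin]
    linarith

end Crest.Agent.GAD.Conseq
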