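import Mathlib

/-!
# [RES] and [DET]: the elementary replacement of Fiedler's inequality (row 341, lane B; helper75)

For unitary frames `U`, `V` and real weights `a`, `b` with `a i + b j > 0`, put
`M = U diag(a) Uᴴ + V diag(b) Vᴴ` and `P i j = |(Uᴴ V) i j|²` (a doubly stochastic matrix).

* `res`: `tr Y ≤ ∑ P i j / (a i + b j)` for every Hermitian `Y` with `Y M Y = Y`
  (in particular `Y = M⁻¹`); a weighted Cauchy–Schwarz inequality.
* `det_ge_frame`: `∑ P i j * log (a i + b j) ≤ log det M` when `a > 0`, `b ≥ 0`.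

Only Mathlib is used.
-/

set_option autoImplicit false

open Matrix
open scoped ComplexOrder

namespace Crest.Agent.GAD.ResDet75

variable {n : Type*} [Fintype n] [DecidableEq n]

/-- The pairing weights `P i j = |⟨e_i, f_j⟩|²` of two frames `U`, `V` (columns `e_i`, `f_j`). -/
noncomputable def pairW (U V : Matrix n n ℂ) (i j : n) : ℝ := Complex.normSq ((Uᴴ * V) i j)

theorem pairW_nonneg (U V : Matrix n n ℂ) (i j : n) : 0 ≤ pairW U V i j :=
  Complex.normSq_nonneg _

theorem frame_mul_conjTranspose {U V : Matrix n n ℂ} (hU : U * Uᴴ = 1) (hV : V * Vᴴ = 1) :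
    (Uᴴ * V) * (Uᴴ * V)ᴴ = 1 := by
  have hU' : Uᴴ * U = 1 := mul_eq_one_comm.mp hU
  rw [Matrix.conjTranspose_mul, Matrix.conjTranspose_conjTranspose]
  calc Uᴴ * V * (Vᴴ * U) = Uᴴ * (V * Vᴴ) * U := by simp only [Matrix.mul_assoc]
    _ = 1 := by rw [hV, Matrix.mul_one, hU']

theorem frame_conjTranspose_mul {U V : Matrix n n ℂ} (hU : U * Uᴴ = 1) (hV : V * Vᴴ = 1) :
    (Uᴴ * V)ᴴ * (Uᴴ * V) = 1 :=
  mul_eq_one_comm.mp (frame_mul_conjTranspose hU hV)

/-- Row sums of the pairing weights are `1`. -/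
theorem pairW_row_sum {U V : Matrix n n ℂ} (hU : U * Uᴴ = 1) (hV : V * Vᴴ = 1) (i : n) :
    ∑ j, pairW U V i j = 1 := by
  have h2 := congrFun (congrFun (frame_mul_conjTranspose hU hV) i) i
  rw [Matrix.mul_apply] at h2
  simp only [Matrix.conjTranspose_apply, Matrix.one_apply_eq] at h2
  have h3 : ((∑ j, pairW U V i j : ℝ) : ℂ) = 1 := by
    rw [← h2]; push_cast
    refine Finset.sum_congr rfl fun j _ => ?_
    simp [pairW, Complex.mul_conj]
  exact_mod_cast h3

/-- Column sums of the pairing weights are `1`. -/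
theorem pairW_col_sum {U V : Matrix n n ℂ} (hU : U * Uᴴ = 1) (hV : V * Vᴴ = 1) (j : n) :
    ∑ i, pairW U V i j = 1 := by
  have h2 := congrFun (congrFun (frame_conjTranspose_mul hU hV) j) j
  rw [Matrix.mul_apply] at h2
  simp only [Matrix.conjTranspose_apply, Matrix.one_apply_eq] at h2
  have h3 : ((∑ i, pairW U V i j : ℝ) : ℂ) = 1 := by
    rw [← h2]; push_cast
    refine Finset.sum_congr rfl fun i _ => ?_
    simp [pairW, Complex.mul_conj, mul_comm]
  exact_mod_cast h3


/-- **[RES]**: weighted Cauchy–Schwarz bound for the trace of a Hermitian `Y` with `Y M Y = Y`,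
`M = U diag(a) Uᴴ + V diag(b) Vᴴ` (e.g. `Y = M⁻¹`): `tr Y ≤ ∑ P i j / (a i + b j)`. -/
theorem res {U V : Matrix n n ℂ} (hU : U * Uᴴ = 1) (hV : V * Vᴴ = 1) (a b : n → ℝ)
    (hab : ∀ i j, 0 < a i + b j) {Y : Matrix n n ℂ} (hY : Y.IsHermitian)
    (hYM : Y * (U * diagonal (fun i => (a i : ℂ)) * Uᴴ
        + V * diagonal (fun j => (b j : ℂ)) * Vᴴ) * Y = Y) :
    Y.trace.re ≤ ∑ i, ∑ j, pairW U V i j / (a i + b j) := by
  have hU' : Uᴴ * U = 1 := mul_eq_one_comm.mp hU
  have hV' : Vᴴ * V = 1 := mul_eq_one_comm.mp hV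
  set y : Matrix n n ℂ := Uᴴ * Y * V with hy
  set W : Matrix n n ℂ := Uᴴ * V with hW
  have hyH : yᴴ = Vᴴ * Y * U := by
    rw [hy, Matrix.conjTranspose_mul, Matrix.conjTranspose_mul,
      Matrix.conjTranspose_conjTranspose, hY.eq, Matrix.mul_assoc]
  -- Step A: `tr Y = ∑ y i j * conj (W i j)`
  have hA : Y.trace = ∑ i, ∑ j, y i j * star (W i j) := by
    have h1 : y * Wᴴ = Uᴴ * Y * U := by
      rw [hy, hW, Matrix.conjTranspose_mul, Matrix.conjTranspose_conjTranspose]
      calc Uᴴ * Y * V * (Vᴴ * U) = Uᴴ * Y * (V * Vᴴ) * U := by simp only [Matrix.mul_assoc]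
        _ = Uᴴ * Y * U := by rw [hV, Matrix.mul_one]
    have h2 : (y * Wᴴ).trace = Y.trace := by
      rw [h1, Matrix.trace_mul_cycle, hU, Matrix.one_mul]
    rw [← h2, Matrix.trace]
    simp only [Matrix.diag_apply, Matrix.mul_apply, Matrix.conjTranspose_apply]
  -- Step B: `tr Y = ∑ (a i + b j) |y i j|²`
  have hB1 : (Y * (U * diagonal (fun i => (a i : ℂ)) * Uᴴ) * Y).trace
      = ∑ i, ∑ j, (a i : ℂ) * (Complex.normSq (y i j) : ℂ) := by
    have e0 : y * yᴴ = Uᴴ * Y * Y * U := by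
      rw [hyH, hy]
      calc Uᴴ * Y * V * (Vᴴ * Y * U) = Uᴴ * Y * (V * Vᴴ) * Y * U := by
            simp only [Matrix.mul_assoc]
        _ = Uᴴ * Y * Y * U := by rw [hV, Matrix.mul_one]
    have e1 : (Y * (U * diagonal (fun i => (a i : ℂ)) * Uᴴ) * Y).trace
        = (diagonal (fun i => (a i : ℂ)) * (y * yᴴ)).trace := by
      rw [e0]
      calc (Y * (U * diagonal (fun i => (a i : ℂ)) * Uᴴ) * Y).trace
          = ((Y * U) * (diagonal (fun i => (a i : ℂ)) * (Uᴴ * Y))).trace := by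
            simp only [Matrix.mul_assoc]
        _ = ((diagonal (fun i => (a i : ℂ)) * (Uᴴ * Y)) * (Y * U)).trace :=
            Matrix.trace_mul_comm _ _
        _ = (diagonal (fun i => (a i : ℂ)) * (Uᴴ * Y * Y * U)).trace := by
            simp only [Matrix.mul_assoc]
    rw [e1, Matrix.trace]
    simp only [Matrix.diag_apply, Matrix.diagonal_mul]
    simp only [Matrix.mul_apply, Matrix.conjTranspose_apply]
    refine Finset.sum_congr rfl fun i _ => ?_
    rw [Finset.mul_sum]
    refine Finset.sum_congr rfl fun j _ => ?_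
    rw [← Complex.mul_conj]; rfl
  have hB2 : (Y * (V * diagonal (fun j => (b j : ℂ)) * Vᴴ) * Y).trace
      = ∑ i, ∑ j, (b j : ℂ) * (Complex.normSq (y i j) : ℂ) := by
    have e0 : yᴴ * y = Vᴴ * Y * Y * V := by
      rw [hyH, hy]
      calc Vᴴ * Y * U * (Uᴴ * Y * V) = Vᴴ * Y * (U * Uᴴ) * Y * V := by
            simp only [Matrix.mul_assoc]
        _ = Vᴴ * Y * Y * V := by rw [hU, Matrix.mul_one]
    have e1 : (Y * (V * diagonal (fun j => (b j : ℂ)) * Vᴴ) * Y).trace
        = (diagonal (fun j => (b j : ℂ)) * (yᴴ * y)).trace := by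
      rw [e0]
      calc (Y * (V * diagonal (fun j => (b j : ℂ)) * Vᴴ) * Y).trace
          = ((Y * V) * (diagonal (fun j => (b j : ℂ)) * (Vᴴ * Y))).trace := by
            simp only [Matrix.mul_assoc]
        _ = ((diagonal (fun j => (b j : ℂ)) * (Vᴴ * Y)) * (Y * V)).trace :=
            Matrix.trace_mul_comm _ _
        _ = (diagonal (fun j => (b j : ℂ)) * (Vᴴ * Y * Y * V)).trace := by
            simp only [Matrix.mul_assoc]
    rw [e1, Matrix.trace, Finset.sum_comm]
    simp only [Matrix.diag_apply, Matrix.diagonal_mul]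
    simp only [Matrix.mul_apply, Matrix.conjTranspose_apply]
    refine Finset.sum_congr rfl fun j _ => ?_
    rw [Finset.mul_sum]
    refine Finset.sum_congr rfl fun i _ => ?_
    rw [← Complex.mul_conj, mul_comm (y i j)]; rfl
  have hB : Y.trace = ∑ i, ∑ j, ((a i + b j : ℝ) : ℂ) * (Complex.normSq (y i j) : ℂ) := by
    have h := congrArg Matrix.trace hYM
    rw [Matrix.mul_add, Matrix.add_mul, Matrix.trace_add, hB1, hB2] at h
    rw [← h, ← Finset.sum_add_distrib]
    refine Finset.sum_congr rfl fun i _ => ?_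
    rw [← Finset.sum_add_distrib]
    refine Finset.sum_congr rfl fun j _ => ?_
    push_cast; ring
  -- real forms
  set T : ℝ := Y.trace.re with hT
  have hT1 : T ≤ ∑ p : n × n, ‖y p.1 p.2‖ * ‖W p.1 p.2‖ := by
    rw [hT, hA, Fintype.sum_prod_type' (fun i j => ‖y i j‖ * ‖W i j‖), Complex.re_sum]
    refine Finset.sum_le_sum fun i _ => ?_
    rw [Complex.re_sum]
    refine Finset.sum_le_sum fun j _ => ?_
    calc (y i j * star (W i j)).re ≤ ‖y i j * star (W i j)‖ := Complex.re_le_norm _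
      _ = ‖y i j‖ * ‖W i j‖ := by rw [norm_mul, norm_star]
  have hT2 : T = ∑ p : n × n, (a p.1 + b p.2) * ‖y p.1 p.2‖ ^ 2 := by
    rw [hT, hB, Fintype.sum_prod_type' (fun i j => (a i + b j) * ‖y i j‖ ^ 2), Complex.re_sum]
    refine Finset.sum_congr rfl fun i _ => ?_
    rw [Complex.re_sum]
    refine Finset.sum_congr rfl fun j _ => ?_
    rw [← Complex.ofReal_mul, Complex.ofReal_re, Complex.normSq_eq_norm_sq]
  have hR : ∑ i, ∑ j, pairW U V i j / (a i + b j)
      = ∑ p : n × n, ‖W p.1 p.2‖ ^ 2 / (a p.1 + b p.2) := by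
    rw [Fintype.sum_prod_type' (fun i j => ‖W i j‖ ^ 2 / (a i + b j))]
    refine Finset.sum_congr rfl fun i _ => Finset.sum_congr rfl fun j _ => ?_
    rw [pairW, Complex.normSq_eq_norm_sq]
  rw [hR]
  set R : ℝ := ∑ p : n × n, ‖W p.1 p.2‖ ^ 2 / (a p.1 + b p.2) with hRdef
  have hR0 : 0 ≤ R := Finset.sum_nonneg fun p _ => div_nonneg (by positivity) (hab p.1 p.2).le
  -- Cauchy–Schwarz
  have hCS : (∑ p : n × n, ‖y p.1 p.2‖ * ‖W p.1 p.2‖) ^ 2 ≤ T * R := by
    have h := Finset.sum_mul_sq_le_sq_mul_sq (Finset.univ : Finset (n × n))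
      (fun p => Real.sqrt (a p.1 + b p.2) * ‖y p.1 p.2‖)
      (fun p => ‖W p.1 p.2‖ / Real.sqrt (a p.1 + b p.2))
    have e1 : ∀ p : n × n, Real.sqrt (a p.1 + b p.2) * ‖y p.1 p.2‖
        * (‖W p.1 p.2‖ / Real.sqrt (a p.1 + b p.2)) = ‖y p.1 p.2‖ * ‖W p.1 p.2‖ := by
      intro p
      have hs : Real.sqrt (a p.1 + b p.2) ≠ 0 := (Real.sqrt_pos.mpr (hab p.1 p.2)).ne'
      field_simp
    have e2 : ∀ p : n × n, (Real.sqrt (a p.1 + b p.2) * ‖y p.1 p.2‖) ^ 2
        = (a p.1 + b p.2) * ‖y p.1 p.2‖ ^ 2 := by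
      intro p
      rw [mul_pow, Real.sq_sqrt (hab p.1 p.2).le]
    have e3 : ∀ p : n × n, (‖W p.1 p.2‖ / Real.sqrt (a p.1 + b p.2)) ^ 2
        = ‖W p.1 p.2‖ ^ 2 / (a p.1 + b p.2) := by
      intro p
      rw [div_pow, Real.sq_sqrt (hab p.1 p.2).le]
    simp only [e1, e2, e3] at h
    rw [hT2]
    exact h
  by_cases hT0 : T ≤ 0
  · exact hT0.trans hR0
  · have hT0 := not_le.mp hT0
    have h1 : T ^ 2 ≤ T * R := by
      calc T ^ 2 ≤ (∑ p : n × n, ‖y p.1 p.2‖ * ‖W p.1 p.2‖) ^ 2 :=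
            pow_le_pow_left₀ hT0.le hT1 2
        _ ≤ T * R := hCS
    have h2 : T * T ≤ T * R := by rw [← sq]; exact h1
    exact le_of_mul_le_mul_left h2 hT0


/-! ### From the resolvent inequality to the log-determinant inequality -/

/-- Scalar step: if `∑ 1/(l k + t) ≤ ∑ w p/(c p + t)` for all `t > 0` and the weights `w` sum to
the number of the `l k`, then `∑ w p log (c p) ≤ ∑ log (l k)`
(the difference is antitone in `t` and tends to `0`). -/
theorem scalar_log_ge {ι κ : Type*} [Fintype ι] [Fintype κ] (l : ι → ℝ) (c w : κ → ℝ)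
    (hl : ∀ k, 0 < l k) (hc : ∀ p, 0 < c p) (hcard : ∑ p, w p = Fintype.card ι)
    (hder : ∀ t : ℝ, 0 < t → ∑ k, (l k + t)⁻¹ ≤ ∑ p, w p * (c p + t)⁻¹) :
    ∑ p, w p * Real.log (c p) ≤ ∑ k, Real.log (l k) := by
  set g : ℝ → ℝ := fun t => ∑ k, Real.log (l k + t) - ∑ p, w p * Real.log (c p + t) with hg
  have hlog : ∀ (x : ℝ), 0 < x → ∀ t : ℝ, 0 ≤ t →
      HasDerivAt (fun t => Real.log (x + t)) ((x + t)⁻¹) t := by
    intro x hx t ht
    have h := ((hasDerivAt_id t).const_add x).log (by simp only [id]; positivity)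
    simpa using h
  have hderiv : ∀ t : ℝ, 0 ≤ t →
      HasDerivAt g (∑ k, (l k + t)⁻¹ - ∑ p, w p * (c p + t)⁻¹) t := by
    intro t ht
    exact (HasDerivAt.fun_sum fun k _ => hlog (l k) (hl k) t ht).sub
      (HasDerivAt.fun_sum fun p _ => (hlog (c p) (hc p) t ht).const_mul (w p))
  have hanti : AntitoneOn g (Set.Ici 0) := by
    refine antitoneOn_of_deriv_nonpos (convex_Ici 0) ?_ ?_ ?_
    · exact fun t ht => (hderiv t ht).continuousAt.continuousWithinAt
    · rw [interior_Ici]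
      exact fun t ht => (hderiv t (le_of_lt ht)).differentiableAt.differentiableWithinAt
    · rw [interior_Ici]
      intro t ht
      rw [(hderiv t (le_of_lt ht)).deriv]
      exact sub_nonpos.mpr (hder t ht)
  have hlim1 : ∀ x : ℝ, Filter.Tendsto (fun t : ℝ => Real.log (x + t) - Real.log t)
      Filter.atTop (nhds 0) := by
    intro x
    have h1 : Filter.Tendsto (fun t : ℝ => x / t + 1) Filter.atTop (nhds (0 + 1)) :=
      (tendsto_const_nhds.div_atTop Filter.tendsto_id).add tendsto_const_nhds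
    have h2 : Filter.Tendsto (fun t : ℝ => Real.log (x / t + 1)) Filter.atTop (nhds 0) := by
      have h3 := (Real.continuousAt_log (x := (0:ℝ) + 1) (by norm_num)).tendsto.comp h1
      simp only [zero_add, Real.log_one] at h3
      exact h3
    refine h2.congr' ?_
    filter_upwards [Filter.eventually_gt_atTop (0:ℝ), Filter.eventually_gt_atTop (-x)] with t ht htx
    have hxt : x + t ≠ 0 := by linarith
    rw [← Real.log_div hxt ht.ne']
    congr 1
    field_simp
  have hlim : Filter.Tendsto g Filter.atTop (nhds 0) := by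
    have h1 : Filter.Tendsto (fun t : ℝ => ∑ k, (Real.log (l k + t) - Real.log t)
        - ∑ p, w p * (Real.log (c p + t) - Real.log t)) Filter.atTop (nhds (∑ _k : ι, (0:ℝ)
        - ∑ p, w p * 0)) :=
      (tendsto_finsetSum _ fun k _ => hlim1 (l k)).sub
        (tendsto_finsetSum _ fun p _ => (hlim1 (c p)).const_mul (w p))
    have h2 : (∑ _k : ι, (0:ℝ) - ∑ p, w p * 0) = 0 := by simp
    rw [h2] at h1
    refine h1.congr' (Filter.Eventually.of_forall fun t => ?_)
    simp only [hg, Finset.sum_sub_distrib, mul_sub, ← Finset.sum_mul, hcard, Finset.sum_const,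
      Finset.card_univ, nsmul_eq_mul]
    ring
  have hge : 0 ≤ g 0 := by
    refine le_of_tendsto hlim ?_
    filter_upwards [Filter.eventually_ge_atTop (0:ℝ)] with t ht
    exact hanti (Set.mem_Ici.mpr le_rfl) (Set.mem_Ici.mpr ht) ht
  have hg0 : g 0 = ∑ k, Real.log (l k) - ∑ p, w p * Real.log (c p) := by
    simp [hg]
  linarith


/-! ### Frame matrices `U diag(a) Uᴴ` -/

theorem frame_isHermitian (U : Matrix n n ℂ) (a : n → ℝ) :
    (U * diagonal (fun i => (a i : ℂ)) * Uᴴ).IsHermitian := by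
  have hd : (diagonal (fun i => (a i : ℂ)))ᴴ = diagonal (fun i => (a i : ℂ)) := by
    rw [Matrix.diagonal_conjTranspose]
    congr 1
    funext i
    simp
  unfold Matrix.IsHermitian
  rw [Matrix.conjTranspose_mul, Matrix.conjTranspose_mul, Matrix.conjTranspose_conjTranspose, hd,
    Matrix.mul_assoc]

theorem frame_posDef {U : Matrix n n ℂ} (hU : U * Uᴴ = 1) {a : n → ℝ} (ha : ∀ i, 0 < a i) :
    (U * diagonal (fun i => (a i : ℂ)) * Uᴴ).PosDef := by
  have hd : (diagonal (fun i => (a i : ℂ))).PosDef :=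
    PosDef.diagonal fun i => Complex.zero_lt_real.mpr (ha i)
  refine hd.mul_mul_conjTranspose_same ?_
  intro x y h
  have h2 := congrArg (fun v => v ᵥ* Uᴴ) h
  simpa [Matrix.vecMul_vecMul, hU] using h2

theorem frame_posSemidef (U : Matrix n n ℂ) {b : n → ℝ} (hb : ∀ i, 0 ≤ b i) :
    (U * diagonal (fun i => (b i : ℂ)) * Uᴴ).PosSemidef :=
  (PosSemidef.diagonal fun i => Complex.zero_le_real.mpr (hb i)).mul_mul_conjTranspose_same U

/-- Shifting the weights of a unitary frame matrix shifts the matrix by a multiple of `1`. -/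
theorem frame_add_smul {U : Matrix n n ℂ} (hU : U * Uᴴ = 1) (a : n → ℝ) (t : ℝ) :
    U * diagonal (fun i => ((a i + t : ℝ) : ℂ)) * Uᴴ
      = U * diagonal (fun i => (a i : ℂ)) * Uᴴ + (t : ℂ) • (1 : Matrix n n ℂ) := by
  have hd : diagonal (fun i => ((a i + t : ℝ) : ℂ))
      = diagonal (fun i => (a i : ℂ)) + (t : ℂ) • (1 : Matrix n n ℂ) := by
    ext i j
    by_cases hij : i = j
    · subst hij; simp
    · simp [hij]
  rw [hd, Matrix.mul_add, Matrix.add_mul, Matrix.mul_smul, Matrix.smul_mul, Matrix.mul_one, hU]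

/-- `tr (U diag(d) Uᴴ) = ∑ d` for a unitary frame. -/
theorem frame_trace {U : Matrix n n ℂ} (hU : U * Uᴴ = 1) (d : n → ℂ) :
    (U * diagonal d * Uᴴ).trace = ∑ k, d k := by
  have hU' : Uᴴ * U = 1 := mul_eq_one_comm.mp hU
  rw [Matrix.trace_mul_cycle, hU', Matrix.one_mul, Matrix.trace_diagonal]

/-- The spectral theorem in frame form. -/
theorem exists_frame {M : Matrix n n ℂ} (hM : M.IsHermitian) :
    ∃ Q : Matrix n n ℂ, Q * Qᴴ = 1 ∧ M = Q * diagonal (fun k => (hM.eigenvalues k : ℂ)) * Qᴴ := by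
  refine ⟨(hM.eigenvectorUnitary : Matrix n n ℂ), ?_, ?_⟩
  · have h := Unitary.mul_star_self_of_mem hM.eigenvectorUnitary.2
    simpa [Matrix.star_eq_conjTranspose] using h
  · have h := hM.spectral_theorem
    simpa [Unitary.conjStarAlgAut_apply, Matrix.star_eq_conjTranspose, Function.comp_def] using h

/-- **[DET]** in frame form: for unitary frames `U`, `V`, weights `a > 0`, `b ≥ 0`,
`∑ P i j log (a i + b j) ≤ log det (U diag(a) Uᴴ + V diag(b) Vᴴ)`. -/
theorem det_ge_frame {U V : Matrix n n ℂ} (hU : U * Uᴴ = 1) (hV : V * Vᴴ = 1) (a b : n → ℝ)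
    (ha : ∀ i, 0 < a i) (hb : ∀ j, 0 ≤ b j) :
    ∑ i, ∑ j, pairW U V i j * Real.log (a i + b j)
      ≤ Real.log (U * diagonal (fun i => (a i : ℂ)) * Uᴴ
          + V * diagonal (fun j => (b j : ℂ)) * Vᴴ).det.re := by
  set M : Matrix n n ℂ := U * diagonal (fun i => (a i : ℂ)) * Uᴴ
    + V * diagonal (fun j => (b j : ℂ)) * Vᴴ with hM
  have hMpd : M.PosDef := (frame_posDef hU ha).add_posSemidef (frame_posSemidef V hb)
  have hMh : M.IsHermitian := hMpd.isHermitian
  obtain ⟨Q, hQ, hspec⟩ := exists_frame hMh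
  have hQ' : Qᴴ * Q = 1 := mul_eq_one_comm.mp hQ
  set l : n → ℝ := hMh.eigenvalues with hl
  have hlpos : ∀ k, 0 < l k := fun k => hMpd.eigenvalues_pos k
  have hdet : Real.log M.det.re = ∑ k, Real.log (l k) := by
    have h1 : M.det = ((∏ i, l i : ℝ) : ℂ) := by
      rw [hMh.det_eq_prod_eigenvalues, Complex.ofReal_prod]
      rfl
    rw [h1, Complex.ofReal_re, Real.log_prod]
    intro i _
    exact (hlpos i).ne'
  rw [hdet]
  have key := scalar_log_ge (ι := n) (κ := n × n) l (fun p => a p.1 + b p.2)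
    (fun p => pairW U V p.1 p.2) hlpos (fun p => add_pos_of_pos_of_nonneg (ha p.1) (hb p.2))
    (by
      rw [Fintype.sum_prod_type' (fun i j => pairW U V i j)]
      simp [pairW_row_sum hU hV])
    (by
      intro t ht
      -- the resolvent `Z = (M + t)⁻¹` in frame form
      set Z : Matrix n n ℂ := Q * diagonal (fun k => (((l k + t)⁻¹ : ℝ) : ℂ)) * Qᴴ with hZ
      have hZh : Z.IsHermitian := frame_isHermitian Q _
      have hMt : U * diagonal (fun i => ((a i + t : ℝ) : ℂ)) * Uᴴ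
          + V * diagonal (fun j => (b j : ℂ)) * Vᴴ
          = Q * diagonal (fun k => ((l k + t : ℝ) : ℂ)) * Qᴴ := by
        rw [frame_add_smul hU, frame_add_smul hQ, ← hspec, hM]
        abel
      have hZM : Z * (U * diagonal (fun i => ((a i + t : ℝ) : ℂ)) * Uᴴ
          + V * diagonal (fun j => (b j : ℂ)) * Vᴴ) = 1 := by
        rw [hMt, hZ]
        calc Q * diagonal (fun k => (((l k + t)⁻¹ : ℝ) : ℂ)) * Qᴴ
              * (Q * diagonal (fun k => ((l k + t : ℝ) : ℂ)) * Qᴴ)
            = Q * (diagonal (fun k => (((l k + t)⁻¹ : ℝ) : ℂ)) * (Qᴴ * Q)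
                * diagonal (fun k => ((l k + t : ℝ) : ℂ))) * Qᴴ := by
              simp only [Matrix.mul_assoc]
          _ = Q * (diagonal (fun k => (((l k + t)⁻¹ : ℝ) : ℂ))
                * diagonal (fun k => ((l k + t : ℝ) : ℂ))) * Qᴴ := by
              rw [hQ', Matrix.mul_one]
          _ = 1 := by
              rw [Matrix.diagonal_mul_diagonal]
              have h1 : (fun k => (((l k + t)⁻¹ : ℝ) : ℂ) * ((l k + t : ℝ) : ℂ))
                  = fun _ => (1 : ℂ) := by
                funext k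
                have hne : l k + t ≠ 0 := by have := hlpos k; linarith
                rw [← Complex.ofReal_mul, inv_mul_cancel₀ hne, Complex.ofReal_one]
              rw [h1, Matrix.diagonal_one, Matrix.mul_one, hQ]
      have hZMZ : Z * (U * diagonal (fun i => ((a i + t : ℝ) : ℂ)) * Uᴴ
          + V * diagonal (fun j => (b j : ℂ)) * Vᴴ) * Z = Z := by
        rw [hZM, Matrix.one_mul]
      have hres := res hU hV (fun i => a i + t) b
        (fun i j => by have := ha i; have := hb j; linarith) hZh hZMZ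
      have htr : Z.trace.re = ∑ k, (l k + t)⁻¹ := by
        rw [hZ, frame_trace hQ, Complex.re_sum]
        refine Finset.sum_congr rfl fun k _ => ?_
        rw [Complex.ofReal_re]
      rw [htr] at hres
      rw [Fintype.sum_prod_type' (fun i j => pairW U V i j * (a i + b j + t)⁻¹)]
      refine hres.trans (le_of_eq ?_)
      refine Finset.sum_congr rfl fun i _ => Finset.sum_congr rfl fun j _ => ?_
      rw [div_eq_mul_inv]
      congr 2
      ring)
  rw [Fintype.sum_prod_type' (fun i j => pairW U V i j * Real.log (a i + b j))] at key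
  exact key


/-! ### The form used in the proof of (AD4): the log-det defect of `1 + A + B` -/

/-- `det (Q diag(d) Qᴴ) = ∏ d` for a unitary frame. -/
theorem frame_det {Q : Matrix n n ℂ} (hQ : Q * Qᴴ = 1) (d : n → ℂ) :
    (Q * diagonal d * Qᴴ).det = ∏ k, d k := by
  have hQ' : Qᴴ * Q = 1 := mul_eq_one_comm.mp hQ
  have h1 : Qᴴ.det * Q.det = 1 := by rw [← Matrix.det_mul, hQ', Matrix.det_one]
  rw [Matrix.det_mul, Matrix.det_mul, Matrix.det_diagonal]
  calc Q.det * (∏ k, d k) * Qᴴ.det = (Qᴴ.det * Q.det) * ∏ k, d k := by ring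
    _ = ∏ k, d k := by rw [h1, one_mul]

/-- `1 + Q diag(l) Qᴴ = Q diag(1 + l) Qᴴ` for a unitary frame. -/
theorem one_add_frame {Q : Matrix n n ℂ} (hQ : Q * Qᴴ = 1) (l : n → ℝ) :
    1 + Q * diagonal (fun k => (l k : ℂ)) * Qᴴ
      = Q * diagonal (fun k => ((1 + l k : ℝ) : ℂ)) * Qᴴ := by
  have h := frame_add_smul hQ l 1
  have e : (fun k => ((1 + l k : ℝ) : ℂ)) = fun k => ((l k + 1 : ℝ) : ℂ) := by
    funext k; rw [add_comm]
  rw [e, h, Complex.ofReal_one, one_smul, add_comm]

/-- `log det (1 + Q diag(l) Qᴴ) = ∑ log (1 + l k)` for a unitary frame and `l ≥ 0`. -/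
theorem log_det_one_add_frame {Q : Matrix n n ℂ} (hQ : Q * Qᴴ = 1) {l : n → ℝ}
    (hl : ∀ k, 0 ≤ l k) :
    Real.log (1 + Q * diagonal (fun k => (l k : ℂ)) * Qᴴ).det.re = ∑ k, Real.log (1 + l k) := by
  rw [one_add_frame hQ, frame_det hQ, ← Complex.ofReal_prod, Complex.ofReal_re, Real.log_prod]
  intro k _
  have := hl k
  positivity

/-- The coherence kernel `κ(α, β) = log (1+α) + log (1+β) - log (1+α+β)`. -/
noncomputable def kap (α β : ℝ) : ℝ :=
  Real.log (1 + α) + Real.log (1 + β) - Real.log (1 + α + β)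

/-- **Log-det defect, frame form**: for unitary frames `U`, `V` and weights `α, β ≥ 0`,
`log det(1+A) + log det(1+B) - log det(1+A+B) ≤ ∑ P i j κ(α i, β j)`,
`A = U diag(α) Uᴴ`, `B = V diag(β) Vᴴ`. -/
theorem logdet_defect_le_frame {U V : Matrix n n ℂ} (hU : U * Uᴴ = 1) (hV : V * Vᴴ = 1)
    {α β : n → ℝ} (hα : ∀ i, 0 ≤ α i) (hβ : ∀ j, 0 ≤ β j) :
    Real.log (1 + U * diagonal (fun i => (α i : ℂ)) * Uᴴ).det.re
      + Real.log (1 + V * diagonal (fun j => (β j : ℂ)) * Vᴴ).det.re
      - Real.log (1 + U * diagonal (fun i => (α i : ℂ)) * Uᴴ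
          + V * diagonal (fun j => (β j : ℂ)) * Vᴴ).det.re
      ≤ ∑ i, ∑ j, pairW U V i j * kap (α i) (β j) := by
  have h1 := det_ge_frame hU hV (fun i => 1 + α i) β
    (fun i => by have := hα i; linarith) hβ
  rw [← one_add_frame hU] at h1
  rw [log_det_one_add_frame hU hα, log_det_one_add_frame hV hβ]
  have e1 : ∑ i, Real.log (1 + α i) = ∑ i, ∑ j, pairW U V i j * Real.log (1 + α i) := by
    refine Finset.sum_congr rfl fun i _ => ?_
    rw [← Finset.sum_mul, pairW_row_sum hU hV, one_mul]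
  have e2 : ∑ j, Real.log (1 + β j) = ∑ i, ∑ j, pairW U V i j * Real.log (1 + β j) := by
    rw [Finset.sum_comm]
    refine Finset.sum_congr rfl fun j _ => ?_
    rw [← Finset.sum_mul, pairW_col_sum hU hV, one_mul]
  have e3 : ∑ i, ∑ j, pairW U V i j * kap (α i) (β j)
      = ∑ i, ∑ j, pairW U V i j * Real.log (1 + α i)
        + ∑ i, ∑ j, pairW U V i j * Real.log (1 + β j)
        - ∑ i, ∑ j, pairW U V i j * Real.log (1 + α i + β j) := by
    rw [← Finset.sum_add_distrib, ← Finset.sum_sub_distrib]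
    refine Finset.sum_congr rfl fun i _ => ?_
    rw [← Finset.sum_add_distrib, ← Finset.sum_sub_distrib]
    refine Finset.sum_congr rfl fun j _ => ?_
    unfold kap
    ring
  rw [e3, ← e1, ← e2]
  linarith

/-- **Log-det defect** for positive semidefinite `A`, `B` with Mathlib's eigen-data. -/
theorem logdet_defect_le {A B : Matrix n n ℂ} (hA : A.PosSemidef) (hB : B.PosSemidef) :
    Real.log (1 + A).det.re + Real.log (1 + B).det.re - Real.log (1 + A + B).det.re
      ≤ ∑ i, ∑ j, pairW (hA.1.eigenvectorUnitary : Matrix n n ℂ)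
            (hB.1.eigenvectorUnitary : Matrix n n ℂ) i j
          * kap (hA.1.eigenvalues i) (hB.1.eigenvalues j) := by
  have hU : (hA.1.eigenvectorUnitary : Matrix n n ℂ) * (hA.1.eigenvectorUnitary : Matrix n n ℂ)ᴴ
      = 1 := by
    have h := Unitary.mul_star_self_of_mem hA.1.eigenvectorUnitary.2
    simpa [Matrix.star_eq_conjTranspose] using h
  have hV : (hB.1.eigenvectorUnitary : Matrix n n ℂ) * (hB.1.eigenvectorUnitary : Matrix n n ℂ)ᴴ
      = 1 := by
    have h := Unitary.mul_star_self_of_mem hB.1.eigenvectorUnitary.2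
    simpa [Matrix.star_eq_conjTranspose] using h
  have hAs : A = (hA.1.eigenvectorUnitary : Matrix n n ℂ)
      * diagonal (fun k => (hA.1.eigenvalues k : ℂ)) * (hA.1.eigenvectorUnitary : Matrix n n ℂ)ᴴ := by
    have h := hA.1.spectral_theorem
    simpa [Unitary.conjStarAlgAut_apply, Matrix.star_eq_conjTranspose, Function.comp_def] using h
  have hBs : B = (hB.1.eigenvectorUnitary : Matrix n n ℂ)
      * diagonal (fun k => (hB.1.eigenvalues k : ℂ)) * (hB.1.eigenvectorUnitary : Matrix n n ℂ)ᴴ := by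
    have h := hB.1.spectral_theorem
    simpa [Unitary.conjStarAlgAut_apply, Matrix.star_eq_conjTranspose, Function.comp_def] using h
  have key := logdet_defect_le_frame hU hV hA.eigenvalues_nonneg hB.eigenvalues_nonneg
  rw [← hAs, ← hBs] at key
  exact key

/-- Row and column sums of the pairing weights of two Hermitian matrices. -/
theorem pairW_eigen_row_sum {A B : Matrix n n ℂ} (hA : A.IsHermitian) (hB : B.IsHermitian)
    (i : n) : ∑ j, pairW (hA.eigenvectorUnitary : Matrix n n ℂ)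
      (hB.eigenvectorUnitary : Matrix n n ℂ) i j = 1 := by
  refine pairW_row_sum ?_ ?_ i
  · simpa [Matrix.star_eq_conjTranspose] using Unitary.mul_star_self_of_mem hA.eigenvectorUnitary.2
  · simpa [Matrix.star_eq_conjTranspose] using Unitary.mul_star_self_of_mem hB.eigenvectorUnitary.2

theorem pairW_eigen_col_sum {A B : Matrix n n ℂ} (hA : A.IsHermitian) (hB : B.IsHermitian)
    (j : n) : ∑ i, pairW (hA.eigenvectorUnitary : Matrix n n ℂ)
      (hB.eigenvectorUnitary : Matrix n n ℂ) i j = 1 := by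
  refine pairW_col_sum ?_ ?_ j
  · simpa [Matrix.star_eq_conjTranspose] using Unitary.mul_star_self_of_mem hA.eigenvectorUnitary.2
  · simpa [Matrix.star_eq_conjTranspose] using Unitary.mul_star_self_of_mem hB.eigenvectorUnitary.2

end Crest.Agent.GAD.ResDet75
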