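import Mathlib
import Crest.Prelude.Def_QState
import Crest.Prelude.Def_QChannel
import Crest.Prelude.Def_AmpDamp
import Crest.Agent.GAD.Entropy
import Crest.Agent.GAD.Lprime
import Crest.Agent.GAD.Scalar
import Crest.Agent.GAD.Subadd
import Crest.Agent.GAD.Plumb
import Crest.Agent.GAD.Product
import Crest.Agent.GAD.Qubit1

/-!
# Row 341, tail: clauses (1) and (3) of `S0535` from the inequality `Lprime`

helper90 (hedge of `GAD/Tail535.lean`).  Everything lives in `Crest.Agent.GAD.Tail13`.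

* `entropy_lower`: `(L')` applied to `(id ⊗ Ψ) M`, with the two diagonal blocks normalised;
* `clause3`: the hard half of the additivity of the minimum output entropy (exact frozen text);
* `chi_upper`: the Holevo information of `GAD ⊗ Ψ` is at most
  `h((1-γ) p̄ + γ ν) - ∑ q_a f(z_a) + χ(Ψ; an ensemble of normalised blocks)`;
* `clause1`: the hard half of the additivity of the Holevo capacity (exact frozen text).
-/

set_option autoImplicit false
set_option linter.unusedSectionVars false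

open scoped ComplexOrder
open Matrix
open Crest.Quantum Crest.MathPhysics.AmpDamp

namespace Crest.Agent.GAD.Tail13

section Nrm

variable {d : Type*} [Fintype d] [DecidableEq d]

/-- The normalisation of a positive semidefinite block; a fixed matrix `ρ₀` if the trace is `0`. -/
noncomputable def nrm (ρ₀ B : Matrix d d ℂ) : Matrix d d ℂ :=
  if B.trace.re = 0 then ρ₀ else (((B.trace.re)⁻¹ : ℝ) : ℂ) • B

theorem trace_eq_ofReal {B : Matrix d d ℂ} (hB : B.PosSemidef) :
    B.trace = ((B.trace.re : ℝ) : ℂ) := by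
  have h := Complex.nonneg_iff.1 hB.trace_nonneg
  apply Complex.ext <;> simp [h.2.symm]

theorem trace_re_nonneg {B : Matrix d d ℂ} (hB : B.PosSemidef) : 0 ≤ B.trace.re :=
  (Complex.nonneg_iff.1 hB.trace_nonneg).1

theorem nrm_isDensity {ρ₀ B : Matrix d d ℂ} (hρ₀ : IsDensity ρ₀) (hB : B.PosSemidef) :
    IsDensity (nrm ρ₀ B) := by
  unfold nrm
  split_ifs with h
  · exact hρ₀
  · have hpos : 0 < B.trace.re := lt_of_le_of_ne (trace_re_nonneg hB) (Ne.symm h)
    refine ⟨hB.smul (by exact_mod_cast (inv_nonneg.2 hpos.le)), ?_⟩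
    rw [Matrix.trace_smul, smul_eq_mul]
    nth_rewrite 2 [trace_eq_ofReal hB]
    rw [← Complex.ofReal_mul, inv_mul_cancel₀ h, Complex.ofReal_one]

theorem smul_nrm {ρ₀ B : Matrix d d ℂ} (hB : B.PosSemidef) :
    ((B.trace.re : ℝ) : ℂ) • nrm ρ₀ B = B := by
  unfold nrm
  split_ifs with h
  · have h0 : B.trace = 0 := by rw [trace_eq_ofReal hB, h, Complex.ofReal_zero]
    have hB0 : B = 0 := hB.trace_eq_zero_iff.1 h0
    rw [h, Complex.ofReal_zero, zero_smul]
    exact hB0.symm
  · rw [smul_smul, ← Complex.ofReal_mul, mul_inv_cancel₀ h, Complex.ofReal_one, one_smul]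

theorem exists_density (d : Type*) [Fintype d] [DecidableEq d] [Nonempty d] :
    ∃ ρ₀ : Matrix d d ℂ, IsDensity ρ₀ := by
  obtain ⟨i⟩ := ‹Nonempty d›
  refine ⟨Matrix.vecMulVec (Pi.single i 1) (star (Pi.single i 1)),
    Matrix.posSemidef_vecMulVec_self_star _, ?_⟩
  simp [Matrix.trace, Matrix.vecMulVec_apply, Pi.single_apply]

end Nrm

section Main

variable {d e : Type} [Fintype d] [Fintype e] [DecidableEq d] [DecidableEq e]

/-- The traces of the two diagonal blocks of a density matrix on `Bool × d`. -/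
theorem block_traces {M : Matrix (Bool × d) (Bool × d) ℂ} (hM : IsDensity M) :
    0 ≤ (block M false false).trace.re ∧ 0 ≤ (block M true true).trace.re ∧
      (block M false false).trace.re + (block M true true).trace.re = 1 := by
  refine ⟨trace_re_nonneg (Plumb.block_posSemidef hM.1 false),
    trace_re_nonneg (Plumb.block_posSemidef hM.1 true), ?_⟩
  have h := Plumb.trace_eq_block_bool M
  rw [hM.2] at h
  have h' := congrArg Complex.re h
  simpa using h'.symm

/-- `Ψ` of a positive semidefinite block through its normalisation. -/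
theorem apply_block {Ψ : Matrix d d ℂ → Matrix e e ℂ} (hΨ : IsChannel Ψ) (ρ₀ : Matrix d d ℂ)
    {B : Matrix d d ℂ} (hB : B.PosSemidef) :
    Ψ B = ((B.trace.re : ℝ) : ℂ) • Ψ (nrm ρ₀ B) := by
  rw [← hΨ.1.map_smul, smul_nrm hB]

/-- Entropy of `Ψ` of a positive semidefinite block through its normalisation. -/
theorem vnEntropy_apply_block {Ψ : Matrix d d ℂ → Matrix e e ℂ} (hΨ : IsChannel Ψ)
    {ρ₀ : Matrix d d ℂ} (hρ₀ : IsDensity ρ₀) {B : Matrix d d ℂ} (hB : B.PosSemidef) :
    vnEntropy (Ψ B)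
      = B.trace.re * vnEntropy (Ψ (nrm ρ₀ B)) + Real.negMulLog B.trace.re := by
  have hd := Product.isDensity_apply_of_isChannel hΨ (nrm_isDensity hρ₀ hB)
  rw [apply_block hΨ ρ₀ hB, vnEntropy_smul hd.1.1, hd.2]
  simp

/-- `(L')` for `GAD ⊗ Ψ`: the output entropy is at least the pure-qubit value at the excited
population plus the average output entropy of the two normalised blocks. -/
theorem entropy_lower {γ ν : ℝ} (hL : Lprime γ ν) {Ψ : Matrix d d ℂ → Matrix e e ℂ}
    (hΨ : IsChannel Ψ) {ρ₀ : Matrix d d ℂ} (hρ₀ : IsDensity ρ₀)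
    {M : Matrix (Bool × d) (Bool × d) ℂ} (hM : IsDensity M) :
    fOut γ ν (block M true true).trace.re
      + (block M false false).trace.re * vnEntropy (Ψ (nrm ρ₀ (block M false false)))
      + (block M true true).trace.re * vnEntropy (Ψ (nrm ρ₀ (block M true true)))
    ≤ vnEntropy (qubitTensor (gadMap γ ν) Ψ M) := by
  have h := hL e (blockwise (k := Bool) Ψ M) (Plumb.blockwise_isDensity hΨ hM)
  rw [Plumb.qubitTensor_eq_id_blockwise]
  simp only [Plumb.block_blockwise] at h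
  have hX := Plumb.block_posSemidef hM.1 false
  have hZ := Plumb.block_posSemidef hM.1 true
  obtain ⟨-, -, htr⟩ := block_traces hM
  rw [hΨ.2.2 (block M true true), vnEntropy_apply_block hΨ hρ₀ hX,
    vnEntropy_apply_block hΨ hρ₀ hZ] at h
  have hbin : Real.binEntropy (block M true true).trace.re
      = Real.negMulLog (block M true true).trace.re
        + Real.negMulLog (block M false false).trace.re := by
    rw [Real.binEntropy_eq_negMulLog_add_negMulLog_one_sub]
    congr 2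
    linarith
  rw [hbin] at h
  linarith

/-- **`S0535`, clause (3)** (exact text) from `(L')`. -/
theorem clause3 {γ ν : ℝ} (hγ : γ ∈ Set.Icc (0 : ℝ) 1) (_hν : ν ∈ Set.Icc (0 : ℝ) 1)
    (hL : Lprime γ ν) [Nonempty d] (Ψ : Matrix d d ℂ → Matrix e e ℂ) (hΨ : IsChannel Ψ) :
    ∀ ρ : Matrix (Bool × d) (Bool × d) ℂ, IsDensity ρ → ∀ ε > (0 : ℝ),
      ∃ (ρ₁ : Matrix Bool Bool ℂ) (ρ₂ : Matrix d d ℂ), IsDensity ρ₁ ∧ IsDensity ρ₂ ∧
        vnEntropy (gadMap γ ν ρ₁) + vnEntropy (Ψ ρ₂)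
          ≤ vnEntropy (qubitTensor (gadMap γ ν) Ψ ρ) + ε := by
  intro ρ hρ ε hε
  obtain ⟨ρ₀, hρ₀⟩ := exists_density d
  have hX := Plumb.block_posSemidef hρ.1 false
  have hZ := Plumb.block_posSemidef hρ.1 true
  obtain ⟨hx0, hz0, hxz⟩ := block_traces hρ
  have hlow := entropy_lower hL hΨ hρ₀ hρ
  have hz01 : (block ρ true true).trace.re ∈ Set.Icc (0 : ℝ) 1 := ⟨hz0, by linarith⟩
  have h1 : vnEntropy (gadMap γ ν (q1Psi (block ρ true true).trace.re 1))
      = fOut γ ν (block ρ true true).trace.re :=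
    q1Psi_entropy γ ν hγ _ 1 hz01 (by norm_num)
  have hd1 : IsDensity (q1Psi (block ρ true true).trace.re 1) :=
    q1Psi_isDensity _ 1 hz01 (by norm_num)
  generalize (block ρ true true).trace.re = z at *
  generalize (block ρ false false).trace.re = x at *
  by_cases hle : vnEntropy (Ψ (nrm ρ₀ (block ρ false false)))
      ≤ vnEntropy (Ψ (nrm ρ₀ (block ρ true true)))
  · refine ⟨q1Psi z 1, nrm ρ₀ (block ρ false false), hd1, nrm_isDensity hρ₀ hX, ?_⟩
    have h2 := mul_le_mul_of_nonneg_left hle hz0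
    have h3 : vnEntropy (Ψ (nrm ρ₀ (block ρ false false)))
        = x * vnEntropy (Ψ (nrm ρ₀ (block ρ false false)))
          + z * vnEntropy (Ψ (nrm ρ₀ (block ρ false false))) := by
      rw [← add_mul, hxz, one_mul]
    linarith
  · refine ⟨q1Psi z 1, nrm ρ₀ (block ρ true true), hd1, nrm_isDensity hρ₀ hZ, ?_⟩
    have h2 := mul_le_mul_of_nonneg_left (le_of_not_ge hle) hx0
    have h3 : vnEntropy (Ψ (nrm ρ₀ (block ρ true true)))
        = x * vnEntropy (Ψ (nrm ρ₀ (block ρ true true)))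
          + z * vnEntropy (Ψ (nrm ρ₀ (block ρ true true))) := by
      rw [← add_mul, hxz, one_mul]
    linarith

/-- **Upper bound for the Holevo information of `GAD ⊗ Ψ`** from `(L')`, subadditivity and the
pinching bound for the qubit marginal. -/
theorem chi_upper {γ ν : ℝ} (hγ : γ ∈ Set.Icc (0 : ℝ) 1) (hν : ν ∈ Set.Icc (0 : ℝ) 1)
    (hL : Lprime γ ν) [Nonempty d] (Ψ : Matrix d d ℂ → Matrix e e ℂ) (hΨ : IsChannel Ψ)
    {m : ℕ} {q : Fin m → ℝ} {ρ : Fin m → Matrix (Bool × d) (Bool × d) ℂ} (h : IsEnsemble q ρ) :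
    ∃ (m₂ : ℕ) (q₂ : Fin m₂ → ℝ) (ρ₂ : Fin m₂ → Matrix d d ℂ), IsEnsemble q₂ ρ₂ ∧
      holevoInfo (qubitTensor (gadMap γ ν) Ψ) q ρ ≤
        Real.binEntropy ((1 - γ) * (∑ a, q a * (block (ρ a) true true).trace.re) + γ * ν)
          - ∑ a, q a * fOut γ ν (block (ρ a) true true).trace.re + holevoInfo Ψ q₂ ρ₂ := by
  obtain ⟨ρ₀, hρ₀⟩ := exists_density d
  have hbar := q1_isDensity_sum_smul h
  obtain ⟨hq, hq1, hρ⟩ := h
  -- the ensemble of normalised blocks
  set q₂ : Fin (m + m) → ℝ :=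
    Fin.append (fun a => q a * (block (ρ a) false false).trace.re)
      (fun a => q a * (block (ρ a) true true).trace.re) with hq₂
  set ρ₂ : Fin (m + m) → Matrix d d ℂ :=
    Fin.append (fun a => nrm ρ₀ (block (ρ a) false false))
      (fun a => nrm ρ₀ (block (ρ a) true true)) with hρ₂
  have hens : IsEnsemble q₂ ρ₂ := by
    refine ⟨fun b => ?_, ?_, fun b => ?_⟩
    · refine Fin.addCases (fun a => ?_) (fun a => ?_) b
      · rw [hq₂, Fin.append_left]
        exact mul_nonneg (hq a) (block_traces (hρ a)).1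
      · rw [hq₂, Fin.append_right]
        exact mul_nonneg (hq a) (block_traces (hρ a)).2.1
    · rw [Fin.sum_univ_add]
      simp only [hq₂, Fin.append_left, Fin.append_right]
      rw [← Finset.sum_add_distrib, ← hq1]
      refine Finset.sum_congr rfl fun a _ => ?_
      rw [← mul_add, (block_traces (hρ a)).2.2, mul_one]
    · refine Fin.addCases (fun a => ?_) (fun a => ?_) b
      · rw [hρ₂, Fin.append_left]
        exact nrm_isDensity hρ₀ (Plumb.block_posSemidef (hρ a).1 false)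
      · rw [hρ₂, Fin.append_right]
        exact nrm_isDensity hρ₀ (Plumb.block_posSemidef (hρ a).1 true)
  refine ⟨m + m, q₂, ρ₂, hens, ?_⟩
  set ρbar : Matrix (Bool × d) (Bool × d) ℂ := ∑ a, (q a : ℂ) • ρ a with hρbar
  -- the average output state
  have hlin : ∑ a, (q a : ℂ) • qubitTensor (gadMap γ ν) Ψ (ρ a)
      = qubitTensor (gadMap γ ν) Ψ ρbar :=
    (Plumb.qubitTensor_sum_smul (gadMap γ ν) hΨ.1 Finset.univ (fun a => (q a : ℂ)) ρ).symm
  have hO : IsDensity (qubitTensor (gadMap γ ν) Ψ ρbar) :=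
    Plumb.qubitTensor_gad_isDensity hγ hν hΨ hbar
  have hsub := vnEntropy_subadditive_density _ hO
  rw [Plumb.of_trace_block_qubitTensor_gad γ ν hΨ.2.2, Plumb.sum_block_qubitTensor_gad γ ν hΨ.1]
    at hsub
  have hmL : IsDensity (Matrix.of fun s t => (block ρbar s t).trace : Matrix Bool Bool ℂ) :=
    margL_isDensity ρbar hbar
  have hle := q1_gadMap_entropy_le hγ hν hmL
  have hz : ((Matrix.of fun s t => (block ρbar s t).trace : Matrix Bool Bool ℂ) true true).re
      = ∑ a, q a * (block (ρ a) true true).trace.re := by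
    rw [Matrix.of_apply, hρbar, Plumb.block_sum_smul, Matrix.trace_sum, Complex.re_sum]
    refine Finset.sum_congr rfl fun a _ => ?_
    rw [Matrix.trace_smul, smul_eq_mul, Complex.re_ofReal_mul]
  rw [hz] at hle
  -- the second marginal is the average of the block ensemble
  have hmR : ∑ b, (q₂ b : ℂ) • Ψ (ρ₂ b) = Ψ (∑ s, block ρbar s s) := by
    rw [Fin.sum_univ_add]
    simp only [hq₂, hρ₂, Fin.append_left, Fin.append_right]
    have e0 : ∀ a, ((q a * (block (ρ a) false false).trace.re : ℝ) : ℂ)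
        • Ψ (nrm ρ₀ (block (ρ a) false false)) = (q a : ℂ) • Ψ (block (ρ a) false false) := by
      intro a
      rw [apply_block hΨ ρ₀ (Plumb.block_posSemidef (hρ a).1 false), smul_smul,
        Complex.ofReal_mul]
    have e1 : ∀ a, ((q a * (block (ρ a) true true).trace.re : ℝ) : ℂ)
        • Ψ (nrm ρ₀ (block (ρ a) true true)) = (q a : ℂ) • Ψ (block (ρ a) true true) := by
      intro a
      rw [apply_block hΨ ρ₀ (Plumb.block_posSemidef (hρ a).1 true), smul_smul,
        Complex.ofReal_mul]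
    simp only [e0, e1]
    rw [Fintype.sum_bool, hΨ.1.map_add, hρbar, Plumb.block_sum_smul, Plumb.block_sum_smul]
    have hs : ∀ (f : Fin m → Matrix d d ℂ),
        Ψ (∑ a, (q a : ℂ) • f a) = ∑ a, (q a : ℂ) • Ψ (f a) := by
      intro f
      have h := map_sum hΨ.1.mk' (fun a => (q a : ℂ) • f a) Finset.univ
      simp only [IsLinearMap.mk'_apply, hΨ.1.map_smul] at h
      exact h
    rw [hs, hs, add_comm]
  -- the pointwise lower bounds
  have hlow : ∀ a, fOut γ ν (block (ρ a) true true).trace.re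
      + (block (ρ a) false false).trace.re * vnEntropy (Ψ (nrm ρ₀ (block (ρ a) false false)))
      + (block (ρ a) true true).trace.re * vnEntropy (Ψ (nrm ρ₀ (block (ρ a) true true)))
      ≤ vnEntropy (qubitTensor (gadMap γ ν) Ψ (ρ a)) :=
    fun a => entropy_lower hL hΨ hρ₀ (hρ a)
  have hsum : ∑ a, q a * fOut γ ν (block (ρ a) true true).trace.re
      + ∑ b, q₂ b * vnEntropy (Ψ (ρ₂ b))
      ≤ ∑ a, q a * vnEntropy (qubitTensor (gadMap γ ν) Ψ (ρ a)) := by
    rw [Fin.sum_univ_add]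
    simp only [hq₂, hρ₂, Fin.append_left, Fin.append_right]
    rw [← Finset.sum_add_distrib, ← Finset.sum_add_distrib]
    refine Finset.sum_le_sum fun a _ => ?_
    have := mul_le_mul_of_nonneg_left (hlow a) (hq a)
    calc q a * fOut γ ν (block (ρ a) true true).trace.re
          + (q a * (block (ρ a) false false).trace.re
              * vnEntropy (Ψ (nrm ρ₀ (block (ρ a) false false)))
            + q a * (block (ρ a) true true).trace.re
              * vnEntropy (Ψ (nrm ρ₀ (block (ρ a) true true))))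
        = q a * (fOut γ ν (block (ρ a) true true).trace.re
          + (block (ρ a) false false).trace.re
              * vnEntropy (Ψ (nrm ρ₀ (block (ρ a) false false)))
          + (block (ρ a) true true).trace.re
              * vnEntropy (Ψ (nrm ρ₀ (block (ρ a) true true)))) := by ring
      _ ≤ _ := this
  unfold holevoInfo
  rw [hlin, hmR]
  linarith

/-- **`S0535`, clause (1)** (exact text) from `(L')`. -/
theorem clause1 {γ ν : ℝ} (hγ : γ ∈ Set.Icc (0 : ℝ) 1) (hν : ν ∈ Set.Icc (0 : ℝ) 1)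
    (hL : Lprime γ ν) [Nonempty d] (Ψ : Matrix d d ℂ → Matrix e e ℂ) (hΨ : IsChannel Ψ) :
    ∀ (m : ℕ) (q : Fin m → ℝ) (ρ : Fin m → Matrix (Bool × d) (Bool × d) ℂ), IsEnsemble q ρ →
      ∀ ε > (0 : ℝ), ∃ (m₁ : ℕ) (q₁ : Fin m₁ → ℝ) (ρ₁ : Fin m₁ → Matrix Bool Bool ℂ)
        (m₂ : ℕ) (q₂ : Fin m₂ → ℝ) (ρ₂ : Fin m₂ → Matrix d d ℂ),
        IsEnsemble q₁ ρ₁ ∧ IsEnsemble q₂ ρ₂ ∧
          holevoInfo (qubitTensor (gadMap γ ν) Ψ) q ρ ≤
            holevoInfo (gadMap γ ν) q₁ ρ₁ + holevoInfo Ψ q₂ ρ₂ + ε := by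
  intro m q ρ h ε hε
  obtain ⟨m₂, q₂, ρ₂, h₂, hle⟩ := chi_upper hγ hν hL Ψ hΨ h
  have hz : ∀ a, (block (ρ a) true true).trace.re ∈ Set.Icc (0 : ℝ) 1 := by
    intro a
    obtain ⟨h0, h1, h2⟩ := block_traces (h.2.2 a)
    exact ⟨h1, by linarith⟩
  have hp01 : (∑ a, q a * (block (ρ a) true true).trace.re) ∈ Set.Icc (0 : ℝ) 1 := by
    constructor
    · exact Finset.sum_nonneg fun a _ => mul_nonneg (h.1 a) (hz a).1
    · calc ∑ a, q a * (block (ρ a) true true).trace.re ≤ ∑ a, q a * 1 :=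
            Finset.sum_le_sum fun a _ => mul_le_mul_of_nonneg_left (hz a).2 (h.1 a)
        _ = 1 := by simp [h.2.1]
  have hJ := fOut_jensen hγ hν Finset.univ q (fun a => (block (ρ a) true true).trace.re)
    (fun a _ => h.1 a) h.2.1 (fun a _ => hz a)
  obtain ⟨m₁, q₁, ρ₁, h₁, hle₁⟩ := gad_single_lower γ ν hγ hν _ hp01
  refine ⟨m₁, q₁, ρ₁, m₂, q₂, ρ₂, h₁, h₂, ?_⟩
  rw [gadRate_eq] at hle₁
  linarith

/-- The Holevo half of the additivity without `ε` and with the qubit side written as a rate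
(the shape `AddUpper` of #1616). -/
theorem addUpper {γ ν : ℝ} (hγ : γ ∈ Set.Icc (0 : ℝ) 1) (hν : ν ∈ Set.Icc (0 : ℝ) 1)
    (hL : Lprime γ ν) [Nonempty d] (Ψ : Matrix d d ℂ → Matrix e e ℂ) (hΨ : IsChannel Ψ)
    (m : ℕ) (q : Fin m → ℝ) (ρ : Fin m → Matrix (Bool × d) (Bool × d) ℂ) (h : IsEnsemble q ρ) :
    ∃ p ∈ Set.Icc (0 : ℝ) 1, ∃ (m₂ : ℕ) (q₂ : Fin m₂ → ℝ) (ρ₂ : Fin m₂ → Matrix d d ℂ),
      IsEnsemble q₂ ρ₂ ∧
        holevoInfo (qubitTensor (gadMap γ ν) Ψ) q ρ ≤ gadRate γ ν p + holevoInfo Ψ q₂ ρ₂ := by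
  obtain ⟨m₂, q₂, ρ₂, h₂, hle⟩ := chi_upper hγ hν hL Ψ hΨ h
  have hz : ∀ a, (block (ρ a) true true).trace.re ∈ Set.Icc (0 : ℝ) 1 := by
    intro a
    obtain ⟨h0, h1, h2⟩ := block_traces (h.2.2 a)
    exact ⟨h1, by linarith⟩
  have hp01 : (∑ a, q a * (block (ρ a) true true).trace.re) ∈ Set.Icc (0 : ℝ) 1 := by
    constructor
    · exact Finset.sum_nonneg fun a _ => mul_nonneg (h.1 a) (hz a).1
    · calc ∑ a, q a * (block (ρ a) true true).trace.re ≤ ∑ a, q a * 1 :=
            Finset.sum_le_sum fun a _ => mul_le_mul_of_nonneg_left (hz a).2 (h.1 a)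
        _ = 1 := by simp [h.2.1]
  have hJ := fOut_jensen hγ hν Finset.univ q (fun a => (block (ρ a) true true).trace.re)
    (fun a _ => h.1 a) h.2.1 (fun a _ => hz a)
  refine ⟨_, hp01, m₂, q₂, ρ₂, h₂, ?_⟩
  rw [gadRate_eq]
  linarith

end Main

end Crest.Agent.GAD.Tail13
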