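import Mathlib
import Crest.Prelude.Def_QState
import Crest.Prelude.Def_QChannel
import Crest.Prelude.Def_AmpDamp
import Crest.Agent.GAD.Entropy
import Crest.Agent.GAD.Product

/-!
# The two-state ensemble `ψ_{p,±}` of one qubit and `AddLower`

`gadRate γ ν p` is exactly the Holevo information of `gadMap γ ν` on the ensemble
`{1/2 : ψ_{p,+}, 1/2 : ψ_{p,-}}` of the two pure qubit states with excited population `p` and
opposite real coherences.  Together with the product-ensemble theorem this gives `AddLower`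
without hypotheses.
-/

set_option autoImplicit false

namespace Crest.Agent.GAD.TwoState

open Crest.Quantum Matrix
open Crest.Agent.GAD
open Crest.MathPhysics.AmpDamp
open scoped ComplexOrder

/-- determinant of a matrix indexed by `Bool` -/
theorem det_bool (A : Matrix Bool Bool ℂ) :
    A.det = A false false * A true true - A false true * A true false := by
  rw [← Matrix.det_submatrix_equiv_self finTwoEquiv A, Matrix.det_fin_two]
  simp [finTwoEquiv]

/-- the amplitude vector `(√(1-p), σ √p)` -/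
noncomputable def amp (p σ : ℝ) : Bool → ℂ :=
  fun s => if s then ((σ * Real.sqrt p : ℝ) : ℂ) else ((Real.sqrt (1 - p) : ℝ) : ℂ)

/-- the pure qubit state with excited population `p` and real coherence `σ √(p(1-p))` -/
noncomputable def psi (p σ : ℝ) : Matrix Bool Bool ℂ :=
  Matrix.vecMulVec (amp p σ) (star (amp p σ))

theorem psi_apply_ff (p σ : ℝ) (hp : p ≤ 1) : psi p σ false false = ((1 - p : ℝ) : ℂ) := by
  simp only [psi, amp, Matrix.vecMulVec_apply, Pi.star_apply]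
  simp only [Bool.false_eq_true, if_false, Complex.star_def, Complex.conj_ofReal]
  rw [← Complex.ofReal_mul, Real.mul_self_sqrt (by linarith)]

theorem psi_apply_tt (p σ : ℝ) (hp : 0 ≤ p) (hσ : σ ^ 2 = 1) :
    psi p σ true true = ((p : ℝ) : ℂ) := by
  simp only [psi, amp, Matrix.vecMulVec_apply, Pi.star_apply]
  simp only [if_true, Complex.star_def, Complex.conj_ofReal]
  rw [← Complex.ofReal_mul]
  congr 1
  have := Real.mul_self_sqrt hp
  nlinarith

theorem psi_apply_ft (p σ : ℝ) :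
    psi p σ false true = ((σ * (Real.sqrt (1 - p) * Real.sqrt p) : ℝ) : ℂ) := by
  simp only [psi, amp, Matrix.vecMulVec_apply, Pi.star_apply]
  simp only [Bool.false_eq_true, if_false, if_true, Complex.star_def, Complex.conj_ofReal]
  rw [← Complex.ofReal_mul]
  congr 1
  ring

theorem psi_apply_tf (p σ : ℝ) :
    psi p σ true false = ((σ * (Real.sqrt (1 - p) * Real.sqrt p) : ℝ) : ℂ) := by
  simp only [psi, amp, Matrix.vecMulVec_apply, Pi.star_apply]
  simp only [Bool.false_eq_true, if_false, if_true, Complex.star_def, Complex.conj_ofReal]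
  rw [← Complex.ofReal_mul]
  congr 1
  ring

theorem psi_isDensity (p σ : ℝ) (hp : p ∈ Set.Icc (0 : ℝ) 1) (hσ : σ ^ 2 = 1) :
    IsDensity (psi p σ) := by
  refine ⟨Matrix.posSemidef_vecMulVec_self_star _, ?_⟩
  rw [Matrix.trace, Fintype.sum_bool, Matrix.diag_apply, Matrix.diag_apply,
    psi_apply_ff p σ hp.2, psi_apply_tt p σ hp.1 hσ, ← Complex.ofReal_add]
  norm_num

/-- the entries of the channel output on `ψ_{p,σ}` -/
theorem gadMap_psi_ff (γ ν p σ : ℝ) (hp : p ∈ Set.Icc (0 : ℝ) 1) (hσ : σ ^ 2 = 1) :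
    gadMap γ ν (psi p σ) false false = ((1 - ((1 - γ) * p + γ * ν) : ℝ) : ℂ) := by
  simp only [gadMap, Matrix.of_apply, and_self, if_true]
  rw [psi_apply_ff p σ hp.2, psi_apply_tt p σ hp.1 hσ]
  push_cast
  ring

theorem gadMap_psi_tt (γ ν p σ : ℝ) (hp : p ∈ Set.Icc (0 : ℝ) 1) (hσ : σ ^ 2 = 1) :
    gadMap γ ν (psi p σ) true true = (((1 - γ) * p + γ * ν : ℝ) : ℂ) := by
  simp only [gadMap, Matrix.of_apply, and_self, if_true, Bool.true_eq_false, if_false]
  rw [psi_apply_ff p σ hp.2, psi_apply_tt p σ hp.1 hσ]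
  push_cast
  ring

theorem gadMap_psi_ft (γ ν p σ : ℝ) :
    gadMap γ ν (psi p σ) false true
      = ((Real.sqrt (1 - γ) * (σ * (Real.sqrt (1 - p) * Real.sqrt p)) : ℝ) : ℂ) := by
  have h : gadMap γ ν (psi p σ) false true
      = ((Real.sqrt (1 - γ) : ℝ) : ℂ) * psi p σ false true := by
    simp [gadMap]
  rw [h, psi_apply_ft]
  push_cast
  ring

theorem gadMap_psi_tf (γ ν p σ : ℝ) :
    gadMap γ ν (psi p σ) true false
      = ((Real.sqrt (1 - γ) * (σ * (Real.sqrt (1 - p) * Real.sqrt p)) : ℝ) : ℂ) := by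
  have h : gadMap γ ν (psi p σ) true false
      = ((Real.sqrt (1 - γ) : ℝ) : ℂ) * psi p σ true false := by
    simp [gadMap]
  rw [h, psi_apply_tf]
  push_cast
  ring

/-- the output entropy on the pure state `ψ_{p,σ}` is the second term of `gadRate` -/
theorem vnEntropy_gadMap_psi (γ ν p σ : ℝ) (hγ : γ ≤ 1) (hp : p ∈ Set.Icc (0 : ℝ) 1)
    (hσ : σ ^ 2 = 1) :
    vnEntropy (gadMap γ ν (psi p σ))
      = Real.binEntropy
          ((1 + Real.sqrt (1 - 4 * (γ * ν * (1 - ν) + γ * (1 - γ) * (p - ν) ^ 2))) / 2) := by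
  have hd := psi_isDensity p σ hp hσ
  have hH := Product.gadMap_isHermitian γ ν hd.1.1
  have htr : (gadMap γ ν (psi p σ)).trace = 1 := by rw [Product.gadMap_trace, hd.2]
  rw [vnEntropy_qubit hH htr]
  have hdet : (gadMap γ ν (psi p σ)).det.re
      = γ * ν * (1 - ν) + γ * (1 - γ) * (p - ν) ^ 2 := by
    rw [det_bool, gadMap_psi_ff γ ν p σ hp hσ, gadMap_psi_tt γ ν p σ hp hσ, gadMap_psi_ft,
      gadMap_psi_tf, ← Complex.ofReal_mul, ← Complex.ofReal_mul, ← Complex.ofReal_sub,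
      Complex.ofReal_re]
    have h1 := Real.mul_self_sqrt (show (0 : ℝ) ≤ 1 - γ by linarith)
    have h2 := Real.mul_self_sqrt (show (0 : ℝ) ≤ 1 - p by linarith [hp.2])
    have h3 := Real.mul_self_sqrt hp.1
    have h4 : Real.sqrt (1 - γ) * (σ * (Real.sqrt (1 - p) * Real.sqrt p)) *
        (Real.sqrt (1 - γ) * (σ * (Real.sqrt (1 - p) * Real.sqrt p)))
        = (1 - γ) * ((1 - p) * p) := by
      calc Real.sqrt (1 - γ) * (σ * (Real.sqrt (1 - p) * Real.sqrt p)) *
            (Real.sqrt (1 - γ) * (σ * (Real.sqrt (1 - p) * Real.sqrt p)))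
          = (Real.sqrt (1 - γ) * Real.sqrt (1 - γ)) * σ ^ 2 *
              ((Real.sqrt (1 - p) * Real.sqrt (1 - p)) * (Real.sqrt p * Real.sqrt p)) := by ring
        _ = (1 - γ) * ((1 - p) * p) := by rw [h1, h2, h3, hσ]; ring
    rw [h4]
    ring
  rw [hdet]

/-- the average output of the two-state ensemble is diagonal -/
theorem avg_gadMap_psi (γ ν p : ℝ) (hp : p ∈ Set.Icc (0 : ℝ) 1) :
    ((1 / 2 : ℝ) : ℂ) • gadMap γ ν (psi p 1) + ((1 / 2 : ℝ) : ℂ) • gadMap γ ν (psi p (-1))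
      = Matrix.diagonal (fun s : Bool =>
          (((if s then (1 - γ) * p + γ * ν else 1 - ((1 - γ) * p + γ * ν)) : ℝ) : ℂ)) := by
  have h1 : (1 : ℝ) ^ 2 = 1 := by norm_num
  have h2 : (-1 : ℝ) ^ 2 = 1 := by norm_num
  ext s t
  cases s <;> cases t
  · simp only [Matrix.add_apply, Matrix.smul_apply, smul_eq_mul,
      gadMap_psi_ff γ ν p _ hp h1, gadMap_psi_ff γ ν p _ hp h2, Matrix.diagonal_apply_eq]
    simp only [Bool.false_eq_true, if_false]
    push_cast
    ring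
  · simp only [Matrix.add_apply, Matrix.smul_apply, smul_eq_mul, gadMap_psi_ft]
    rw [Matrix.diagonal_apply_ne _ (by decide)]
    push_cast
    ring
  · simp only [Matrix.add_apply, Matrix.smul_apply, smul_eq_mul, gadMap_psi_tf]
    rw [Matrix.diagonal_apply_ne _ (by decide)]
    push_cast
    ring
  · simp only [Matrix.add_apply, Matrix.smul_apply, smul_eq_mul,
      gadMap_psi_tt γ ν p _ hp h1, gadMap_psi_tt γ ν p _ hp h2, Matrix.diagonal_apply_eq]
    simp only [if_true]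
    push_cast
    ring

/-- **(B2)/hQ2**: the two-state ensemble `{1/2 : ψ_{p,+}, 1/2 : ψ_{p,-}}` has Holevo information
exactly `gadRate γ ν p`. -/
theorem holevoInfo_twoState (γ ν p : ℝ) (hγ : γ ≤ 1) (hp : p ∈ Set.Icc (0 : ℝ) 1) :
    IsEnsemble (![1 / 2, 1 / 2] : Fin 2 → ℝ) ![psi p 1, psi p (-1)] ∧
      holevoInfo (gadMap γ ν) (![1 / 2, 1 / 2] : Fin 2 → ℝ) ![psi p 1, psi p (-1)]
        = gadRate γ ν p := by
  have h1 : (1 : ℝ) ^ 2 = 1 := by norm_num
  have h2 : (-1 : ℝ) ^ 2 = 1 := by norm_num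
  refine ⟨⟨?_, ?_, ?_⟩, ?_⟩
  · intro a
    fin_cases a <;> norm_num
  · rw [Fin.sum_univ_two]
    norm_num
  · intro a
    fin_cases a
    · exact psi_isDensity p 1 hp h1
    · exact psi_isDensity p (-1) hp h2
  · unfold holevoInfo
    rw [Fin.sum_univ_two, Fin.sum_univ_two]
    simp only [Matrix.cons_val_zero, Matrix.cons_val_one]
    rw [avg_gadMap_psi γ ν p hp, vnEntropy_diagonal, Fintype.sum_bool,
      vnEntropy_gadMap_psi γ ν p 1 hγ hp h1, vnEntropy_gadMap_psi γ ν p (-1) hγ hp h2]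
    simp only [if_true, Bool.false_eq_true, if_false]
    unfold gadRate
    rw [Real.binEntropy_eq_negMulLog_add_negMulLog_one_sub ((1 - γ) * p + γ * ν)]
    ring

/-- **(B2)/hQ2** in the shape asked for by the `S0534` assembly. -/
theorem gad_single_lower (γ ν : ℝ) (hγ : γ ≤ 1) (p : ℝ) (hp : p ∈ Set.Icc (0 : ℝ) 1) :
    ∃ (m : ℕ) (q : Fin m → ℝ) (ρ : Fin m → Matrix Bool Bool ℂ),
      IsEnsemble q ρ ∧ gadRate γ ν p ≤ holevoInfo (gadMap γ ν) q ρ :=
  ⟨2, _, _, (holevoInfo_twoState γ ν p hγ hp).1, (holevoInfo_twoState γ ν p hγ hp).2.ge⟩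

section addLower

variable {d e : Type*} [Fintype d] [Fintype e] [DecidableEq e]

/-- **`AddLower`** (body of helper96's Prop, #1616), no hypotheses beyond `γ ≤ 1`. -/
theorem addLower (γ ν : ℝ) (hγ : γ ≤ 1) (Ψ : Matrix d d ℂ → Matrix e e ℂ) (hΨ : IsChannel Ψ) :
    ∀ p ∈ Set.Icc (0 : ℝ) 1, ∀ (m₂ : ℕ) (q₂ : Fin m₂ → ℝ) (ρ₂ : Fin m₂ → Matrix d d ℂ),
      IsEnsemble q₂ ρ₂ →
      ∃ (m : ℕ) (q : Fin m → ℝ) (ρ : Fin m → Matrix (Bool × d) (Bool × d) ℂ), IsEnsemble q ρ ∧
        gadRate γ ν p + holevoInfo Ψ q₂ ρ₂ ≤ holevoInfo (qubitTensor (gadMap γ ν) Ψ) q ρ :=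
  Product.addLower_of γ ν (fun p hp => gad_single_lower γ ν hγ p hp) Ψ hΨ

end addLower

end Crest.Agent.GAD.TwoState
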