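import Mathlib
import Crest.Prelude.Def_QState
import Crest.Prelude.Def_QChannel
import Crest.Prelude.Def_AmpDamp
import Crest.Agent.GAD.Entropy
import Crest.Agent.GAD.Peierls
import Crest.Agent.GAD.Subadd
import Crest.Agent.GAD.PreludeFacts
import Crest.Agent.GAD.Plumb
import Crest.Agent.GAD.Lprime
import Crest.Agent.GAD.Scalar
import Crest.Agent.GAD.Product
import Crest.Agent.GAD.TwoState

/-!
# Row 341, tail: `S0535` from the interface `Lprime`

Everything here is conditional on `Lprime γ ν` (the conditional-entropy lower bound (L') for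
`gadMap γ ν ⊗ id`), which the analytic core proves.

* `entropy_lower` : (L') transported to `gadMap γ ν ⊗ Ψ` for a channel `Ψ`:
  `fOut z + (1 - z) S(Ψ σ₀) + z S(Ψ σ₁) ≤ S((N ⊗ Ψ) ρ)` with `ρ_ff = (1 - z) σ₀`, `ρ_tt = z σ₁`.
* `clause3` : clause (3) of `S0535` (minimum output entropy, the nontrivial direction).
* `chi_upper` : the Holevo upper bound
  `χ(N ⊗ Ψ; q, ρ) ≤ h((1-γ) p̄ + γ ν) - ∑ q_a fOut(z_a) + χ(Ψ; q₂, ρ₂)`.
* `clause1` : clause (1) of `S0535` (Holevo capacity, the nontrivial direction).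
* `addUpper` : the same with `gadRate γ ν p̄` (Jensen for `fOut`), the shape used for `S0534`.
* `S0535_of_Lprime` : the full frozen statement of `S0535` from `Lprime γ ν`.
-/

set_option autoImplicit false

namespace Crest.Agent.GAD.Tail535

open Crest.Quantum Crest.MathPhysics.AmpDamp Crest.Agent.GAD
open scoped ComplexOrder

section general

variable {d e : Type*} [Fintype d] [Fintype e] [DecidableEq d] [DecidableEq e]

omit [DecidableEq d] in
/-- the trace of a PSD matrix is a nonnegative real number -/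
theorem trace_eq_ofReal {A : Matrix d d ℂ} (hA : A.PosSemidef) :
    A.trace = ((A.trace.re : ℝ) : ℂ) ∧ 0 ≤ A.trace.re := by
  have h := hA.trace_nonneg
  rw [Complex.nonneg_iff] at h
  exact ⟨Complex.ext (by simp) (by simpa using h.2.symm), h.1⟩

omit [DecidableEq d] in
/-- a PSD matrix is its trace times a density matrix -/
theorem exists_density_smul {A τ : Matrix d d ℂ} (hA : A.PosSemidef) (hτ : IsDensity τ) :
    ∃ σ : Matrix d d ℂ, IsDensity σ ∧ A = ((A.trace.re : ℝ) : ℂ) • σ := by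
  obtain ⟨htr, hnn⟩ := trace_eq_ofReal hA
  generalize A.trace.re = t at htr hnn ⊢
  by_cases h : t = 0
  · refine ⟨τ, hτ, ?_⟩
    have h0 : A = 0 := by
      rw [← hA.trace_eq_zero_iff, htr, h]
      simp
    rw [h0, h]
    simp
  · refine ⟨((t⁻¹ : ℝ) : ℂ) • A, ⟨?_, ?_⟩, ?_⟩
    · exact hA.smul (by exact_mod_cast inv_nonneg.2 hnn)
    · rw [Matrix.trace_smul, smul_eq_mul, htr, ← Complex.ofReal_mul, inv_mul_cancel₀ h]
      simp
    · rw [smul_smul, ← Complex.ofReal_mul, mul_inv_cancel₀ h]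
      simp

/-- output entropy of a channel on a scaled density matrix -/
theorem vnEntropy_channel_smul {Ψ : Matrix d d ℂ → Matrix e e ℂ} (hΨ : IsChannel Ψ)
    {σ : Matrix d d ℂ} (hσ : IsDensity σ) (t : ℝ) :
    vnEntropy (Ψ ((t : ℂ) • σ)) = t * vnEntropy (Ψ σ) + Real.negMulLog t := by
  have hd := isChannel_isDensity hΨ hσ
  rw [hΨ.1.map_smul, vnEntropy_smul hd.1.isHermitian, hd.2]
  simp

/-- a qubit density matrix has entropy at most the binary entropy of its excited population -/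
theorem vnEntropy_qubit_le {A : Matrix Bool Bool ℂ} (hA : IsDensity A) :
    vnEntropy A ≤ Real.binEntropy (A true true).re := by
  have h := vnEntropy_le_sum_diag A hA.1 1 (one_mem _)
  rw [Fintype.sum_bool] at h
  simp only [star_one, one_mul, mul_one] at h
  have htr : (A false false).re = 1 - (A true true).re := by
    have := congrArg Complex.re hA.2
    rw [Matrix.trace, Fintype.sum_bool] at this
    simp only [Matrix.diag_apply, Complex.add_re, Complex.one_re] at this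
    linarith
  rw [htr] at h
  rw [Real.binEntropy_eq_negMulLog_add_negMulLog_one_sub]
  exact h

end general

section lower

variable {d e : Type} [Fintype d] [Fintype e] [DecidableEq d] [DecidableEq e]

/-- **(L') transported to `gadMap γ ν ⊗ Ψ`**: with `z` the excited population of `ρ` and
`ρ_ff = (1 - z) σ₀`, `ρ_tt = z σ₁`,
`fOut z + (1 - z) S(Ψ σ₀) + z S(Ψ σ₁) ≤ S((N ⊗ Ψ) ρ)`. -/
theorem entropy_lower {γ ν : ℝ} (hL : Lprime γ ν) {Ψ : Matrix d d ℂ → Matrix e e ℂ}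
    (hΨ : IsChannel Ψ) {ρ : Matrix (Bool × d) (Bool × d) ℂ} (hρ : IsDensity ρ) :
    ∃ (z : ℝ) (σ₀ σ₁ : Matrix d d ℂ), z ∈ Set.Icc (0 : ℝ) 1 ∧ IsDensity σ₀ ∧ IsDensity σ₁ ∧
      block ρ false false = ((1 - z : ℝ) : ℂ) • σ₀ ∧ block ρ true true = ((z : ℝ) : ℂ) • σ₁ ∧
      fOut γ ν z + (1 - z) * vnEntropy (Ψ σ₀) + z * vnEntropy (Ψ σ₁)
        ≤ vnEntropy (qubitTensor (gadMap γ ν) Ψ ρ) := by
  have hτ : IsDensity (∑ s, block ρ s s) := margR_isDensity ρ hρ
  have hP0 : (block ρ false false).PosSemidef := block_posSemidef hρ.1 false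
  have hP1 : (block ρ true true).PosSemidef := block_posSemidef hρ.1 true
  obtain ⟨σ₀, hσ₀, h0⟩ := exists_density_smul hP0 hτ
  obtain ⟨σ₁, hσ₁, h1⟩ := exists_density_smul hP1 hτ
  have hsum : (block ρ false false).trace.re + (block ρ true true).trace.re = 1 := by
    have := congrArg Complex.re (trace_eq_trace_block_bool ρ)
    rw [hρ.2] at this
    simp only [Complex.add_re, Complex.one_re] at this
    linarith
  have hz0 := (trace_eq_ofReal hP1).2
  have hw0 := (trace_eq_ofReal hP0).2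
  set z : ℝ := (block ρ true true).trace.re with hz
  have hw : (block ρ false false).trace.re = 1 - z := by linarith
  rw [hw] at h0
  refine ⟨z, σ₀, σ₁, ⟨hz0, by linarith⟩, hσ₀, hσ₁, h0, h1, ?_⟩
  have hM : IsDensity (blockwise (k := Bool) Ψ ρ) := isDensity_blockwise hΨ hρ
  have key := hL e (blockwise Ψ ρ) hM
  rw [← qubitTensor_eq_blockwise] at key
  simp only [block_blockwise] at key
  rw [hΨ.2.2 (block ρ true true), ← hz] at key
  have e0 : vnEntropy (Ψ (block ρ false false))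
      = (1 - z) * vnEntropy (Ψ σ₀) + Real.negMulLog (1 - z) := by
    rw [h0]; exact vnEntropy_channel_smul hΨ hσ₀ _
  have e1 : vnEntropy (Ψ (block ρ true true)) = z * vnEntropy (Ψ σ₁) + Real.negMulLog z := by
    rw [h1]; exact vnEntropy_channel_smul hΨ hσ₁ _
  rw [e0, e1, Real.binEntropy_eq_negMulLog_add_negMulLog_one_sub] at key
  linarith

/-- **`S0535`, clause (3)** from `Lprime`. -/
theorem clause3 {γ ν : ℝ} (hγ : γ ∈ Set.Icc (0 : ℝ) 1) (hL : Lprime γ ν)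
    {Ψ : Matrix d d ℂ → Matrix e e ℂ} (hΨ : IsChannel Ψ) :
    ∀ ρ : Matrix (Bool × d) (Bool × d) ℂ, IsDensity ρ → ∀ ε > (0 : ℝ),
      ∃ (ρ₁ : Matrix Bool Bool ℂ) (ρ₂ : Matrix d d ℂ), IsDensity ρ₁ ∧ IsDensity ρ₂ ∧
        vnEntropy (gadMap γ ν ρ₁) + vnEntropy (Ψ ρ₂)
          ≤ vnEntropy (qubitTensor (gadMap γ ν) Ψ ρ) + ε := by
  intro ρ hρ ε hε
  obtain ⟨z, σ₀, σ₁, hz, hσ₀, hσ₁, -, -, hlow⟩ := entropy_lower hL hΨ hρ
  have h1 : (1 : ℝ) ^ 2 = 1 := by norm_num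
  have hpure : vnEntropy (gadMap γ ν (TwoState.psi z 1)) = fOut γ ν z :=
    TwoState.vnEntropy_gadMap_psi γ ν z 1 hγ.2 hz h1
  have hd := TwoState.psi_isDensity z 1 hz h1
  rcases le_total (vnEntropy (Ψ σ₀)) (vnEntropy (Ψ σ₁)) with hle | hle
  · refine ⟨TwoState.psi z 1, σ₀, hd, hσ₀, ?_⟩
    rw [hpure]
    nlinarith [mul_nonneg hz.1 (sub_nonneg.2 hle)]
  · refine ⟨TwoState.psi z 1, σ₁, hd, hσ₁, ?_⟩
    rw [hpure]
    nlinarith [mul_nonneg (sub_nonneg.2 hz.2) (sub_nonneg.2 hle)]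

end lower

section upper

/-- an ensemble obtained by appending two lists -/
theorem isEnsemble_append {d : Type*} [Fintype d] {m : ℕ} {q q' : Fin m → ℝ}
    {ρ ρ' : Fin m → Matrix d d ℂ} (hq : ∀ a, 0 ≤ q a) (hq' : ∀ a, 0 ≤ q' a)
    (hsum : ∑ a, q a + ∑ a, q' a = 1) (hρ : ∀ a, IsDensity (ρ a)) (hρ' : ∀ a, IsDensity (ρ' a)) :
    IsEnsemble (Fin.append q q') (Fin.append ρ ρ') := by
  refine ⟨fun i => ?_, ?_, fun i => ?_⟩
  · refine Fin.addCases (fun a => ?_) (fun a => ?_) i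
    · rw [Fin.append_left]; exact hq a
    · rw [Fin.append_right]; exact hq' a
  · rw [Fin.sum_univ_add]
    simp only [Fin.append_left, Fin.append_right]
    exact hsum
  · refine Fin.addCases (fun a => ?_) (fun a => ?_) i
    · rw [Fin.append_left]; exact hρ a
    · rw [Fin.append_right]; exact hρ' a

/-- the Holevo information of an appended ensemble -/
theorem holevoInfo_append {d e : Type*} [Fintype d] [Fintype e] [DecidableEq e] {m : ℕ}
    (Φ : Matrix d d ℂ → Matrix e e ℂ) (q q' : Fin m → ℝ) (ρ ρ' : Fin m → Matrix d d ℂ) :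
    holevoInfo Φ (Fin.append q q') (Fin.append ρ ρ')
      = vnEntropy (∑ a, (q a : ℂ) • Φ (ρ a) + ∑ a, (q' a : ℂ) • Φ (ρ' a))
        - (∑ a, q a * vnEntropy (Φ (ρ a)) + ∑ a, q' a * vnEntropy (Φ (ρ' a))) := by
  unfold holevoInfo
  rw [Fin.sum_univ_add, Fin.sum_univ_add]
  simp only [Fin.append_left, Fin.append_right]

/-- the average state of an ensemble is a density matrix -/
theorem isDensity_avg {d : Type*} [Fintype d] {m : ℕ} {q : Fin m → ℝ}
    {ρ : Fin m → Matrix d d ℂ} (h : IsEnsemble q ρ) : IsDensity (∑ a, (q a : ℂ) • ρ a) := by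
  obtain ⟨hq, hq1, hρ⟩ := h
  refine ⟨Matrix.posSemidef_sum _ fun a _ => ?_, ?_⟩
  · exact (hρ a).1.smul (by exact_mod_cast hq a)
  · rw [Matrix.trace_sum]
    simp only [Matrix.trace_smul, (hρ _).2, smul_eq_mul, mul_one]
    rw [← Complex.ofReal_sum, hq1, Complex.ofReal_one]

variable {d e : Type} [Fintype d] [Fintype e] [DecidableEq d] [DecidableEq e]

/-- **Holevo upper bound from `Lprime`**: for every ensemble `(q, ρ)` on `Bool × d` there are
populations `z a ∈ [0, 1]` and an ensemble `(q₂, ρ₂)` on `d` with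
`χ(N ⊗ Ψ; q, ρ) ≤ h((1 - γ) ∑ q z + γ ν) - ∑ q_a fOut(z_a) + χ(Ψ; q₂, ρ₂)`. -/
theorem chi_upper {γ ν : ℝ} (hγ : γ ∈ Set.Icc (0 : ℝ) 1) (hν : ν ∈ Set.Icc (0 : ℝ) 1)
    (hL : Lprime γ ν) {Ψ : Matrix d d ℂ → Matrix e e ℂ} (hΨ : IsChannel Ψ)
    {m : ℕ} {q : Fin m → ℝ} {ρ : Fin m → Matrix (Bool × d) (Bool × d) ℂ} (h : IsEnsemble q ρ) :
    ∃ (z : Fin m → ℝ) (m₂ : ℕ) (q₂ : Fin m₂ → ℝ) (ρ₂ : Fin m₂ → Matrix d d ℂ),
      (∀ a, z a ∈ Set.Icc (0 : ℝ) 1) ∧ IsEnsemble q₂ ρ₂ ∧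
      holevoInfo (qubitTensor (gadMap γ ν) Ψ) q ρ ≤
        Real.binEntropy ((1 - γ) * (∑ a, q a * z a) + γ * ν) - ∑ a, q a * fOut γ ν (z a)
          + holevoInfo Ψ q₂ ρ₂ := by
  have hρbarD : IsDensity (∑ a, (q a : ℂ) • ρ a) := isDensity_avg h
  obtain ⟨hq, hq1, hρ⟩ := h
  choose z σ₀ σ₁ hz hσ₀ hσ₁ h0 h1 hlow using fun a => entropy_lower hL hΨ (hρ a)
  refine ⟨z, m + m, Fin.append (fun a => q a * (1 - z a)) (fun a => q a * z a),
    Fin.append σ₀ σ₁, hz, ?_, ?_⟩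
  · refine isEnsemble_append (fun a => mul_nonneg (hq a) (sub_nonneg.2 (hz a).2))
      (fun a => mul_nonneg (hq a) (hz a).1) ?_ hσ₀ hσ₁
    have hs : ∑ a, (q a * (1 - z a) + q a * z a) = ∑ a, q a :=
      Finset.sum_congr rfl fun a _ => by ring
    rw [← Finset.sum_add_distrib, hs]
    exact hq1
  · have hχ := holevoInfo_append Ψ (fun a => q a * (1 - z a)) (fun a => q a * z a) σ₀ σ₁
    beta_reduce at hχ
    rw [hχ]
    set ρbar : Matrix (Bool × d) (Bool × d) ℂ := ∑ a, (q a : ℂ) • ρ a with hρbar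
    have hO : ∑ a, (q a : ℂ) • qubitTensor (gadMap γ ν) Ψ (ρ a)
        = qubitTensor (gadMap γ ν) Ψ ρbar :=
      (Plumb.qubitTensor_sum_smul (gadMap γ ν) hΨ.1 Finset.univ (fun a => (q a : ℂ)) ρ).symm
    have hOD : IsDensity (qubitTensor (gadMap γ ν) Ψ ρbar) :=
      Plumb.qubitTensor_gad_isDensity hγ hν hΨ hρbarD
    have hsub := vnEntropy_subadditive_density _ hOD
    -- the blocks of the average state
    have b0 : block ρbar false false = ∑ a, ((q a * (1 - z a) : ℝ) : ℂ) • σ₀ a := by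
      rw [hρbar, Plumb.block_sum_smul]
      refine Finset.sum_congr rfl fun a _ => ?_
      rw [h0 a, smul_smul, ← Complex.ofReal_mul]
    have b1 : block ρbar true true = ∑ a, ((q a * z a : ℝ) : ℂ) • σ₁ a := by
      rw [hρbar, Plumb.block_sum_smul]
      refine Finset.sum_congr rfl fun a _ => ?_
      rw [h1 a, smul_smul, ← Complex.ofReal_mul]
    -- second marginal of the average output
    have hR : ∑ s, block (qubitTensor (gadMap γ ν) Ψ ρbar) s s
        = ∑ a, ((q a * (1 - z a) : ℝ) : ℂ) • Ψ (σ₀ a) + ∑ a, ((q a * z a : ℝ) : ℂ) • Ψ (σ₁ a) := by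
      rw [Plumb.sum_block_qubitTensor_gad γ ν hΨ.1, Fintype.sum_bool, b0, b1,
        isChannel_map_add hΨ, isChannel_map_sum hΨ, isChannel_map_sum hΨ, add_comm]
      simp only [isChannel_map_smul hΨ]
    -- first marginal of the average output
    have t0 : (block ρbar false false).trace = ((1 - ∑ a, q a * z a : ℝ) : ℂ) := by
      rw [b0, Matrix.trace_sum]
      simp only [Matrix.trace_smul, (hσ₀ _).2, smul_eq_mul, mul_one]
      rw [← Complex.ofReal_sum]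
      congr 1
      have hs : ∑ a, q a * (1 - z a) + ∑ a, q a * z a = ∑ a, q a := by
        rw [← Finset.sum_add_distrib]
        exact Finset.sum_congr rfl fun a _ => by ring
      linarith
    have t1 : (block ρbar true true).trace = ((∑ a, q a * z a : ℝ) : ℂ) := by
      rw [b1, Matrix.trace_sum]
      simp only [Matrix.trace_smul, (hσ₁ _).2, smul_eq_mul, mul_one]
      rw [← Complex.ofReal_sum]
    have hLm : vnEntropy (Matrix.of fun s t =>
          (block (qubitTensor (gadMap γ ν) Ψ ρbar) s t).trace)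
        ≤ Real.binEntropy ((1 - γ) * (∑ a, q a * z a) + γ * ν) := by
      have hD := margL_isDensity _ hOD
      have h2 := vnEntropy_qubit_le hD
      have h3 : (margL (qubitTensor (gadMap γ ν) Ψ ρbar) true true).re
          = (1 - γ) * (∑ a, q a * z a) + γ * ν := by
        change ((block (qubitTensor (gadMap γ ν) Ψ ρbar) true true).trace).re = _
        rw [block_qubitTensor_gadMap_tt, Matrix.trace_add, Matrix.trace_smul, Matrix.trace_smul,
          hΨ.2.2, hΨ.2.2, t0, t1, smul_eq_mul, smul_eq_mul, ← Complex.ofReal_mul,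
          ← Complex.ofReal_mul, ← Complex.ofReal_add, Complex.ofReal_re]
        ring
      rw [h3] at h2
      exact h2
    have hlow' : ∑ a, q a * (fOut γ ν (z a) + (1 - z a) * vnEntropy (Ψ (σ₀ a))
          + z a * vnEntropy (Ψ (σ₁ a)))
        ≤ ∑ a, q a * vnEntropy (qubitTensor (gadMap γ ν) Ψ (ρ a)) :=
      Finset.sum_le_sum fun a _ => mul_le_mul_of_nonneg_left (hlow a) (hq a)
    have e1 : ∑ a, q a * (fOut γ ν (z a) + (1 - z a) * vnEntropy (Ψ (σ₀ a))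
          + z a * vnEntropy (Ψ (σ₁ a)))
        = ∑ a, q a * fOut γ ν (z a) + (∑ a, q a * (1 - z a) * vnEntropy (Ψ (σ₀ a))
          + ∑ a, q a * z a * vnEntropy (Ψ (σ₁ a))) := by
      rw [← Finset.sum_add_distrib, ← Finset.sum_add_distrib]
      exact Finset.sum_congr rfl fun a _ => by ring
    unfold holevoInfo
    rw [hO]
    rw [hR] at hsub
    linarith

end upper

section assembly

/-- the qubit ensemble `{q_a/2 : ψ_{z_a,+}, q_a/2 : ψ_{z_a,-}}` has Holevo information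
`h((1 - γ) ∑ q z + γ ν) - ∑ q_a fOut(z_a)` through `gadMap γ ν`. -/
theorem qubit_ensemble {γ ν : ℝ} (hγ : γ ∈ Set.Icc (0 : ℝ) 1) {m : ℕ} {q z : Fin m → ℝ}
    (hq : ∀ a, 0 ≤ q a) (hq1 : ∑ a, q a = 1) (hz : ∀ a, z a ∈ Set.Icc (0 : ℝ) 1) :
    ∃ (m₁ : ℕ) (q₁ : Fin m₁ → ℝ) (ρ₁ : Fin m₁ → Matrix Bool Bool ℂ), IsEnsemble q₁ ρ₁ ∧
      holevoInfo (gadMap γ ν) q₁ ρ₁
        = Real.binEntropy ((1 - γ) * (∑ a, q a * z a) + γ * ν) - ∑ a, q a * fOut γ ν (z a) := by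
  have h1 : (1 : ℝ) ^ 2 = 1 := by norm_num
  have h2 : (-1 : ℝ) ^ 2 = 1 := by norm_num
  refine ⟨m + m, Fin.append (fun a => q a / 2) (fun a => q a / 2),
    Fin.append (fun a => TwoState.psi (z a) 1) (fun a => TwoState.psi (z a) (-1)), ?_, ?_⟩
  · refine isEnsemble_append (fun a => div_nonneg (hq a) (by norm_num))
      (fun a => div_nonneg (hq a) (by norm_num)) ?_
      (fun a => TwoState.psi_isDensity (z a) 1 (hz a) h1)
      (fun a => TwoState.psi_isDensity (z a) (-1) (hz a) h2)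
    have hs : ∑ a, (q a / 2 + q a / 2) = ∑ a, q a := Finset.sum_congr rfl fun a _ => by ring
    rw [← Finset.sum_add_distrib, hs]
    exact hq1
  · have hχ := holevoInfo_append (gadMap γ ν) (fun a => q a / 2) (fun a => q a / 2)
      (fun a => TwoState.psi (z a) 1) (fun a => TwoState.psi (z a) (-1))
    beta_reduce at hχ
    rw [hχ]
    have hp1 : ∀ a, vnEntropy (gadMap γ ν (TwoState.psi (z a) 1)) = fOut γ ν (z a) :=
      fun a => TwoState.vnEntropy_gadMap_psi γ ν (z a) 1 hγ.2 (hz a) h1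
    have hp2 : ∀ a, vnEntropy (gadMap γ ν (TwoState.psi (z a) (-1))) = fOut γ ν (z a) :=
      fun a => TwoState.vnEntropy_gadMap_psi γ ν (z a) (-1) hγ.2 (hz a) h2
    simp only [hp1, hp2]
    have e_t : ∑ a, q a * ((1 - γ) * z a + γ * ν) = (1 - γ) * ∑ a, q a * z a + γ * ν := by
      calc ∑ a, q a * ((1 - γ) * z a + γ * ν)
          = ∑ a, ((1 - γ) * (q a * z a) + γ * ν * q a) :=
            Finset.sum_congr rfl fun a _ => by ring
        _ = (1 - γ) * ∑ a, q a * z a + γ * ν * ∑ a, q a := by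
            rw [Finset.sum_add_distrib, ← Finset.mul_sum, ← Finset.mul_sum]
        _ = (1 - γ) * ∑ a, q a * z a + γ * ν := by rw [hq1, mul_one]
    have e_f : ∑ a, q a * (1 - ((1 - γ) * z a + γ * ν))
        = 1 - ((1 - γ) * ∑ a, q a * z a + γ * ν) := by
      have hs : ∑ a, q a * (1 - ((1 - γ) * z a + γ * ν))
          = ∑ a, q a - ∑ a, q a * ((1 - γ) * z a + γ * ν) := by
        rw [← Finset.sum_sub_distrib]
        exact Finset.sum_congr rfl fun a _ => by ring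
      rw [hs, e_t, hq1]
    have havg : ∑ a, ((q a / 2 : ℝ) : ℂ) • gadMap γ ν (TwoState.psi (z a) 1)
          + ∑ a, ((q a / 2 : ℝ) : ℂ) • gadMap γ ν (TwoState.psi (z a) (-1))
        = Matrix.diagonal (fun s : Bool =>
            (((if s then (1 - γ) * (∑ a, q a * z a) + γ * ν
                else 1 - ((1 - γ) * (∑ a, q a * z a) + γ * ν)) : ℝ) : ℂ)) := by
      rw [← Finset.sum_add_distrib]
      have hpair : ∀ a, ((q a / 2 : ℝ) : ℂ) • gadMap γ ν (TwoState.psi (z a) 1)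
            + ((q a / 2 : ℝ) : ℂ) • gadMap γ ν (TwoState.psi (z a) (-1))
          = (q a : ℂ) • Matrix.diagonal (fun s : Bool =>
              (((if s then (1 - γ) * z a + γ * ν else 1 - ((1 - γ) * z a + γ * ν)) : ℝ) : ℂ)) := by
        intro a
        rw [← TwoState.avg_gadMap_psi γ ν (z a) (hz a), smul_add, smul_smul, smul_smul]
        congr 2 <;> (push_cast; ring)
      simp only [hpair]
      ext s t
      rw [Matrix.sum_apply]
      by_cases hst : s = t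
      · subst hst
        simp only [Matrix.smul_apply, Matrix.diagonal_apply_eq, smul_eq_mul]
        simp only [← Complex.ofReal_mul]
        rw [← Complex.ofReal_sum]
        congr 1
        cases s
        · simpa using e_f
        · simpa using e_t
      · simp [Matrix.diagonal_apply_ne _ hst]
    rw [havg, vnEntropy_diagonal, Fintype.sum_bool]
    simp only [if_true, Bool.false_eq_true, if_false]
    rw [Real.binEntropy_eq_negMulLog_add_negMulLog_one_sub]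
    have hs : ∑ a, q a / 2 * fOut γ ν (z a) + ∑ a, q a / 2 * fOut γ ν (z a)
        = ∑ a, q a * fOut γ ν (z a) := by
      rw [← Finset.sum_add_distrib]
      exact Finset.sum_congr rfl fun a _ => by ring
    rw [hs]

variable {d e : Type} [Fintype d] [Fintype e] [DecidableEq d] [DecidableEq e]

/-- **`S0535`, clause (1)** from `Lprime`. -/
theorem clause1 {γ ν : ℝ} (hγ : γ ∈ Set.Icc (0 : ℝ) 1) (hν : ν ∈ Set.Icc (0 : ℝ) 1)
    (hL : Lprime γ ν) {Ψ : Matrix d d ℂ → Matrix e e ℂ} (hΨ : IsChannel Ψ) :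
    ∀ (m : ℕ) (q : Fin m → ℝ) (ρ : Fin m → Matrix (Bool × d) (Bool × d) ℂ), IsEnsemble q ρ →
      ∀ ε > (0 : ℝ), ∃ (m₁ : ℕ) (q₁ : Fin m₁ → ℝ) (ρ₁ : Fin m₁ → Matrix Bool Bool ℂ)
        (m₂ : ℕ) (q₂ : Fin m₂ → ℝ) (ρ₂ : Fin m₂ → Matrix d d ℂ),
        IsEnsemble q₁ ρ₁ ∧ IsEnsemble q₂ ρ₂ ∧
          holevoInfo (qubitTensor (gadMap γ ν) Ψ) q ρ ≤
            holevoInfo (gadMap γ ν) q₁ ρ₁ + holevoInfo Ψ q₂ ρ₂ + ε := by
  intro m q ρ h ε hε
  obtain ⟨z, m₂, q₂, ρ₂, hz, h₂, hle⟩ := chi_upper hγ hν hL hΨ h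
  obtain ⟨m₁, q₁, ρ₁, h₁, heq⟩ := qubit_ensemble (ν := ν) hγ h.1 h.2.1 hz
  exact ⟨m₁, q₁, ρ₁, m₂, q₂, ρ₂, h₁, h₂, by rw [heq]; linarith⟩

/-- **`AddUpper`** (the body of the Prop used by the `S0534` assembly) from `Lprime`: the Holevo
information of any ensemble through `gadMap γ ν ⊗ Ψ` is at most `gadRate γ ν p` plus a Holevo
information of `Ψ`, with `p` the mean excited population (Jensen for `fOut`). -/
theorem addUpper {γ ν : ℝ} (hγ : γ ∈ Set.Icc (0 : ℝ) 1) (hν : ν ∈ Set.Icc (0 : ℝ) 1)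
    (hL : Lprime γ ν) {Ψ : Matrix d d ℂ → Matrix e e ℂ} (hΨ : IsChannel Ψ) :
    ∀ (m : ℕ) (q : Fin m → ℝ) (ρ : Fin m → Matrix (Bool × d) (Bool × d) ℂ), IsEnsemble q ρ →
      ∃ p ∈ Set.Icc (0 : ℝ) 1, ∃ (m₂ : ℕ) (q₂ : Fin m₂ → ℝ) (ρ₂ : Fin m₂ → Matrix d d ℂ),
        IsEnsemble q₂ ρ₂ ∧
          holevoInfo (qubitTensor (gadMap γ ν) Ψ) q ρ ≤ gadRate γ ν p + holevoInfo Ψ q₂ ρ₂ := by
  intro m q ρ h
  obtain ⟨z, m₂, q₂, ρ₂, hz, h₂, hle⟩ := chi_upper hγ hν hL hΨ h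
  have hJ := fOut_jensen hγ hν Finset.univ q z (fun a _ => h.1 a) h.2.1 (fun a _ => hz a)
  refine ⟨∑ a, q a * z a, ⟨Finset.sum_nonneg fun a _ => mul_nonneg (h.1 a) (hz a).1, ?_⟩,
    m₂, q₂, ρ₂, h₂, ?_⟩
  · calc ∑ a, q a * z a ≤ ∑ a, q a * 1 :=
          Finset.sum_le_sum fun a _ => mul_le_mul_of_nonneg_left (hz a).2 (h.1 a)
      _ = 1 := by simp [h.2.1]
  · rw [gadRate_eq]
    linarith

end assembly

/-- **WP-T: the frozen statement of `S0535` from `Lprime γ ν`** (clauses (1), (3) from `Lprime`;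
clauses (2), (4) are the product ensembles/states of `GAD/Product`). -/
theorem S0535_of_Lprime (γ ν : ℝ)
    (hγ : γ ∈ Set.Icc (0 : ℝ) 1) (hν : ν ∈ Set.Icc (0 : ℝ) 1) (hL : Lprime γ ν)
    (d e : Type) [Fintype d] [Fintype e] [DecidableEq d] [DecidableEq e] [Nonempty d] [Nonempty e]
    (Ψ : Matrix d d ℂ → Matrix e e ℂ) (hΨ : IsChannel Ψ) :
    (∀ (m : ℕ) (q : Fin m → ℝ) (ρ : Fin m → Matrix (Bool × d) (Bool × d) ℂ), IsEnsemble q ρ →
      ∀ ε > (0 : ℝ), ∃ (m₁ : ℕ) (q₁ : Fin m₁ → ℝ) (ρ₁ : Fin m₁ → Matrix Bool Bool ℂ)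
        (m₂ : ℕ) (q₂ : Fin m₂ → ℝ) (ρ₂ : Fin m₂ → Matrix d d ℂ),
        IsEnsemble q₁ ρ₁ ∧ IsEnsemble q₂ ρ₂ ∧
          holevoInfo (qubitTensor (gadMap γ ν) Ψ) q ρ ≤
            holevoInfo (gadMap γ ν) q₁ ρ₁ + holevoInfo Ψ q₂ ρ₂ + ε) ∧
    (∀ (m₁ : ℕ) (q₁ : Fin m₁ → ℝ) (ρ₁ : Fin m₁ → Matrix Bool Bool ℂ)
      (m₂ : ℕ) (q₂ : Fin m₂ → ℝ) (ρ₂ : Fin m₂ → Matrix d d ℂ), IsEnsemble q₁ ρ₁ → IsEnsemble q₂ ρ₂ →
      ∃ (m : ℕ) (q : Fin m → ℝ) (ρ : Fin m → Matrix (Bool × d) (Bool × d) ℂ), IsEnsemble q ρ ∧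
        holevoInfo (gadMap γ ν) q₁ ρ₁ + holevoInfo Ψ q₂ ρ₂ ≤
          holevoInfo (qubitTensor (gadMap γ ν) Ψ) q ρ) ∧
    (∀ ρ : Matrix (Bool × d) (Bool × d) ℂ, IsDensity ρ → ∀ ε > (0 : ℝ),
      ∃ (ρ₁ : Matrix Bool Bool ℂ) (ρ₂ : Matrix d d ℂ), IsDensity ρ₁ ∧ IsDensity ρ₂ ∧
        vnEntropy (gadMap γ ν ρ₁) + vnEntropy (Ψ ρ₂) ≤ vnEntropy (qubitTensor (gadMap γ ν) Ψ ρ) + ε) ∧
    (∀ (ρ₁ : Matrix Bool Bool ℂ) (ρ₂ : Matrix d d ℂ), IsDensity ρ₁ → IsDensity ρ₂ →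
      ∃ ρ : Matrix (Bool × d) (Bool × d) ℂ, IsDensity ρ ∧
        vnEntropy (qubitTensor (gadMap γ ν) Ψ ρ) ≤ vnEntropy (gadMap γ ν ρ₁) + vnEntropy (Ψ ρ₂)) :=
  ⟨clause1 hγ hν hL hΨ, Product.clause2 γ ν Ψ hΨ, clause3 hγ hL hΨ, Product.clause4 γ ν Ψ hΨ⟩

end Crest.Agent.GAD.Tail535
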