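import Mathlib
import Crest.Prelude.Def_QState
import Crest.Prelude.Def_QChannel
import Crest.Prelude.Def_AmpDamp
import Crest.Agent.GAD.Lprime
import Crest.Agent.GAD.Entropy
import Crest.Agent.GAD.Plumb
import Crest.Agent.GAD.Product
import Crest.Agent.GAD.TwoState
import Crest.Agent.GAD.Power
import Crest.Agent.GAD.AddUpper

/-!
# Row 341, the tail: `S0535` and `S0534` from `(L')`

`S0535_of_Lprime` and `S0534_of_Lprime` have, after the hypothesis `hL : Lprime γ ν`, exactly the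
frozen statements of `S0535` and `S0534`.

* clause (1) of `S0535`: `addUpper_of_Lprime` + the two-state ensemble (`TwoState.gad_single_lower`);
* clause (2), (4): `Product.clause2`, `Product.clause4`;
* clause (3): `(L')` for `gadMap ⊗ Ψ` (`AU72.lprime_tensor`), the scaling rule of the entropy
  (`AU72.entropy_nrm`) and the pure state `TwoState.psi z 1`;
* `S0534`: `s0534_of_add` with `addUpper_of_Lprime` and `TwoState.addLower`.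
-/

set_option autoImplicit false

namespace Crest.Agent.GAD.Tail72

open Crest.Quantum Crest.MathPhysics.AmpDamp Matrix
open Crest.Agent.GAD
open scoped ComplexOrder

/-- Clause (1) of `S0535` from `(L')` (no `ε` is lost). -/
theorem clause1 (γ ν : ℝ) (hγ : γ ∈ Set.Icc (0 : ℝ) 1) (hν : ν ∈ Set.Icc (0 : ℝ) 1)
    (hL : Lprime γ ν)
    (d e : Type) [Fintype d] [Fintype e] [DecidableEq d] [DecidableEq e] [Nonempty d] [Nonempty e]
    (Ψ : Matrix d d ℂ → Matrix e e ℂ) (hΨ : IsChannel Ψ) :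
    ∀ (m : ℕ) (q : Fin m → ℝ) (ρ : Fin m → Matrix (Bool × d) (Bool × d) ℂ), IsEnsemble q ρ →
      ∀ ε > (0 : ℝ), ∃ (m₁ : ℕ) (q₁ : Fin m₁ → ℝ) (ρ₁ : Fin m₁ → Matrix Bool Bool ℂ)
        (m₂ : ℕ) (q₂ : Fin m₂ → ℝ) (ρ₂ : Fin m₂ → Matrix d d ℂ),
        IsEnsemble q₁ ρ₁ ∧ IsEnsemble q₂ ρ₂ ∧
          holevoInfo (qubitTensor (gadMap γ ν) Ψ) q ρ ≤
            holevoInfo (gadMap γ ν) q₁ ρ₁ + holevoInfo Ψ q₂ ρ₂ + ε := by
  intro m q ρ hens ε hε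
  obtain ⟨p, hp, m₂, q₂, ρ₂, h₂, hle⟩ := addUpper_of_Lprime hγ hν hL d e Ψ hΨ m q ρ hens
  obtain ⟨m₁, q₁, ρ₁, h₁, hge⟩ := TwoState.gad_single_lower γ ν hγ.2 p hp
  exact ⟨m₁, q₁, ρ₁, m₂, q₂, ρ₂, h₁, h₂, by linarith⟩

/-- Clause (3) of `S0535` from `(L')` (no `ε` is lost). -/
theorem clause3 (γ ν : ℝ) (hγ : γ ∈ Set.Icc (0 : ℝ) 1) (hν : ν ∈ Set.Icc (0 : ℝ) 1)
    (hL : Lprime γ ν)
    (d e : Type) [Fintype d] [Fintype e] [DecidableEq d] [DecidableEq e] [Nonempty d] [Nonempty e]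
    (Ψ : Matrix d d ℂ → Matrix e e ℂ) (hΨ : IsChannel Ψ) :
    ∀ ρ : Matrix (Bool × d) (Bool × d) ℂ, IsDensity ρ → ∀ ε > (0 : ℝ),
      ∃ (ρ₁ : Matrix Bool Bool ℂ) (ρ₂ : Matrix d d ℂ), IsDensity ρ₁ ∧ IsDensity ρ₂ ∧
        vnEntropy (gadMap γ ν ρ₁) + vnEntropy (Ψ ρ₂)
          ≤ vnEntropy (qubitTensor (gadMap γ ν) Ψ ρ) + ε := by
  intro ρ hρ ε hε
  have hX : (block ρ false false).PosSemidef := Plumb.block_posSemidef hρ.1 false
  have hZ : (block ρ true true).PosSemidef := Plumb.block_posSemidef hρ.1 true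
  have hxz : (block ρ false false).trace.re = 1 - (block ρ true true).trace.re := by
    have h := hρ.2
    rw [Plumb.trace_eq_block_bool] at h
    have h' := congrArg Complex.re h
    simp only [Complex.add_re, Complex.one_re] at h'
    linarith
  have hz0 : 0 ≤ (block ρ true true).trace.re := AU72.trace_re_nonneg hZ
  have hz1 : (block ρ true true).trace.re ≤ 1 := by
    have := AU72.trace_re_nonneg hX
    rw [hxz] at this
    linarith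
  have h1 := AU72.lprime_tensor hL hΨ hρ
  have e1 := AU72.entropy_nrm hΨ hX
  have e2 := AU72.entropy_nrm hΨ hZ
  have hb := Real.binEntropy_eq_negMulLog_add_negMulLog_one_sub (block ρ true true).trace.re
  have hfo : vnEntropy (gadMap γ ν (TwoState.psi (block ρ true true).trace.re 1))
      = fOut γ ν (block ρ true true).trace.re :=
    TwoState.vnEntropy_gadMap_psi γ ν _ 1 hγ.2 ⟨hz0, hz1⟩ (by norm_num)
  have hd1 : IsDensity (TwoState.psi (block ρ true true).trace.re 1) :=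
    TwoState.psi_isDensity _ 1 ⟨hz0, hz1⟩ (by norm_num)
  rw [hxz] at e1
  have hmain : fOut γ ν (block ρ true true).trace.re
      + (1 - (block ρ true true).trace.re) * vnEntropy (Ψ (AU72.nrm (block ρ false false)))
      + (block ρ true true).trace.re * vnEntropy (Ψ (AU72.nrm (block ρ true true)))
      ≤ vnEntropy (qubitTensor (gadMap γ ν) Ψ ρ) := by
    linarith
  by_cases hc : vnEntropy (Ψ (AU72.nrm (block ρ false false)))
      ≤ vnEntropy (Ψ (AU72.nrm (block ρ true true)))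
  · refine ⟨TwoState.psi (block ρ true true).trace.re 1, AU72.nrm (block ρ false false), hd1,
      AU72.nrm_isDensity hX, ?_⟩
    rw [hfo]
    nlinarith [mul_nonneg hz0 (sub_nonneg.mpr hc)]
  · refine ⟨TwoState.psi (block ρ true true).trace.re 1, AU72.nrm (block ρ true true), hd1,
      AU72.nrm_isDensity hZ, ?_⟩
    rw [hfo]
    nlinarith [mul_nonneg (sub_nonneg.mpr hz1) (sub_nonneg.mpr (le_of_lt (not_le.mp hc)))]

/-- **WP-T.** The statement `S0535` from `(L')`. -/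
theorem S0535_of_Lprime (γ ν : ℝ)
    (hγ : γ ∈ Set.Icc (0 : ℝ) 1) (hν : ν ∈ Set.Icc (0 : ℝ) 1) (hL : Lprime γ ν)
    (d e : Type) [Fintype d] [Fintype e] [DecidableEq d] [DecidableEq e] [Nonempty d] [Nonempty e]
    (Ψ : Matrix d d ℂ → Matrix e e ℂ) (hΨ : IsChannel Ψ) :
    (∀ (m : ℕ) (q : Fin m → ℝ) (ρ : Fin m → Matrix (Bool × d) (Bool × d) ℂ), IsEnsemble q ρ →
      ∀ ε > (0 : ℝ), ∃ (m₁ : ℕ) (q₁ : Fin m₁ → ℝ) (ρ₁ : Fin m₁ → Matrix Bool Bool ℂ)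
        (m₂ : ℕ) (q₂ : Fin m₂ → ℝ) (ρ₂ : Fin m₂ → Matrix d d ℂ),
        IsEnsemble q₁ ρ₁ ∧ IsEnsemble q₂ ρ₂ ∧
          holevoInfo (qubitTensor (gadMap γ ν) Ψ) q ρ ≤
            holevoInfo (gadMap γ ν) q₁ ρ₁ + holevoInfo Ψ q₂ ρ₂ + ε) ∧
    (∀ (m₁ : ℕ) (q₁ : Fin m₁ → ℝ) (ρ₁ : Fin m₁ → Matrix Bool Bool ℂ)
      (m₂ : ℕ) (q₂ : Fin m₂ → ℝ) (ρ₂ : Fin m₂ → Matrix d d ℂ), IsEnsemble q₁ ρ₁ → IsEnsemble q₂ ρ₂ →
      ∃ (m : ℕ) (q : Fin m → ℝ) (ρ : Fin m → Matrix (Bool × d) (Bool × d) ℂ), IsEnsemble q ρ ∧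
        holevoInfo (gadMap γ ν) q₁ ρ₁ + holevoInfo Ψ q₂ ρ₂ ≤
          holevoInfo (qubitTensor (gadMap γ ν) Ψ) q ρ) ∧
    (∀ ρ : Matrix (Bool × d) (Bool × d) ℂ, IsDensity ρ → ∀ ε > (0 : ℝ),
      ∃ (ρ₁ : Matrix Bool Bool ℂ) (ρ₂ : Matrix d d ℂ), IsDensity ρ₁ ∧ IsDensity ρ₂ ∧
        vnEntropy (gadMap γ ν ρ₁) + vnEntropy (Ψ ρ₂) ≤ vnEntropy (qubitTensor (gadMap γ ν) Ψ ρ) + ε) ∧
    (∀ (ρ₁ : Matrix Bool Bool ℂ) (ρ₂ : Matrix d d ℂ), IsDensity ρ₁ → IsDensity ρ₂ →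
      ∃ ρ : Matrix (Bool × d) (Bool × d) ℂ, IsDensity ρ ∧
        vnEntropy (qubitTensor (gadMap γ ν) Ψ ρ) ≤ vnEntropy (gadMap γ ν ρ₁) + vnEntropy (Ψ ρ₂)) :=
  ⟨clause1 γ ν hγ hν hL d e Ψ hΨ, Product.clause2 γ ν Ψ hΨ, clause3 γ ν hγ hν hL d e Ψ hΨ,
    Product.clause4 γ ν Ψ hΨ⟩

/-- **WP-T.** The statement `S0534` from `(L')`. -/
theorem S0534_of_Lprime (γ ν : ℝ) (hγ : γ ∈ Set.Icc (0 : ℝ) 1)
    (hν : ν ∈ Set.Icc (0 : ℝ) 1) (hL : Lprime γ ν) (n : ℕ) (hn : 1 ≤ n) :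
    (∀ (m : ℕ) (q : Fin m → ℝ) (ρ : Fin m → Matrix (Fin n → Bool) (Fin n → Bool) ℂ),
        IsEnsemble q ρ → ∃ p ∈ Set.Icc (0 : ℝ) 1,
          holevoInfo (qubitPower n (gadMap γ ν)) q ρ ≤ n * gadRate γ ν p) ∧
    (∀ p ∈ Set.Icc (0 : ℝ) 1, ∃ (m : ℕ) (q : Fin m → ℝ)
        (ρ : Fin m → Matrix (Fin n → Bool) (Fin n → Bool) ℂ),
        IsEnsemble q ρ ∧ n * gadRate γ ν p ≤ holevoInfo (qubitPower n (gadMap γ ν)) q ρ) :=
  s0534_of_add γ ν hγ hν (addUpper_of_Lprime hγ hν hL)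
    (fun d e _ _ _ _ _ _ Ψ hΨ => TwoState.addLower γ ν hγ.2 Ψ hΨ) n

end Crest.Agent.GAD.Tail72
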