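import Mathlib
import Crest.Prelude.Def_QState
import Crest.Prelude.Def_QChannel
import Crest.Prelude.Def_AmpDamp
import Crest.Agent.GAD.Lprime
import Crest.Agent.GAD.Entropy
import Crest.Agent.GAD.Subadd
import Crest.Agent.GAD.Plumb
import Crest.Agent.GAD.Product
import Crest.Agent.GAD.Scalar
import Crest.Agent.GAD.Qubit1

/-!
# Row 341, tail module M6a: `S0535` clauses (1) and (3) from `Lprime`

helper92 (independent hedge of `Tail535`).  For a channel `Ψ : d → e`, `N = gadMap γ ν`: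

* `core` : `(L')` transported through `id ⊗ Ψ`:
  `fOut z + S(Ψ X) + S(Ψ Z) - h(z) ≤ S((N ⊗ Ψ) M)` for a density `M` with diagonal blocks `X`, `Z`,
  `z = tr Z`;
* `clause1` : every ensemble for `N ⊗ Ψ` is dominated by a qubit ensemble plus a system ensemble
  (subadditivity, the single-qubit facts of `Qubit1`, Jensen for `fOut`);
* `clause3` : the same for minimum output entropies.

Both clauses are stated in the exact text of the frozen statement `S0535` (its first and third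
conjunct); no `ε` is really needed.
-/

set_option autoImplicit false
set_option linter.unusedSectionVars false

namespace Crest.Agent.GAD.Tail92

open Crest.Quantum Crest.MathPhysics.AmpDamp Matrix
open Crest.Agent.GAD
open scoped ComplexOrder

section basics

variable {d e : Type} [Fintype d] [Fintype e] [DecidableEq d] [DecidableEq e]

theorem trace_re_nonneg {B : Matrix d d ℂ} (hB : B.PosSemidef) : 0 ≤ B.trace.re :=
  (Complex.nonneg_iff.mp hB.trace_nonneg).1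

theorem trace_eq_ofReal {B : Matrix d d ℂ} (hB : B.PosSemidef) :
    B.trace = ((B.trace.re : ℝ) : ℂ) := by
  apply Complex.ext
  · simp
  · simpa using (Complex.nonneg_iff.mp hB.trace_nonneg).2.symm

theorem eq_zero_of_trace_re {B : Matrix d d ℂ} (hB : B.PosSemidef) (h : B.trace.re = 0) :
    B = 0 := by
  have h0 : B.trace = 0 := by rw [trace_eq_ofReal hB, h]; simp
  exact hB.trace_eq_zero_iff.mp h0

/-- Normalisation of a positive semidefinite matrix; the zero matrix goes to the default `ρ₀`. -/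
noncomputable def nrm (ρ₀ B : Matrix d d ℂ) : Matrix d d ℂ :=
  if B.trace.re = 0 then ρ₀ else (((B.trace.re)⁻¹ : ℝ) : ℂ) • B

theorem nrm_isDensity {ρ₀ B : Matrix d d ℂ} (h0 : IsDensity ρ₀) (hB : B.PosSemidef) :
    IsDensity (nrm ρ₀ B) := by
  unfold nrm
  split_ifs with h
  · exact h0
  · have hpos : 0 < B.trace.re := lt_of_le_of_ne (trace_re_nonneg hB) (Ne.symm h)
    refine ⟨hB.smul (by exact_mod_cast (inv_nonneg.mpr hpos.le)), ?_⟩
    rw [Matrix.trace_smul, smul_eq_mul]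
    calc (((B.trace.re)⁻¹ : ℝ) : ℂ) * B.trace
        = (((B.trace.re)⁻¹ : ℝ) : ℂ) * ((B.trace.re : ℝ) : ℂ) := by rw [← trace_eq_ofReal hB]
      _ = 1 := by rw [← Complex.ofReal_mul, inv_mul_cancel₀ h, Complex.ofReal_one]

theorem smul_nrm {ρ₀ B : Matrix d d ℂ} (hB : B.PosSemidef) :
    ((B.trace.re : ℝ) : ℂ) • nrm ρ₀ B = B := by
  unfold nrm
  split_ifs with h
  · rw [h, eq_zero_of_trace_re hB h]; simp
  · rw [smul_smul, ← Complex.ofReal_mul, mul_inv_cancel₀ h, Complex.ofReal_one, one_smul]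

theorem channel_nrm {Ψ : Matrix d d ℂ → Matrix e e ℂ} (hΨ : IsLinearMap ℂ Ψ)
    {ρ₀ B : Matrix d d ℂ} (hB : B.PosSemidef) :
    Ψ B = ((B.trace.re : ℝ) : ℂ) • Ψ (nrm ρ₀ B) := by
  calc Ψ B = Ψ (((B.trace.re : ℝ) : ℂ) • nrm ρ₀ B) := by rw [smul_nrm hB]
    _ = ((B.trace.re : ℝ) : ℂ) • Ψ (nrm ρ₀ B) := hΨ.map_smul _ _

/-- Entropy of the channel output on an unnormalised block. -/
theorem entropy_channel_nrm {Ψ : Matrix d d ℂ → Matrix e e ℂ} (hΨ : IsChannel Ψ)
    {ρ₀ B : Matrix d d ℂ} (h0 : IsDensity ρ₀) (hB : B.PosSemidef) :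
    B.trace.re * vnEntropy (Ψ (nrm ρ₀ B)) = vnEntropy (Ψ B) - Real.negMulLog B.trace.re := by
  have hd := Product.isDensity_apply_of_isChannel hΨ (nrm_isDensity h0 hB)
  rw [channel_nrm (ρ₀ := ρ₀) hΨ.1 hB, vnEntropy_smul hd.1.1, hd.2]
  simp

theorem map_sum_smul {Ψ : Matrix d d ℂ → Matrix e e ℂ} (hΨ : IsLinearMap ℂ Ψ) {ι : Type*}
    (s : Finset ι) (c : ι → ℂ) (A : ι → Matrix d d ℂ) :
    Ψ (∑ x ∈ s, c x • A x) = ∑ x ∈ s, c x • Ψ (A x) := by
  have h := map_sum hΨ.mk' (fun x => c x • A x) s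
  simp only [IsLinearMap.mk'_apply, hΨ.map_smul] at h
  exact h

theorem map_sum' {Ψ : Matrix d d ℂ → Matrix e e ℂ} (hΨ : IsLinearMap ℂ Ψ) {ι : Type*}
    (s : Finset ι) (A : ι → Matrix d d ℂ) :
    Ψ (∑ x ∈ s, A x) = ∑ x ∈ s, Ψ (A x) := by
  have h := map_sum hΨ.mk' A s
  simpa only [IsLinearMap.mk'_apply] using h

/-- A nonzero system has a density matrix. -/
theorem exists_density (d : Type) [Fintype d] [DecidableEq d] [Nonempty d] :
    ∃ ρ₀ : Matrix d d ℂ, IsDensity ρ₀ := by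
  obtain ⟨i⟩ := ‹Nonempty d›
  refine ⟨Matrix.diagonal (fun j => if j = i then 1 else 0), ?_, ?_⟩
  · refine Matrix.PosSemidef.diagonal fun j => ?_
    by_cases h : j = i <;> simp [h]
  · simp [Matrix.trace_diagonal]

/-- An ensemble indexed by any finite type, reindexed by `Fin m`. -/
theorem exists_fin_ensemble {ι : Type} [Fintype ι] (Φ : Matrix d d ℂ → Matrix e e ℂ)
    (w : ι → ℝ) (σ : ι → Matrix d d ℂ) (hw : ∀ i, 0 ≤ w i) (h1 : ∑ i, w i = 1)
    (hσ : ∀ i, IsDensity (σ i)) :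
    ∃ (m : ℕ) (q : Fin m → ℝ) (ρ : Fin m → Matrix d d ℂ), IsEnsemble q ρ ∧
      holevoInfo Φ q ρ
        = vnEntropy (∑ i, (w i : ℂ) • Φ (σ i)) - ∑ i, w i * vnEntropy (Φ (σ i)) := by
  classical
  let f : Fin (Fintype.card ι) ≃ ι := (Fintype.equivFin ι).symm
  refine ⟨Fintype.card ι, fun a => w (f a), fun a => σ (f a),
    ⟨fun a => hw _, ?_, fun a => hσ _⟩, ?_⟩
  · rw [← h1]
    exact Equiv.sum_comp f w
  · unfold holevoInfo
    rw [Equiv.sum_comp f (fun i => (w i : ℂ) • Φ (σ i)),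
      Equiv.sum_comp f (fun i => w i * vnEntropy (Φ (σ i)))]

/-- `(L')` transported through `id ⊗ Ψ`. -/
theorem core (γ ν : ℝ) (hL : Lprime γ ν) {Ψ : Matrix d d ℂ → Matrix e e ℂ} (hΨ : IsChannel Ψ)
    {M : Matrix (Bool × d) (Bool × d) ℂ} (hM : IsDensity M) :
    fOut γ ν ((block M true true).trace.re)
      + vnEntropy (Ψ (block M false false)) + vnEntropy (Ψ (block M true true))
      - Real.binEntropy ((block M true true).trace.re)
    ≤ vnEntropy (qubitTensor (gadMap γ ν) Ψ M) := by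
  have h := hL e (blockwise (k := Bool) Ψ M) (Plumb.blockwise_isDensity hΨ hM)
  have h' : fOut γ ν ((Ψ (block M true true)).trace.re)
      + vnEntropy (Ψ (block M false false)) + vnEntropy (Ψ (block M true true))
      - Real.binEntropy ((Ψ (block M true true)).trace.re)
    ≤ vnEntropy (qubitTensor (gadMap γ ν) Ψ M) := h
  rwa [hΨ.2.2 (block M true true)] at h'

end basics

section clauses

variable {d e : Type} [Fintype d] [Fintype e] [DecidableEq d] [DecidableEq e]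

/-- The excited population of the average state. -/
theorem trace_block_sum_smul_re {m : ℕ} (q : Fin m → ℝ)
    (ρ : Fin m → Matrix (Bool × d) (Bool × d) ℂ) (s : Bool) :
    (block (∑ a, (q a : ℂ) • ρ a) s s).trace.re = ∑ a, q a * (block (ρ a) s s).trace.re := by
  rw [Plumb.block_sum_smul, Matrix.trace_sum, Complex.re_sum]
  refine Finset.sum_congr rfl fun a _ => ?_
  rw [Matrix.trace_smul, smul_eq_mul, Complex.re_ofReal_mul]

/-- **`S0535`, clause (1)** (exact text) from `(L')`. -/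
theorem clause1 (γ ν : ℝ) (hγ : γ ∈ Set.Icc (0 : ℝ) 1) (hν : ν ∈ Set.Icc (0 : ℝ) 1)
    (hL : Lprime γ ν) [Nonempty d] (Ψ : Matrix d d ℂ → Matrix e e ℂ) (hΨ : IsChannel Ψ) :
    ∀ (m : ℕ) (q : Fin m → ℝ) (ρ : Fin m → Matrix (Bool × d) (Bool × d) ℂ), IsEnsemble q ρ →
      ∀ ε > (0 : ℝ), ∃ (m₁ : ℕ) (q₁ : Fin m₁ → ℝ) (ρ₁ : Fin m₁ → Matrix Bool Bool ℂ)
        (m₂ : ℕ) (q₂ : Fin m₂ → ℝ) (ρ₂ : Fin m₂ → Matrix d d ℂ),
        IsEnsemble q₁ ρ₁ ∧ IsEnsemble q₂ ρ₂ ∧
          holevoInfo (qubitTensor (gadMap γ ν) Ψ) q ρ ≤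
            holevoInfo (gadMap γ ν) q₁ ρ₁ + holevoInfo Ψ q₂ ρ₂ + ε := by
  intro m q ρ hens ε hε
  obtain ⟨ρ₀, h0⟩ := exists_density d
  have hbar : IsDensity (∑ a, (q a : ℂ) • ρ a) := q1_isDensity_sum_smul hens
  obtain ⟨hq, hq1, hρ⟩ := hens
  -- diagonal blocks and their traces
  have hB : ∀ a s, (block (ρ a) s s).PosSemidef := fun a s => Plumb.block_posSemidef (hρ a).1 s
  have ht0 : ∀ a s, 0 ≤ (block (ρ a) s s).trace.re := fun a s => trace_re_nonneg (hB a s)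
  have ht1 : ∀ a, (block (ρ a) false false).trace.re + (block (ρ a) true true).trace.re = 1 := by
    intro a
    have h := (hρ a).2
    rw [Plumb.trace_eq_block_bool] at h
    have h' := congrArg Complex.re h
    simpa using h'
  have hz01 : ∀ a, (block (ρ a) true true).trace.re ∈ Set.Icc (0 : ℝ) 1 := fun a =>
    ⟨ht0 a true, by linarith [ht0 a false, ht1 a]⟩
  -- the mean excited population
  have hzbar : (block (∑ a, (q a : ℂ) • ρ a) true true).trace.re
      = ∑ a, q a * (block (ρ a) true true).trace.re := trace_block_sum_smul_re q ρ true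
  have hzbar01 : (∑ a, q a * (block (ρ a) true true).trace.re) ∈ Set.Icc (0 : ℝ) 1 := by
    constructor
    · exact Finset.sum_nonneg fun a _ => mul_nonneg (hq a) (ht0 a true)
    · calc ∑ a, q a * (block (ρ a) true true).trace.re ≤ ∑ a, q a * 1 :=
            Finset.sum_le_sum fun a _ => mul_le_mul_of_nonneg_left (hz01 a).2 (hq a)
        _ = 1 := by simp [hq1]
  -- the qubit ensemble
  obtain ⟨m₁, q₁, ρ₁, hens₁, hχ₁⟩ := gad_single_lower γ ν hγ hν _ hzbar01
  -- the system ensemble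
  obtain ⟨m₂, q₂, ρ₂, hens₂, hχ₂⟩ := exists_fin_ensemble (ι := Fin m × Bool) Ψ
    (fun p => q p.1 * (block (ρ p.1) p.2 p.2).trace.re)
    (fun p => nrm ρ₀ (block (ρ p.1) p.2 p.2))
    (fun p => mul_nonneg (hq _) (ht0 _ _))
    (by
      rw [Fintype.sum_prod_type]
      simp only [Fintype.sum_bool]
      rw [← hq1]
      refine Finset.sum_congr rfl fun a _ => ?_
      rw [← mul_add, add_comm, ht1 a, mul_one])
    (fun p => nrm_isDensity h0 (hB _ _))
  refine ⟨m₁, q₁, ρ₁, m₂, q₂, ρ₂, hens₁, hens₂, ?_⟩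
  -- the average output of the system ensemble
  have hΨavg : ∑ p : Fin m × Bool, ((q p.1 * (block (ρ p.1) p.2 p.2).trace.re : ℝ) : ℂ)
        • Ψ (nrm ρ₀ (block (ρ p.1) p.2 p.2))
      = Ψ (∑ s, block (∑ a, (q a : ℂ) • ρ a) s s) := by
    rw [map_sum' hΨ.1, Fintype.sum_prod_type, Finset.sum_comm]
    refine Finset.sum_congr rfl fun s _ => ?_
    rw [Plumb.block_sum_smul, map_sum_smul hΨ.1]
    refine Finset.sum_congr rfl fun a _ => ?_
    rw [channel_nrm (ρ₀ := ρ₀) hΨ.1 (hB a s), smul_smul, Complex.ofReal_mul]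
  -- the average output entropy of the system ensemble
  have hΨent : ∑ p : Fin m × Bool, (q p.1 * (block (ρ p.1) p.2 p.2).trace.re)
        * vnEntropy (Ψ (nrm ρ₀ (block (ρ p.1) p.2 p.2)))
      = ∑ a, q a * (vnEntropy (Ψ (block (ρ a) false false))
          + vnEntropy (Ψ (block (ρ a) true true))
          - Real.binEntropy ((block (ρ a) true true).trace.re)) := by
    rw [Fintype.sum_prod_type]
    refine Finset.sum_congr rfl fun a _ => ?_
    rw [Fintype.sum_bool, mul_assoc, mul_assoc, entropy_channel_nrm hΨ h0 (hB a true),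
      entropy_channel_nrm hΨ h0 (hB a false), Real.binEntropy_eq_negMulLog_add_negMulLog_one_sub]
    have e1 : 1 - (block (ρ a) true true).trace.re = (block (ρ a) false false).trace.re := by
      linarith [ht1 a]
    rw [e1]
    ring
  rw [hΨavg, hΨent] at hχ₂
  -- the product side
  have hχ : holevoInfo (qubitTensor (gadMap γ ν) Ψ) q ρ
      = vnEntropy (qubitTensor (gadMap γ ν) Ψ (∑ a, (q a : ℂ) • ρ a))
        - ∑ a, q a * vnEntropy (qubitTensor (gadMap γ ν) Ψ (ρ a)) := by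
    unfold holevoInfo
    rw [Plumb.qubitTensor_sum_smul _ hΨ.1]
  have hsub := vnEntropy_subadditive_density _ (Plumb.qubitTensor_gad_isDensity hγ hν hΨ hbar)
  rw [Plumb.of_trace_block_qubitTensor_gad γ ν hΨ.2.2, Plumb.sum_block_qubitTensor_gad γ ν hΨ.1]
    at hsub
  have hq1le := q1_gadMap_entropy_le hγ hν (margL_isDensity _ hbar)
  have hmarg : (margL (∑ a, (q a : ℂ) • ρ a) true true).re
      = ∑ a, q a * (block (ρ a) true true).trace.re := hzbar
  rw [hmarg] at hq1le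
  have hq1le' : vnEntropy (gadMap γ ν
        (Matrix.of fun s t => (block (∑ a, (q a : ℂ) • ρ a) s t).trace))
      ≤ Real.binEntropy ((1 - γ) * (∑ a, q a * (block (ρ a) true true).trace.re) + γ * ν) :=
    hq1le
  have hJ := fOut_jensen hγ hν Finset.univ q (fun a => (block (ρ a) true true).trace.re)
    (fun a _ => hq a) hq1 (fun a _ => hz01 a)
  have hcore : ∑ a, q a * (fOut γ ν ((block (ρ a) true true).trace.re)
        + (vnEntropy (Ψ (block (ρ a) false false)) + vnEntropy (Ψ (block (ρ a) true true))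
          - Real.binEntropy ((block (ρ a) true true).trace.re)))
      ≤ ∑ a, q a * vnEntropy (qubitTensor (gadMap γ ν) Ψ (ρ a)) := by
    refine Finset.sum_le_sum fun a _ => mul_le_mul_of_nonneg_left ?_ (hq a)
    have := core γ ν hL hΨ (hρ a)
    linarith
  simp only [mul_add, Finset.sum_add_distrib] at hcore
  rw [gadRate_eq] at hχ₁
  simp only [mul_add, mul_sub, Finset.sum_add_distrib, Finset.sum_sub_distrib] at hχ₂ hcore
  rw [hχ]
  linarith

/-- **`S0535`, clause (3)** (exact text) from `(L')`. -/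
theorem clause3 (γ ν : ℝ) (hγ : γ ∈ Set.Icc (0 : ℝ) 1) (_hν : ν ∈ Set.Icc (0 : ℝ) 1)
    (hL : Lprime γ ν) [Nonempty d] (Ψ : Matrix d d ℂ → Matrix e e ℂ) (hΨ : IsChannel Ψ) :
    ∀ ρ : Matrix (Bool × d) (Bool × d) ℂ, IsDensity ρ → ∀ ε > (0 : ℝ),
      ∃ (ρ₁ : Matrix Bool Bool ℂ) (ρ₂ : Matrix d d ℂ), IsDensity ρ₁ ∧ IsDensity ρ₂ ∧
        vnEntropy (gadMap γ ν ρ₁) + vnEntropy (Ψ ρ₂)
          ≤ vnEntropy (qubitTensor (gadMap γ ν) Ψ ρ) + ε := by
  intro ρ hρ ε hε
  obtain ⟨ρ₀, h0⟩ := exists_density d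
  have hB : ∀ s, (block ρ s s).PosSemidef := fun s => Plumb.block_posSemidef hρ.1 s
  have ht0 : ∀ s, 0 ≤ (block ρ s s).trace.re := fun s => trace_re_nonneg (hB s)
  have ht1 : (block ρ false false).trace.re + (block ρ true true).trace.re = 1 := by
    have h := hρ.2
    rw [Plumb.trace_eq_block_bool] at h
    have h' := congrArg Complex.re h
    simpa using h'
  have hz01 : (block ρ true true).trace.re ∈ Set.Icc (0 : ℝ) 1 :=
    ⟨ht0 true, by linarith [ht0 false]⟩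
  have hcore := core γ ν hL hΨ hρ
  have e0 := entropy_channel_nrm hΨ h0 (hB false)
  have e1 := entropy_channel_nrm hΨ h0 (hB true)
  have hbin := Real.binEntropy_eq_negMulLog_add_negMulLog_one_sub (block ρ true true).trace.re
  have e2 : 1 - (block ρ true true).trace.re = (block ρ false false).trace.re := by linarith
  rw [e2] at hbin
  have hψ : vnEntropy (gadMap γ ν (q1Psi (block ρ true true).trace.re 1))
      = fOut γ ν (block ρ true true).trace.re :=
    q1Psi_entropy γ ν hγ _ 1 hz01 (by norm_num)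
  have hψd : IsDensity (q1Psi (block ρ true true).trace.re 1) :=
    q1Psi_isDensity _ 1 hz01 (by norm_num)
  set a0 := vnEntropy (Ψ (nrm ρ₀ (block ρ false false))) with ha0
  set a1 := vnEntropy (Ψ (nrm ρ₀ (block ρ true true))) with ha1
  set t0 := (block ρ false false).trace.re with hT0
  set t1 := (block ρ true true).trace.re with hT1
  by_cases hle : a0 ≤ a1
  · refine ⟨_, nrm ρ₀ (block ρ false false), hψd, nrm_isDensity h0 (hB false), ?_⟩
    rw [hψ, ← ha0]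
    have h1 : t1 * a0 ≤ t1 * a1 := mul_le_mul_of_nonneg_left hle (ht0 true)
    have h2 : a0 = t0 * a0 + t1 * a0 := by rw [← add_mul, ht1, one_mul]
    linarith
  · refine ⟨_, nrm ρ₀ (block ρ true true), hψd, nrm_isDensity h0 (hB true), ?_⟩
    rw [hψ, ← ha1]
    have h1 : t0 * a1 ≤ t0 * a0 := mul_le_mul_of_nonneg_left (le_of_not_ge hle) (ht0 false)
    have h2 : a1 = t0 * a1 + t1 * a1 := by rw [← add_mul, ht1, one_mul]
    linarith

end clauses

section assembly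

/-- **The frozen statement `S0535` from `(L')`** (lead's Blueprint shape `S0535_of_Lprime`):
clauses (1), (3) above, clauses (2), (4) from `Product`. -/
theorem S0535_of_Lprime (γ ν : ℝ)
    (hγ : γ ∈ Set.Icc (0 : ℝ) 1) (hν : ν ∈ Set.Icc (0 : ℝ) 1) (hL : Lprime γ ν)
    (d e : Type) [Fintype d] [Fintype e] [DecidableEq d] [DecidableEq e] [Nonempty d] [Nonempty e]
    (Ψ : Matrix d d ℂ → Matrix e e ℂ) (hΨ : IsChannel Ψ) :
    (∀ (m : ℕ) (q : Fin m → ℝ) (ρ : Fin m → Matrix (Bool × d) (Bool × d) ℂ), IsEnsemble q ρ →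
      ∀ ε > (0 : ℝ), ∃ (m₁ : ℕ) (q₁ : Fin m₁ → ℝ) (ρ₁ : Fin m₁ → Matrix Bool Bool ℂ)
        (m₂ : ℕ) (q₂ : Fin m₂ → ℝ) (ρ₂ : Fin m₂ → Matrix d d ℂ),
        IsEnsemble q₁ ρ₁ ∧ IsEnsemble q₂ ρ₂ ∧
          holevoInfo (qubitTensor (gadMap γ ν) Ψ) q ρ ≤
            holevoInfo (gadMap γ ν) q₁ ρ₁ + holevoInfo Ψ q₂ ρ₂ + ε) ∧
    (∀ (m₁ : ℕ) (q₁ : Fin m₁ → ℝ) (ρ₁ : Fin m₁ → Matrix Bool Bool ℂ)
      (m₂ : ℕ) (q₂ : Fin m₂ → ℝ) (ρ₂ : Fin m₂ → Matrix d d ℂ), IsEnsemble q₁ ρ₁ → IsEnsemble q₂ ρ₂ →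
      ∃ (m : ℕ) (q : Fin m → ℝ) (ρ : Fin m → Matrix (Bool × d) (Bool × d) ℂ), IsEnsemble q ρ ∧
        holevoInfo (gadMap γ ν) q₁ ρ₁ + holevoInfo Ψ q₂ ρ₂ ≤
          holevoInfo (qubitTensor (gadMap γ ν) Ψ) q ρ) ∧
    (∀ ρ : Matrix (Bool × d) (Bool × d) ℂ, IsDensity ρ → ∀ ε > (0 : ℝ),
      ∃ (ρ₁ : Matrix Bool Bool ℂ) (ρ₂ : Matrix d d ℂ), IsDensity ρ₁ ∧ IsDensity ρ₂ ∧
        vnEntropy (gadMap γ ν ρ₁) + vnEntropy (Ψ ρ₂) ≤ vnEntropy (qubitTensor (gadMap γ ν) Ψ ρ) + ε) ∧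
    (∀ (ρ₁ : Matrix Bool Bool ℂ) (ρ₂ : Matrix d d ℂ), IsDensity ρ₁ → IsDensity ρ₂ →
      ∃ ρ : Matrix (Bool × d) (Bool × d) ℂ, IsDensity ρ ∧
        vnEntropy (qubitTensor (gadMap γ ν) Ψ ρ) ≤ vnEntropy (gadMap γ ν ρ₁) + vnEntropy (Ψ ρ₂)) :=
  ⟨clause1 γ ν hγ hν hL Ψ hΨ, Product.clause2 γ ν Ψ hΨ, clause3 γ ν hγ hν hL Ψ hΨ,
    Product.clause4 γ ν Ψ hΨ⟩

end assembly

end Crest.Agent.GAD.Tail92
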