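import Mathlib

/-!
# Route 2 (helper70 #1600/#1627), matrix side of (DER2): the resolvent trial bound

Sub-namespace `Crest.Agent.GAD.Trial`, Mathlib only.
-/

set_option autoImplicit false
set_option linter.unusedSectionVars false

open scoped ComplexOrder
open Matrix

namespace Crest.Agent.GAD.Trial

section Resolvent

variable {n r : Type*} [Fintype n] [DecidableEq n] [Fintype r]

/-- Scalar completion of the square: `2 Re (conj g · p) - m |p|² ≤ |g|² / m` for `m > 0`. -/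
theorem sq_bound (g p : ℂ) {m : ℝ} (hm : 0 < m) :
    2 * (star g * p).re - m * Complex.normSq p ≤ Complex.normSq g / m := by
  have h : 0 ≤ Complex.normSq (g - (m : ℂ) * p) := Complex.normSq_nonneg _
  have h2 : Complex.normSq (g - (m : ℂ) * p)
      = Complex.normSq g - 2 * m * (star g * p).re + m ^ 2 * Complex.normSq p := by
    simp only [Complex.normSq_apply, Complex.sub_re, Complex.sub_im, Complex.mul_re,
      Complex.mul_im, Complex.ofReal_re, Complex.ofReal_im, Complex.star_def, Complex.conj_re,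
      Complex.conj_im]
    ring
  rw [h2] at h
  rw [le_div_iff₀ hm]
  nlinarith

/-- `(A Aᴴ) i i` is the sum of the squared moduli of the entries of row `i`. -/
theorem mul_conjTranspose_diag_re (A : Matrix n r ℂ) (i : n) :
    ((A * Aᴴ) i i).re = ∑ ρ, Complex.normSq (A i ρ) := by
  rw [mul_apply, Complex.re_sum]
  refine Finset.sum_congr rfl fun ρ _ => ?_
  rw [conjTranspose_apply, Complex.star_def, Complex.mul_conj, Complex.ofReal_re]

/-- `tr (Aᴴ B)` entrywise. -/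
theorem trace_conjTranspose_mul (A B : Matrix n r ℂ) :
    (Aᴴ * B).trace = ∑ i, ∑ ρ, star (A i ρ) * B i ρ := by
  rw [trace, Finset.sum_comm]
  refine Finset.sum_congr rfl fun ρ _ => ?_
  rw [diag_apply, mul_apply]
  refine Finset.sum_congr rfl fun i _ => ?_
  rw [conjTranspose_apply]

/-- **Resolvent trial bound** (B2 of #1627), eigenvector form: if `M = V diag(μ) Vᴴ` with `V`
unitary and `μ i + s > 0`, then for every trial matrix `Φ`
`2 Re tr(Γᴴ Φ) - tr(Φᴴ (M + s) Φ) ≤ ∑ i, ⟨v_i, Γ Γᴴ v_i⟩ / (μ i + s)`. -/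
theorem resolvent_bound (Γ Φ : Matrix n r ℂ) (M V : Matrix n n ℂ) (μ : n → ℝ)
    (hV : star V * V = 1) (hM : M = V * diagonal (fun i => (μ i : ℂ)) * star V)
    (s : ℝ) (hs : ∀ i, 0 < μ i + s) :
    2 * (Γᴴ * Φ).trace.re - (Φᴴ * (M + (s : ℂ) • (1 : Matrix n n ℂ)) * Φ).trace.re
      ≤ ∑ i, ((star V * (Γ * Γᴴ) * V) i i).re / (μ i + s) := by
  have hV' : V * star V = 1 := mul_eq_one_comm.mp hV
  have hVH : Vᴴ * V = 1 := hV
  have hVH' : V * Vᴴ = 1 := hV'
  set Γ' : Matrix n r ℂ := Vᴴ * Γ with hΓ'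
  set Φ' : Matrix n r ℂ := Vᴴ * Φ with hΦ'
  have ha : ∀ i, ((star V * (Γ * Γᴴ) * V) i i).re = ∑ ρ, Complex.normSq (Γ' i ρ) := by
    intro i
    have h1 : star V * (Γ * Γᴴ) * V = Γ' * Γ'ᴴ := by
      rw [hΓ', conjTranspose_mul, conjTranspose_conjTranspose, star_eq_conjTranspose]
      simp only [Matrix.mul_assoc]
    rw [h1, mul_conjTranspose_diag_re]
  have hb : Γᴴ * Φ = Γ'ᴴ * Φ' := by
    rw [hΓ', hΦ', conjTranspose_mul, conjTranspose_conjTranspose]
    calc Γᴴ * Φ = Γᴴ * (V * Vᴴ) * Φ := by rw [hVH', Matrix.mul_one]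
      _ = Γᴴ * V * (Vᴴ * Φ) := by simp only [Matrix.mul_assoc]
  have hc : Φᴴ * (M + (s : ℂ) • (1 : Matrix n n ℂ)) * Φ
      = Φ'ᴴ * (diagonal (fun i => ((μ i + s : ℝ) : ℂ)) * Φ') := by
    have hMs : M + (s : ℂ) • (1 : Matrix n n ℂ)
        = V * diagonal (fun i => ((μ i + s : ℝ) : ℂ)) * Vᴴ := by
      have hd : diagonal (fun i => ((μ i + s : ℝ) : ℂ))
          = diagonal (fun i => (μ i : ℂ)) + (s : ℂ) • (1 : Matrix n n ℂ) := by
        ext i j
        by_cases hij : i = j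
        · subst hij; simp
        · simp [hij]
      rw [hd, Matrix.mul_add, Matrix.add_mul, hM, star_eq_conjTranspose, Matrix.mul_smul,
        Matrix.mul_one, Matrix.smul_mul, hVH']
    rw [hMs, hΦ', conjTranspose_mul, conjTranspose_conjTranspose]
    simp only [Matrix.mul_assoc]
  have hd : (Φ'ᴴ * (diagonal (fun i => ((μ i + s : ℝ) : ℂ)) * Φ')).trace.re
      = ∑ i, ∑ ρ, (μ i + s) * Complex.normSq (Φ' i ρ) := by
    rw [trace_conjTranspose_mul, Complex.re_sum]
    refine Finset.sum_congr rfl fun i _ => ?_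
    rw [Complex.re_sum]
    refine Finset.sum_congr rfl fun ρ _ => ?_
    rw [diagonal_mul, Complex.star_def]
    simp only [Complex.mul_re, Complex.mul_im, Complex.conj_re, Complex.conj_im,
      Complex.ofReal_re, Complex.ofReal_im, Complex.normSq_apply]
    ring
  have he : (Γ'ᴴ * Φ').trace.re = ∑ i, ∑ ρ, (star (Γ' i ρ) * Φ' i ρ).re := by
    rw [trace_conjTranspose_mul, Complex.re_sum]
    refine Finset.sum_congr rfl fun i _ => ?_
    rw [Complex.re_sum]
  rw [hb, hc, hd, he, Finset.mul_sum, ← Finset.sum_sub_distrib]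
  refine Finset.sum_le_sum fun i _ => ?_
  rw [ha i, Finset.sum_div, Finset.mul_sum, ← Finset.sum_sub_distrib]
  refine Finset.sum_le_sum fun ρ _ => ?_
  exact sq_bound (Γ' i ρ) (Φ' i ρ) (hs i)

end Resolvent

section TrialValue

variable {d r : Type*} [Fintype d] [DecidableEq d] [Fintype r] [DecidableEq r]

/-- `Eᴴ (E D Eᴴ) E = D` for `Eᴴ E = 1`. -/
theorem conj_conj_diag (E : Matrix d d ℂ) (hE : star E * E = 1) (D : Matrix d d ℂ) :
    star E * (E * D * star E) * E = D := by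
  calc star E * (E * D * star E) * E = (star E * E) * D * (star E * E) := by
        simp only [Matrix.mul_assoc]
    _ = D := by rw [hE, Matrix.one_mul, Matrix.mul_one]

/-- `(E D₁ Eᴴ)(E D₂ Eᴴ) = E (D₁ D₂) Eᴴ` for `Eᴴ E = 1`. -/
theorem conj_mul_conj (E : Matrix d d ℂ) (hE : star E * E = 1) (D₁ D₂ : Matrix d d ℂ) :
    (E * D₁ * star E) * (E * D₂ * star E) = E * (D₁ * D₂) * star E := by
  calc (E * D₁ * star E) * (E * D₂ * star E) = E * D₁ * (star E * E) * D₂ * star E := by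
        simp only [Matrix.mul_assoc]
    _ = E * (D₁ * D₂) * star E := by rw [hE, Matrix.mul_one]; simp only [Matrix.mul_assoc]

/-- `tr (N · E diag(D) Eᴴ) = ∑ j, (Eᴴ N E) j j · D j`. -/
theorem trace_mul_conj_diag (N E : Matrix d d ℂ) (D : d → ℂ) :
    (N * (E * diagonal D * star E)).trace = ∑ j, (star E * N * E) j j * D j := by
  have h : N * (E * diagonal D * star E) = (N * E * diagonal D) * star E := by
    simp only [Matrix.mul_assoc]
  rw [h, Matrix.trace_mul_comm, trace]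
  refine Finset.sum_congr rfl fun j _ => ?_
  rw [diag_apply, ← Matrix.mul_assoc, ← Matrix.mul_assoc, mul_diagonal]

/-- `tr (E diag(a) Eᴴ · Y · F diag(b) Fᴴ · Yᴴ) = ∑ j k, a j b k |(Eᴴ Y F) j k|²`. -/
theorem trace_cross (E F Y : Matrix d d ℂ) (a b : d → ℂ) :
    (E * diagonal a * star E * Y * (F * diagonal b * star F) * Yᴴ).trace
      = ∑ j, ∑ k, a j * b k * ((star E * Y * F) j k * star ((star E * Y * F) j k)) := by
  have h : E * diagonal a * star E * Y * (F * diagonal b * star F) * Yᴴ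
      = E * (diagonal a * (star E * Y * F) * diagonal b * (star F * Yᴴ)) := by
    simp only [Matrix.mul_assoc]
  have h2 : diagonal a * (star E * Y * F) * diagonal b * (star F * Yᴴ) * E
      = diagonal a * (star E * Y * F) * diagonal b * (star E * Y * F)ᴴ := by
    rw [conjTranspose_mul, conjTranspose_mul, star_eq_conjTranspose, star_eq_conjTranspose,
      conjTranspose_conjTranspose]
    simp only [Matrix.mul_assoc]
  rw [h, Matrix.trace_mul_comm, h2, trace]
  refine Finset.sum_congr rfl fun j _ => ?_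
  rw [diag_apply, mul_apply]
  refine Finset.sum_congr rfl fun k _ => ?_
  rw [mul_diagonal, diagonal_mul, conjTranspose_apply]
  ring

/-- The matrix `E diag(a) Eᴴ` with real `a` is Hermitian. -/
theorem conj_diag_real_isHermitian (E : Matrix d d ℂ) (a : d → ℝ) :
    (E * diagonal (fun j => (a j : ℂ)) * star E)ᴴ = E * diagonal (fun j => (a j : ℂ)) * star E := by
  rw [conjTranspose_mul, conjTranspose_mul, star_eq_conjTranspose, conjTranspose_conjTranspose,
    diagonal_conjTranspose]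
  have : star (fun j => (a j : ℂ)) = fun j => (a j : ℂ) := by
    funext j; simp
  rw [this, Matrix.mul_assoc]

end TrialValue

section Main

variable {d r : Type*} [Fintype d] [DecidableEq d] [Fintype r] [DecidableEq r]

/-- `Γ Γᴴ` for the stacked matrix `Γ = (G; Q)`. -/
theorem stack_mul_conjTranspose (G Q : Matrix d r ℂ) :
    fromRows G Q * (fromRows G Q)ᴴ = fromBlocks (G * Gᴴ) (G * Qᴴ) (Q * Gᴴ) (Q * Qᴴ) := by
  rw [conjTranspose_fromRows_eq_fromCols_conjTranspose, fromRows_mul_fromCols]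

/-- **Trial bound** (B2 + B3 of #1627).  `X = G Gᴴ = E diag(ξ) Eᴴ`, `U = Q Qᴴ = F diag(υ) Fᴴ`,
`M = [[X + W0, Y], [Yᴴ, U + W1]] = V diag(μ) Vᴴ` with `Y = G Qᴴ`.  For all real `α β` and every
`s` with `μ i + s > 0` the value of the quadratic trial functional at
`Φ = (E diag(α) Eᴴ G; F diag(β) Fᴴ Q)` is a lower bound for
`R(s) = ∑ i, ⟨v_i, M0 v_i⟩ / (μ i + s)`, `M0 = [[X, Y], [Yᴴ, U]]`. -/
theorem trial_bound (G Q : Matrix d r ℂ) (W0 W1 : Matrix d d ℂ)
    (V : Matrix (d ⊕ d) (d ⊕ d) ℂ) (μ : d ⊕ d → ℝ) (hV : star V * V = 1)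
    (hM : fromBlocks (G * Gᴴ + W0) (G * Qᴴ) (Q * Gᴴ) (Q * Qᴴ + W1)
      = V * diagonal (fun i => (μ i : ℂ)) * star V)
    (E : Matrix d d ℂ) (ξ : d → ℝ) (hE : star E * E = 1)
    (hX : G * Gᴴ = E * diagonal (fun j => (ξ j : ℂ)) * star E)
    (F : Matrix d d ℂ) (υ : d → ℝ) (hF : star F * F = 1)
    (hU : Q * Qᴴ = F * diagonal (fun k => (υ k : ℂ)) * star F)
    (α β : d → ℝ) (s : ℝ) (hs : ∀ i, 0 < μ i + s) :
    2 * ∑ j, α j * ξ j + 2 * ∑ k, β k * υ k
        - ∑ j, α j ^ 2 * ξ j * (ξ j + s + ((star E * W0 * E) j j).re)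
        - ∑ k, β k ^ 2 * υ k * (υ k + s + ((star F * W1 * F) k k).re)
        - 2 * ∑ j, ∑ k, α j * β k * Complex.normSq ((star E * (G * Qᴴ) * F) j k)
      ≤ ∑ i, ((star V * fromBlocks (G * Gᴴ) (G * Qᴴ) (Q * Gᴴ) (Q * Qᴴ) * V) i i).re
          / (μ i + s) := by
  set A : Matrix d d ℂ := E * diagonal (fun j => (α j : ℂ)) * star E with hA
  set B : Matrix d d ℂ := F * diagonal (fun k => (β k : ℂ)) * star F with hB
  have hAH : Aᴴ = A := conj_diag_real_isHermitian E α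
  have hBH : Bᴴ = B := conj_diag_real_isHermitian F β
  set Y : Matrix d d ℂ := G * Qᴴ with hY
  have hYH : Yᴴ = Q * Gᴴ := by rw [hY, conjTranspose_mul, conjTranspose_conjTranspose]
  have hmain := resolvent_bound (fromRows G Q) (fromRows (A * G) (B * Q))
    (fromBlocks (G * Gᴴ + W0) (G * Qᴴ) (Q * Gᴴ) (Q * Qᴴ + W1)) V μ hV hM s hs
  rw [stack_mul_conjTranspose] at hmain
  refine le_trans (le_of_eq ?_) hmain
  -- first trace
  have h1 : ((fromRows G Q)ᴴ * fromRows (A * G) (B * Q)).trace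
      = ((∑ j, α j * ξ j + ∑ k, β k * υ k : ℝ) : ℂ) := by
    rw [conjTranspose_fromRows_eq_fromCols_conjTranspose, fromCols_mul_fromRows, trace_add]
    have e1 : (Gᴴ * (A * G)).trace = ((∑ j, α j * ξ j : ℝ) : ℂ) := by
      rw [Matrix.trace_mul_comm, Matrix.mul_assoc, hX, trace_mul_conj_diag, conj_conj_diag E hE]
      push_cast
      refine Finset.sum_congr rfl fun j _ => ?_
      rw [diagonal_apply_eq]
    have e2 : (Qᴴ * (B * Q)).trace = ((∑ k, β k * υ k : ℝ) : ℂ) := by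
      rw [Matrix.trace_mul_comm, Matrix.mul_assoc, hU, trace_mul_conj_diag, conj_conj_diag F hF]
      push_cast
      refine Finset.sum_congr rfl fun j _ => ?_
      rw [diagonal_apply_eq]
    rw [e1, e2]
    push_cast
    ring
  -- block form of `M + s`
  have hMs : fromBlocks (G * Gᴴ + W0) (G * Qᴴ) (Q * Gᴴ) (Q * Qᴴ + W1)
        + (s : ℂ) • (1 : Matrix (d ⊕ d) (d ⊕ d) ℂ)
      = fromBlocks (G * Gᴴ + W0 + (s : ℂ) • (1 : Matrix d d ℂ)) Y Yᴴ
          (Q * Qᴴ + W1 + (s : ℂ) • (1 : Matrix d d ℂ)) := by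
    rw [← fromBlocks_one, fromBlocks_smul, fromBlocks_add, hYH]
    simp [hY]
  -- the products `(A G)(A G)ᴴ` and `(B Q)(B Q)ᴴ`
  have hAG : (A * G) * (A * G)ᴴ
      = E * diagonal (fun j => ((α j * ξ j * α j : ℝ) : ℂ)) * star E := by
    rw [conjTranspose_mul, hAH]
    calc A * G * (Gᴴ * A) = A * (G * Gᴴ) * A := by simp only [Matrix.mul_assoc]
      _ = E * diagonal (fun j => ((α j * ξ j * α j : ℝ) : ℂ)) * star E := by
        rw [hX, hA, conj_mul_conj E hE, conj_mul_conj E hE, diagonal_mul_diagonal,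
          diagonal_mul_diagonal]
        congr 2
        ext j
        push_cast
        ring
  have hBQ : (B * Q) * (B * Q)ᴴ
      = F * diagonal (fun k => ((β k * υ k * β k : ℝ) : ℂ)) * star F := by
    rw [conjTranspose_mul, hBH]
    calc B * Q * (Qᴴ * B) = B * (Q * Qᴴ) * B := by simp only [Matrix.mul_assoc]
      _ = F * diagonal (fun k => ((β k * υ k * β k : ℝ) : ℂ)) * star F := by
        rw [hU, hB, conj_mul_conj F hF, conj_mul_conj F hF, diagonal_mul_diagonal,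
          diagonal_mul_diagonal]
        congr 2
        ext j
        push_cast
        ring
  -- the four traces
  have t1 : ((A * G)ᴴ * (G * Gᴴ + W0 + (s : ℂ) • (1 : Matrix d d ℂ)) * (A * G)).trace
      = ∑ j, ((ξ j : ℂ) + (star E * W0 * E) j j + (s : ℂ)) * ((α j * ξ j * α j : ℝ) : ℂ) := by
    rw [Matrix.trace_mul_cycle, Matrix.trace_mul_comm, hAG, trace_mul_conj_diag]
    refine Finset.sum_congr rfl fun j _ => ?_
    congr 1
    rw [Matrix.mul_add, Matrix.mul_add, Matrix.add_mul, Matrix.add_mul, hX, conj_conj_diag E hE,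
      Matrix.mul_smul, Matrix.smul_mul, Matrix.mul_one, hE]
    simp [Matrix.add_apply]
  have t4 : ((B * Q)ᴴ * (Q * Qᴴ + W1 + (s : ℂ) • (1 : Matrix d d ℂ)) * (B * Q)).trace
      = ∑ k, ((υ k : ℂ) + (star F * W1 * F) k k + (s : ℂ)) * ((β k * υ k * β k : ℝ) : ℂ) := by
    rw [Matrix.trace_mul_cycle, Matrix.trace_mul_comm, hBQ, trace_mul_conj_diag]
    refine Finset.sum_congr rfl fun j _ => ?_
    congr 1
    rw [Matrix.mul_add, Matrix.mul_add, Matrix.add_mul, Matrix.add_mul, hU, conj_conj_diag F hF,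
      Matrix.mul_smul, Matrix.smul_mul, Matrix.mul_one, hF]
    simp [Matrix.add_apply]
  have hcross : (A * Y * B * Yᴴ).trace
      = ((∑ j, ∑ k, α j * β k * Complex.normSq ((star E * Y * F) j k) : ℝ) : ℂ) := by
    rw [hA, hB, trace_cross]
    push_cast
    refine Finset.sum_congr rfl fun j _ => ?_
    refine Finset.sum_congr rfl fun k _ => ?_
    rw [Complex.star_def, Complex.mul_conj]
  have t3 : ((A * G)ᴴ * Y * (B * Q)).trace = (A * Y * B * Yᴴ).trace := by
    rw [conjTranspose_mul, hAH, hYH]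
    calc (Gᴴ * A * Y * (B * Q)).trace = (Gᴴ * (A * Y * B * Q)).trace := by
          simp only [Matrix.mul_assoc]
      _ = (A * Y * B * Q * Gᴴ).trace := Matrix.trace_mul_comm _ _
      _ = (A * Y * B * (Q * Gᴴ)).trace := by simp only [Matrix.mul_assoc]
  have t2 : ((B * Q)ᴴ * Yᴴ * (A * G)).trace = (A * Y * B * Yᴴ).trace := by
    rw [conjTranspose_mul, hBH]
    calc (Qᴴ * B * Yᴴ * (A * G)).trace = (Qᴴ * (B * Yᴴ * A * G)).trace := by
          simp only [Matrix.mul_assoc]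
      _ = (B * Yᴴ * A * G * Qᴴ).trace := Matrix.trace_mul_comm _ _
      _ = (B * (Yᴴ * A * Y)).trace := by simp only [Matrix.mul_assoc, hY]
      _ = (Yᴴ * A * Y * B).trace := Matrix.trace_mul_comm _ _
      _ = (Yᴴ * (A * Y * B)).trace := by simp only [Matrix.mul_assoc]
      _ = (A * Y * B * Yᴴ).trace := Matrix.trace_mul_comm _ _
  have h2 : ((fromRows (A * G) (B * Q))ᴴ
        * (fromBlocks (G * Gᴴ + W0) (G * Qᴴ) (Q * Gᴴ) (Q * Qᴴ + W1)
            + (s : ℂ) • (1 : Matrix (d ⊕ d) (d ⊕ d) ℂ)) * fromRows (A * G) (B * Q)).trace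
      = ∑ j, ((ξ j : ℂ) + (star E * W0 * E) j j + (s : ℂ)) * ((α j * ξ j * α j : ℝ) : ℂ)
        + ∑ k, ((υ k : ℂ) + (star F * W1 * F) k k + (s : ℂ)) * ((β k * υ k * β k : ℝ) : ℂ)
        + 2 * ((∑ j, ∑ k, α j * β k * Complex.normSq ((star E * Y * F) j k) : ℝ) : ℂ) := by
    rw [hMs, conjTranspose_fromRows_eq_fromCols_conjTranspose, fromCols_mul_fromBlocks,
      fromCols_mul_fromRows, Matrix.add_mul, Matrix.add_mul, trace_add, trace_add, trace_add,
      t1, t2, t3, t4, hcross]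
    ring
  rw [h1, h2]
  simp only [Complex.add_re, Complex.mul_re, Complex.re_sum, Complex.ofReal_re, Complex.ofReal_im,
    Complex.re_ofNat, Complex.im_ofNat, mul_zero, sub_zero]
  have e1 : ∀ j, α j ^ 2 * ξ j * (ξ j + s + ((star E * W0 * E) j j).re)
      = (ξ j + ((star E * W0 * E) j j).re + s) * (α j * ξ j * α j) := fun j => by ring
  have e2 : ∀ k, β k ^ 2 * υ k * (υ k + s + ((star F * W1 * F) k k).re)
      = (υ k + ((star F * W1 * F) k k).re + s) * (β k * υ k * β k) := fun k => by ring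
  simp only [e1, e2]
  ring

end Main

section Facts

variable {d r : Type*} [Fintype d] [DecidableEq d] [Fintype r] [DecidableEq r]

/-- The weights `c i = ⟨v_i, M0 v_i⟩` are nonnegative (`M0 = Γ Γᴴ`). -/
theorem c_nonneg (G Q : Matrix d r ℂ) (V : Matrix (d ⊕ d) (d ⊕ d) ℂ) (i : d ⊕ d) :
    0 ≤ ((star V * fromBlocks (G * Gᴴ) (G * Qᴴ) (Q * Gᴴ) (Q * Qᴴ) * V) i i).re := by
  rw [← stack_mul_conjTranspose]
  have h1 : star V * (fromRows G Q * (fromRows G Q)ᴴ) * V
      = (Vᴴ * fromRows G Q) * (Vᴴ * fromRows G Q)ᴴ := by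
    rw [conjTranspose_mul, conjTranspose_conjTranspose, star_eq_conjTranspose]
    simp only [Matrix.mul_assoc]
  rw [h1, mul_conjTranspose_diag_re]
  exact Finset.sum_nonneg fun ρ _ => Complex.normSq_nonneg _

/-- `∑ i, c i = tr X + tr U`. -/
theorem c_sum (G Q : Matrix d r ℂ) (V : Matrix (d ⊕ d) (d ⊕ d) ℂ) (hV : star V * V = 1) :
    ∑ i, ((star V * fromBlocks (G * Gᴴ) (G * Qᴴ) (Q * Gᴴ) (Q * Qᴴ) * V) i i).re
      = (G * Gᴴ).trace.re + (Q * Qᴴ).trace.re := by
  have hV' : V * star V = 1 := mul_eq_one_comm.mp hV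
  have h1 : ∑ i, ((star V * fromBlocks (G * Gᴴ) (G * Qᴴ) (Q * Gᴴ) (Q * Qᴴ) * V) i i).re
      = (star V * fromBlocks (G * Gᴴ) (G * Qᴴ) (Q * Gᴴ) (Q * Qᴴ) * V).trace.re := by
    rw [trace, Complex.re_sum]
    rfl
  rw [h1, Matrix.trace_mul_comm, ← Matrix.mul_assoc, hV', Matrix.one_mul, ← Complex.add_re]
  congr 1
  simp [trace, Fintype.sum_sum_type]

/-- Diagonal entries of `Eᴴ W E` are nonnegative for positive semidefinite `W`. -/
theorem P_nonneg {W : Matrix d d ℂ} (hW : W.PosSemidef) (E : Matrix d d ℂ) (j : d) :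
    0 ≤ ((star E * W * E) j j).re := by
  have h : (Eᴴ * W * E).PosSemidef := hW.conjTranspose_mul_mul_same E
  have h2 : 0 ≤ (Eᴴ * W * E) j j := h.diag_nonneg
  rw [star_eq_conjTranspose]
  exact (Complex.nonneg_iff.mp h2).1

/-- `∑ j, (Eᴴ W E) j j = tr W` for unitary `E`. -/
theorem P_sum (W E : Matrix d d ℂ) (hE : star E * E = 1) :
    ∑ j, ((star E * W * E) j j).re = W.trace.re := by
  have hE' : E * star E = 1 := mul_eq_one_comm.mp hE
  have h1 : ∑ j, ((star E * W * E) j j).re = (star E * W * E).trace.re := by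
    rw [trace, Complex.re_sum]
    rfl
  rw [h1, Matrix.trace_mul_comm, ← Matrix.mul_assoc, hE', Matrix.one_mul]

/-- The eigenvalues `ξ j` of `X = G Gᴴ = E diag(ξ) Eᴴ` are nonnegative. -/
theorem xi_nonneg (G : Matrix d r ℂ) (E : Matrix d d ℂ) (ξ : d → ℝ) (hE : star E * E = 1)
    (hX : G * Gᴴ = E * diagonal (fun j => (ξ j : ℂ)) * star E) (j : d) : 0 ≤ ξ j := by
  have h1 : (Eᴴ * G) * (Eᴴ * G)ᴴ = diagonal (fun j => (ξ j : ℂ)) := by
    rw [conjTranspose_mul, conjTranspose_conjTranspose]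
    calc Eᴴ * G * (Gᴴ * E) = star E * (G * Gᴴ) * E := by
          simp only [Matrix.mul_assoc, star_eq_conjTranspose]
      _ = diagonal (fun j => (ξ j : ℂ)) := by rw [hX, conj_conj_diag E hE]
  have h2 := mul_conjTranspose_diag_re (Eᴴ * G) j
  rw [h1, diagonal_apply_eq, Complex.ofReal_re] at h2
  rw [h2]
  exact Finset.sum_nonneg fun ρ _ => Complex.normSq_nonneg _

/-- `∑ j, ξ j = tr X`. -/
theorem xi_sum (G : Matrix d r ℂ) (E : Matrix d d ℂ) (ξ : d → ℝ) (hE : star E * E = 1)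
    (hX : G * Gᴴ = E * diagonal (fun j => (ξ j : ℂ)) * star E) :
    ∑ j, ξ j = (G * Gᴴ).trace.re := by
  rw [hX, Matrix.trace_mul_comm, ← Matrix.mul_assoc, hE, Matrix.one_mul, trace_diagonal,
    ← Complex.ofReal_sum, Complex.ofReal_re]

/-- Core of Bessel's inequality in matrix form: if the columns of `C` and `N` are orthogonal
systems, `Cᴴ C = diag(ξ)`, `Nᴴ N = diag(υ)`, and `t k ≥ 0`, `t k * υ k ≤ 1`, then
`∑ k, t k |(Cᴴ N) j k|² ≤ ξ j`. -/
theorem bessel_core (C N : Matrix r d ℂ) (ξ υ : d → ℝ)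
    (hCC : Cᴴ * C = diagonal (fun j => (ξ j : ℂ)))
    (hNN : Nᴴ * N = diagonal (fun k => (υ k : ℂ)))
    (t : d → ℝ) (ht : ∀ k, 0 ≤ t k) (htυ : ∀ k, t k * υ k ≤ 1) (j : d) :
    ∑ k, t k * Complex.normSq ((Cᴴ * N) j k) ≤ ξ j := by
  obtain ⟨Yt, hCN⟩ : ∃ Yt : Matrix d d ℂ, Cᴴ * N = Yt := ⟨_, rfl⟩
  obtain ⟨T, hT⟩ : ∃ T : Matrix d d ℂ, T = diagonal (fun k => (t k : ℂ)) := ⟨_, rfl⟩
  have hNC : Nᴴ * C = Ytᴴ := by
    rw [← hCN, conjTranspose_mul Cᴴ N, conjTranspose_conjTranspose]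
  have hTH : Tᴴ = T := by
    rw [hT, diagonal_conjTranspose]
    congr 1
    funext k
    simp
  have hZZ : (C - N * T * Ytᴴ)ᴴ * (C - N * T * Ytᴴ)
      = diagonal (fun j => (ξ j : ℂ)) - Yt * T * Ytᴴ - Yt * T * Ytᴴ
        + Yt * (T * diagonal (fun k => (υ k : ℂ)) * T) * Ytᴴ := by
    have e0 : (C - N * T * Ytᴴ)ᴴ = Cᴴ - Yt * T * Nᴴ := by
      rw [conjTranspose_sub, conjTranspose_mul (N * T) Ytᴴ, conjTranspose_mul N T,
        conjTranspose_conjTranspose, hTH, Matrix.mul_assoc]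
    rw [e0, Matrix.sub_mul, Matrix.mul_sub, Matrix.mul_sub, hCC]
    have e1 : Cᴴ * (N * T * Ytᴴ) = Yt * T * Ytᴴ := by
      rw [← Matrix.mul_assoc, ← Matrix.mul_assoc, hCN]
    have e2 : Yt * T * Nᴴ * C = Yt * T * Ytᴴ := by
      rw [Matrix.mul_assoc (Yt * T), hNC]
    have e3 : Yt * T * Nᴴ * (N * T * Ytᴴ)
        = Yt * (T * diagonal (fun k => (υ k : ℂ)) * T) * Ytᴴ := by
      calc Yt * T * Nᴴ * (N * T * Ytᴴ) = Yt * (T * (Nᴴ * N) * T) * Ytᴴ := by
            simp only [Matrix.mul_assoc]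
        _ = _ := by rw [hNN]
    rw [e1, e2, e3]
    abel
  have hpos : 0 ≤ (((C - N * T * Ytᴴ)ᴴ * (C - N * T * Ytᴴ)) j j).re := by
    have h := mul_conjTranspose_diag_re (C - N * T * Ytᴴ)ᴴ j
    rw [conjTranspose_conjTranspose] at h
    rw [h]
    exact Finset.sum_nonneg fun ρ _ => Complex.normSq_nonneg _
  have hq1 : ((Yt * T * Ytᴴ) j j).re = ∑ k, t k * Complex.normSq (Yt j k) := by
    rw [mul_apply, Complex.re_sum]
    refine Finset.sum_congr rfl fun k _ => ?_
    rw [hT, mul_diagonal, conjTranspose_apply, Complex.star_def]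
    simp only [Complex.mul_re, Complex.mul_im, Complex.conj_re, Complex.conj_im,
      Complex.ofReal_re, Complex.ofReal_im, Complex.normSq_apply]
    ring
  have hq2 : ((Yt * (T * diagonal (fun k => (υ k : ℂ)) * T) * Ytᴴ) j j).re
      = ∑ k, t k * υ k * t k * Complex.normSq (Yt j k) := by
    rw [hT, diagonal_mul_diagonal, diagonal_mul_diagonal, mul_apply, Complex.re_sum]
    refine Finset.sum_congr rfl fun k _ => ?_
    rw [mul_diagonal, conjTranspose_apply, Complex.star_def]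
    simp only [Complex.mul_re, Complex.mul_im, Complex.conj_re, Complex.conj_im,
      Complex.ofReal_re, Complex.ofReal_im, Complex.normSq_apply]
    ring
  rw [hZZ] at hpos
  simp only [Matrix.add_apply, Matrix.sub_apply, Complex.add_re, Complex.sub_re,
    diagonal_apply_eq, Complex.ofReal_re] at hpos
  rw [hq1, hq2] at hpos
  have hle : ∑ k, t k * υ k * t k * Complex.normSq (Yt j k)
      ≤ ∑ k, t k * Complex.normSq (Yt j k) := by
    refine Finset.sum_le_sum fun k _ => ?_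
    have h1 : 0 ≤ t k * Complex.normSq (Yt j k) :=
      mul_nonneg (ht k) (Complex.normSq_nonneg _)
    have h2 : t k * υ k * t k * Complex.normSq (Yt j k)
        = (t k * υ k) * (t k * Complex.normSq (Yt j k)) := by ring
    rw [h2]
    exact mul_le_of_le_one_left h1 (htυ k)
  rw [hCN]
  linarith

/-- `(Gᴴ E)ᴴ (Gᴴ E) = diag(ξ)` when `G Gᴴ = E diag(ξ) Eᴴ`, `Eᴴ E = 1`. -/
theorem gram_eigen (G : Matrix d r ℂ) (E : Matrix d d ℂ) (ξ : d → ℝ) (hE : star E * E = 1)
    (hX : G * Gᴴ = E * diagonal (fun j => (ξ j : ℂ)) * star E) :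
    (Gᴴ * E)ᴴ * (Gᴴ * E) = diagonal (fun j => (ξ j : ℂ)) := by
  rw [conjTranspose_mul Gᴴ E, conjTranspose_conjTranspose]
  calc Eᴴ * G * (Gᴴ * E) = star E * (G * Gᴴ) * E := by
        simp only [Matrix.mul_assoc, star_eq_conjTranspose]
    _ = diagonal (fun j => (ξ j : ℂ)) := by rw [hX, conj_conj_diag E hE]

/-- `(Gᴴ E)ᴴ (Qᴴ F) = Eᴴ (G Qᴴ) F`. -/
theorem cross_eq (G Q : Matrix d r ℂ) (E F : Matrix d d ℂ) :
    (Gᴴ * E)ᴴ * (Qᴴ * F) = star E * (G * Qᴴ) * F := by
  rw [conjTranspose_mul Gᴴ E, conjTranspose_conjTranspose, star_eq_conjTranspose]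
  simp only [Matrix.mul_assoc]

/-- **Bessel, rows** (sub-double-stochasticity of `κ`), division-free form: for weights
`t k ≥ 0` with `t k * υ k ≤ 1`, `∑ k, t k |(Eᴴ G Qᴴ F) j k|² ≤ ξ j`. -/
theorem bessel_row (G Q : Matrix d r ℂ)
    (E : Matrix d d ℂ) (ξ : d → ℝ) (hE : star E * E = 1)
    (hX : G * Gᴴ = E * diagonal (fun j => (ξ j : ℂ)) * star E)
    (F : Matrix d d ℂ) (υ : d → ℝ) (hF : star F * F = 1)
    (hU : Q * Qᴴ = F * diagonal (fun k => (υ k : ℂ)) * star F)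
    (t : d → ℝ) (ht : ∀ k, 0 ≤ t k) (htυ : ∀ k, t k * υ k ≤ 1) (j : d) :
    ∑ k, t k * Complex.normSq ((star E * (G * Qᴴ) * F) j k) ≤ ξ j := by
  have h := bessel_core (Gᴴ * E) (Qᴴ * F) ξ υ (gram_eigen G E ξ hE hX) (gram_eigen Q F υ hF hU)
    t ht htυ j
  rw [cross_eq] at h
  exact h

/-- **Bessel, columns**: for weights `t j ≥ 0` with `t j * ξ j ≤ 1`,
`∑ j, t j |(Eᴴ G Qᴴ F) j k|² ≤ υ k`. -/
theorem bessel_col (G Q : Matrix d r ℂ)
    (E : Matrix d d ℂ) (ξ : d → ℝ) (hE : star E * E = 1)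
    (hX : G * Gᴴ = E * diagonal (fun j => (ξ j : ℂ)) * star E)
    (F : Matrix d d ℂ) (υ : d → ℝ) (hF : star F * F = 1)
    (hU : Q * Qᴴ = F * diagonal (fun k => (υ k : ℂ)) * star F)
    (t : d → ℝ) (ht : ∀ j, 0 ≤ t j) (htξ : ∀ j, t j * ξ j ≤ 1) (k : d) :
    ∑ j, t j * Complex.normSq ((star E * (G * Qᴴ) * F) j k) ≤ υ k := by
  have h := bessel_core (Qᴴ * F) (Gᴴ * E) υ ξ (gram_eigen Q F υ hF hU) (gram_eigen G E ξ hE hX)
    t ht htξ k
  have e : ∀ j, Complex.normSq (((Qᴴ * F)ᴴ * (Gᴴ * E)) k j)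
      = Complex.normSq ((star E * (G * Qᴴ) * F) j k) := by
    intro j
    have h1 : (Qᴴ * F)ᴴ * (Gᴴ * E) = (star E * (G * Qᴴ) * F)ᴴ := by
      rw [← cross_eq, conjTranspose_mul (Gᴴ * E)ᴴ (Qᴴ * F), conjTranspose_conjTranspose]
    rw [h1, conjTranspose_apply, Complex.star_def, Complex.normSq_conj]
  simp only [e] at h
  exact h

/-- The cross weights vanish off the supports: `|(Eᴴ G Qᴴ F) j k|² = 0` if `υ k = 0`. -/
theorem cross_eq_zero_of_ups (G Q : Matrix d r ℂ)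
    (E : Matrix d d ℂ) (ξ : d → ℝ) (hE : star E * E = 1)
    (hX : G * Gᴴ = E * diagonal (fun j => (ξ j : ℂ)) * star E)
    (F : Matrix d d ℂ) (υ : d → ℝ) (hF : star F * F = 1)
    (hU : Q * Qᴴ = F * diagonal (fun k => (υ k : ℂ)) * star F)
    (j k : d) (hk : υ k = 0) :
    Complex.normSq ((star E * (G * Qᴴ) * F) j k) = 0 := by
  by_contra hne
  have hpos : 0 < Complex.normSq ((star E * (G * Qᴴ) * F) j k) :=
    lt_of_le_of_ne (Complex.normSq_nonneg _) (Ne.symm hne)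
  set c := Complex.normSq ((star E * (G * Qᴴ) * F) j k) with hc
  -- weight `(ξ j + 1) / c` at `k`, zero elsewhere
  have hξ := xi_nonneg G E ξ hE hX j
  have h := bessel_row G Q E ξ hE hX F υ hF hU (fun l => if l = k then (ξ j + 1) / c else 0)
    (fun l => by
      by_cases hl : l = k
      · simp only [hl, if_true]; positivity
      · simp [hl])
    (fun l => by
      by_cases hl : l = k
      · simp only [hl, if_true, hk, mul_zero]; exact zero_le_one
      · simp [hl]) j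
  rw [Finset.sum_eq_single k (fun l _ hl => by simp [hl]) (fun hk' => absurd (Finset.mem_univ k) hk')]
    at h
  simp only [if_true] at h
  rw [← hc, div_mul_cancel₀ _ (ne_of_gt hpos)] at h
  linarith

/-- The cross weights vanish off the supports: `|(Eᴴ G Qᴴ F) j k|² = 0` if `ξ j = 0`. -/
theorem cross_eq_zero_of_xi (G Q : Matrix d r ℂ)
    (E : Matrix d d ℂ) (ξ : d → ℝ) (hE : star E * E = 1)
    (hX : G * Gᴴ = E * diagonal (fun j => (ξ j : ℂ)) * star E)
    (F : Matrix d d ℂ) (υ : d → ℝ) (hF : star F * F = 1)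
    (hU : Q * Qᴴ = F * diagonal (fun k => (υ k : ℂ)) * star F)
    (j k : d) (hj : ξ j = 0) :
    Complex.normSq ((star E * (G * Qᴴ) * F) j k) = 0 := by
  by_contra hne
  have hpos : 0 < Complex.normSq ((star E * (G * Qᴴ) * F) j k) :=
    lt_of_le_of_ne (Complex.normSq_nonneg _) (Ne.symm hne)
  set c := Complex.normSq ((star E * (G * Qᴴ) * F) j k) with hc
  have hυ := xi_nonneg Q F υ hF hU k
  have h := bessel_col G Q E ξ hE hX F υ hF hU (fun l => if l = j then (υ k + 1) / c else 0)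
    (fun l => by
      by_cases hl : l = j
      · simp only [hl, if_true]; positivity
      · simp [hl])
    (fun l => by
      by_cases hl : l = j
      · simp only [hl, if_true, hj, mul_zero]; exact zero_le_one
      · simp [hl]) k
  rw [Finset.sum_eq_single j (fun l _ hl => by simp [hl]) (fun hj' => absurd (Finset.mem_univ j) hj')]
    at h
  simp only [if_true] at h
  rw [← hc, div_mul_cancel₀ _ (ne_of_gt hpos)] at h
  linarith

end Facts

end Crest.Agent.GAD.Trial
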