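import Mathlib

/-!
# Lemma FC for row 341 (hedge, helper93): the pure-state output entropy of the GADC is convex

`fOut γ ν z = E (√(4 v z))` with `v z = γ ν (1-ν) + γ (1-γ) (z-ν)^2` and Wootters' function
`E C = binEntropy ((1 + √(1 - C^2)) / 2)`.  `E` is nondecreasing and convex on `[0,1]`
(`E' = t / sinh t` at `C = 1 / cosh t`), and `z ↦ √(4 v z)` is convex (norm of an affine map),
with values in `[0,1]` on `[0,1]`.  Mathlib only.
-/

set_option autoImplicit false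

namespace Crest.Agent.GAD.W93

open Set

/-- Wootters' function: entropy (nats) of a trace-one `2 × 2` state with `2 √det = C`. -/
noncomputable def wE (C : ℝ) : ℝ := Real.binEntropy ((1 + Real.sqrt (1 - C ^ 2)) / 2)

/-- `sinh` is convex on `[0, ∞)`. -/
theorem convexOn_sinh_Ici : ConvexOn ℝ (Ici (0:ℝ)) Real.sinh := by
  refine MonotoneOn.convexOn_of_deriv (convex_Ici 0) Real.continuous_sinh.continuousOn
    Real.differentiable_sinh.differentiableOn ?_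
  intro x hx y hy hxy
  rw [interior_Ici] at hx hy
  simp only [Real.deriv_sinh]
  rw [Real.cosh_le_cosh, abs_of_pos hx, abs_of_pos hy]
  exact hxy

/-- `t / sinh t` is antitone on `(0, ∞)`. -/
theorem div_sinh_anti {a b : ℝ} (ha : 0 < a) (hab : a ≤ b) :
    b / Real.sinh b ≤ a / Real.sinh a := by
  have hb : 0 < b := lt_of_lt_of_le ha hab
  have h := convexOn_sinh_Ici.slope_mono (x := 0) (by simp)
    (show a ∈ Ici (0:ℝ) \ {0} from ⟨ha.le, ha.ne'⟩)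
    (show b ∈ Ici (0:ℝ) \ {0} from ⟨hb.le, hb.ne'⟩) hab
  simp only [slope_def_field, Real.sinh_zero, sub_zero] at h
  have hsa : 0 < Real.sinh a := Real.sinh_pos_iff.2 ha
  have hsb : 0 < Real.sinh b := Real.sinh_pos_iff.2 hb
  rw [div_le_div_iff₀ hsb hsa]
  rw [div_le_div_iff₀ ha hb] at h
  linarith

/-- The derivative of Wootters' function on `(0,1)`. -/
theorem hasDerivAt_wE {C : ℝ} (hC : C ∈ Ioo (0:ℝ) 1) :
    HasDerivAt wE (Real.artanh (Real.sqrt (1 - C ^ 2)) /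
      Real.sinh (Real.artanh (Real.sqrt (1 - C ^ 2)))) C := by
  obtain ⟨h0, h1⟩ := hC
  have hpos : 0 < 1 - C ^ 2 := by nlinarith
  set s := Real.sqrt (1 - C ^ 2) with hs
  have hs0 : 0 < s := Real.sqrt_pos.2 hpos
  have hsq : s ^ 2 = 1 - C ^ 2 := Real.sq_sqrt hpos.le
  have hs1 : s < 1 := by nlinarith
  have hd1 : HasDerivAt (fun C : ℝ => 1 - C ^ 2) (-(2 * C)) C := by
    have := (hasDerivAt_pow 2 C).const_sub 1
    simpa using this
  have hd2 : HasDerivAt (fun C : ℝ => Real.sqrt (1 - C ^ 2)) (-(2 * C) / (2 * s)) C :=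
    hd1.sqrt hpos.ne'
  have hd3 : HasDerivAt (fun C : ℝ => (1 + Real.sqrt (1 - C ^ 2)) / 2)
      (-(2 * C) / (2 * s) / 2) C := (hd2.const_add 1).div_const 2
  have hl0 : (1 + s) / 2 ≠ 0 := by positivity
  have hl1 : (1 + s) / 2 ≠ 1 := by intro h; linarith
  have hd4 := (Real.hasDerivAt_binEntropy hl0 hl1).comp C hd3
  have hval : Real.artanh s / Real.sinh (Real.artanh s)
      = (Real.log (1 - (1 + s) / 2) - Real.log ((1 + s) / 2)) * (-(2 * C) / (2 * s) / 2) := by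
    rw [Real.sinh_artanh ⟨by linarith, hs1⟩, Real.artanh_eq_half_log ⟨by linarith, hs1.le⟩]
    have h2 : Real.sqrt (1 - s ^ 2) = C := by
      rw [hsq]; simp [Real.sqrt_sq h0.le]
    rw [h2]
    have h3 : (1 - (1 + s) / 2) = (1 - s) / 2 := by ring
    have hne : 1 - s ≠ 0 := (by linarith : (0:ℝ) < 1 - s).ne'
    have hne' : 1 + s ≠ 0 := (by linarith : (0:ℝ) < 1 + s).ne'
    rw [h3, Real.log_div (x := 1 - s) (y := 2) hne two_ne_zero,
      Real.log_div (x := 1 + s) (y := 2) hne' two_ne_zero,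
      Real.log_div (x := 1 + s) (y := 1 - s) hne' hne]
    field_simp
    ring
  rw [hval]
  exact hd4

theorem continuous_wE : Continuous wE := by
  unfold wE
  fun_prop

/-- Wootters' function is convex on `[0,1]`. -/
theorem convexOn_wE : ConvexOn ℝ (Icc (0:ℝ) 1) wE := by
  refine MonotoneOn.convexOn_of_deriv (convex_Icc 0 1) continuous_wE.continuousOn ?_ ?_
  · rw [interior_Icc]
    intro C hC
    exact (hasDerivAt_wE hC).differentiableAt.differentiableWithinAt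
  · rw [interior_Icc]
    intro C₁ h₁ C₂ h₂ h12
    rw [(hasDerivAt_wE h₁).deriv, (hasDerivAt_wE h₂).deriv]
    have hp1 : 0 < 1 - C₁ ^ 2 := by nlinarith [h₁.1, h₁.2]
    have hp2 : 0 < 1 - C₂ ^ 2 := by nlinarith [h₂.1, h₂.2]
    have hs2 : 0 < Real.sqrt (1 - C₂ ^ 2) := Real.sqrt_pos.2 hp2
    have hs21 : Real.sqrt (1 - C₂ ^ 2) ≤ Real.sqrt (1 - C₁ ^ 2) :=
      Real.sqrt_le_sqrt (by nlinarith [h₁.1, h₂.1])
    have hs1lt : Real.sqrt (1 - C₁ ^ 2) < 1 := by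
      have := Real.sq_sqrt hp1.le
      nlinarith [h₁.1, Real.sqrt_nonneg (1 - C₁ ^ 2)]
    have hs2lt : Real.sqrt (1 - C₂ ^ 2) < 1 := lt_of_le_of_lt hs21 hs1lt
    have hT2 : 0 < Real.artanh (Real.sqrt (1 - C₂ ^ 2)) := Real.artanh_pos ⟨hs2, hs2lt⟩
    have hT21 : Real.artanh (Real.sqrt (1 - C₂ ^ 2)) ≤ Real.artanh (Real.sqrt (1 - C₁ ^ 2)) :=
      Real.artanh_le_artanh (by linarith) hs1lt hs21
    exact div_sinh_anti hT2 hT21

/-- Wootters' function is nondecreasing on `[0,1]`. -/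
theorem monotoneOn_wE : MonotoneOn wE (Icc (0:ℝ) 1) := by
  intro C₁ h₁ C₂ h₂ h12
  unfold wE
  have hs21 : Real.sqrt (1 - C₂ ^ 2) ≤ Real.sqrt (1 - C₁ ^ 2) :=
    Real.sqrt_le_sqrt (by nlinarith [h₁.1, h₂.1])
  have hle1 : ∀ C : ℝ, C ∈ Icc (0:ℝ) 1 → Real.sqrt (1 - C ^ 2) ≤ 1 := by
    intro C _
    have h := Real.sqrt_le_sqrt (show 1 - C ^ 2 ≤ 1 by nlinarith [sq_nonneg C])
    simpa using h
  refine Real.binEntropy_strictAntiOn.antitoneOn ?_ ?_ ?_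
  · constructor
    · have := Real.sqrt_nonneg (1 - C₂ ^ 2); norm_num; linarith
    · have := hle1 C₂ h₂; linarith
  · constructor
    · have := Real.sqrt_nonneg (1 - C₁ ^ 2); norm_num; linarith
    · have := hle1 C₁ h₁; linarith
  · linarith

/-- `z ↦ √(a + b (z - ν)^2)` is convex (`a, b ≥ 0`). -/
theorem convexOn_sqrt_quad {a b ν : ℝ} (ha : 0 ≤ a) (hb : 0 ≤ b) :
    ConvexOn ℝ univ (fun z : ℝ => Real.sqrt (a + b * (z - ν) ^ 2)) := by
  refine ⟨convex_univ, fun x _ y _ t u ht hu htu => ?_⟩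
  simp only [smul_eq_mul]
  have h1 : t * x + u * y - ν = t * (x - ν) + u * (y - ν) := by
    have : ν = (t + u) * ν := by rw [htu, one_mul]
    nlinarith
  rw [h1]
  set p := x - ν
  set q := y - ν
  have hA : 0 ≤ a + b * p ^ 2 := by positivity
  have hB : 0 ≤ a + b * q ^ 2 := by positivity
  have hAB : a + b * p * q ≤ Real.sqrt (a + b * p ^ 2) * Real.sqrt (a + b * q ^ 2) := by
    rw [← Real.sqrt_mul hA]
    apply Real.le_sqrt_of_sq_le
    nlinarith [sq_nonneg (p - q), mul_nonneg ha hb]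
  have e1 := Real.sq_sqrt hA
  have e2 := Real.sq_sqrt hB
  have hsA := Real.sqrt_nonneg (a + b * p ^ 2)
  have hsB := Real.sqrt_nonneg (a + b * q ^ 2)
  rw [Real.sqrt_le_iff]
  refine ⟨by positivity, ?_⟩
  have htu2 : t * u ≥ 0 := mul_nonneg ht hu
  have key : a + b * (t * p + u * q) ^ 2
      = t ^ 2 * (a + b * p ^ 2) + u ^ 2 * (a + b * q ^ 2) + 2 * (t * u) * (a + b * p * q) := by
    have : a = (t + u) ^ 2 * a := by rw [htu]; ring
    nlinarith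
  rw [key]
  nlinarith [mul_le_mul_of_nonneg_left hAB htu2]

/-- The determinant `v` of the output state is at most `1/4`. -/
theorem four_v_le_one {γ ν z : ℝ} (hγ : γ ∈ Icc (0:ℝ) 1) (_hν : ν ∈ Icc (0:ℝ) 1)
    (hz : z ∈ Icc (0:ℝ) 1) :
    4 * (γ * ν * (1 - ν) + γ * (1 - γ) * (z - ν) ^ 2) ≤ 1 := by
  obtain ⟨hγ0, hγ1⟩ := hγ
  obtain ⟨hz0, hz1⟩ := hz
  nlinarith [sq_nonneg (1 - 2 * ((1 - γ) * z + γ * ν)),
    mul_nonneg (mul_nonneg (sub_nonneg.2 hγ1) hz0) (sub_nonneg.2 hz1)]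

theorem v_nonneg {γ ν z : ℝ} (hγ : γ ∈ Icc (0:ℝ) 1) (hν : ν ∈ Icc (0:ℝ) 1) :
    0 ≤ γ * ν * (1 - ν) + γ * (1 - γ) * (z - ν) ^ 2 := by
  obtain ⟨hγ0, hγ1⟩ := hγ
  obtain ⟨hν0, hν1⟩ := hν
  have h1 : 0 ≤ γ * ν * (1 - ν) := mul_nonneg (mul_nonneg hγ0 hν0) (sub_nonneg.2 hν1)
  have h2 : 0 ≤ γ * (1 - γ) * (z - ν) ^ 2 :=
    mul_nonneg (mul_nonneg hγ0 (sub_nonneg.2 hγ1)) (sq_nonneg _)
  linarith

/-- **Lemma FC.** The entropy of the GADC output on a pure qubit state of excited population `z`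
is a convex function of `z ∈ [0,1]`, for all `γ, ν ∈ [0,1]`. -/
theorem fOut_convexOn (γ ν : ℝ) (hγ : γ ∈ Icc (0:ℝ) 1) (hν : ν ∈ Icc (0:ℝ) 1) :
    ConvexOn ℝ (Icc (0:ℝ) 1) (fun z : ℝ => Real.binEntropy
      ((1 + Real.sqrt (1 - 4 * (γ * ν * (1 - ν) + γ * (1 - γ) * (z - ν) ^ 2))) / 2)) := by
  obtain ⟨hγ0, hγ1⟩ := hγ
  obtain ⟨hν0, hν1⟩ := hν
  -- c z = √(4 v z)
  set c : ℝ → ℝ := fun z => Real.sqrt (4 * (γ * ν * (1 - ν)) + 4 * (γ * (1 - γ)) * (z - ν) ^ 2)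
    with hc
  have ha : 0 ≤ 4 * (γ * ν * (1 - ν)) :=
    mul_nonneg (by norm_num) (mul_nonneg (mul_nonneg hγ0 hν0) (sub_nonneg.2 hν1))
  have hb : 0 ≤ 4 * (γ * (1 - γ)) :=
    mul_nonneg (by norm_num) (mul_nonneg hγ0 (sub_nonneg.2 hγ1))
  have hcconv : ConvexOn ℝ univ c := convexOn_sqrt_quad (ν := ν) ha hb
  have hv4 : ∀ z : ℝ, 4 * (γ * ν * (1 - ν)) + 4 * (γ * (1 - γ)) * (z - ν) ^ 2
      = 4 * (γ * ν * (1 - ν) + γ * (1 - γ) * (z - ν) ^ 2) := fun z => by ring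
  have hvnn : ∀ z : ℝ, 0 ≤ 4 * (γ * ν * (1 - ν) + γ * (1 - γ) * (z - ν) ^ 2) := fun z =>
    mul_nonneg (by norm_num) (v_nonneg ⟨hγ0, hγ1⟩ ⟨hν0, hν1⟩)
  have hcmem : ∀ z ∈ Icc (0:ℝ) 1, c z ∈ Icc (0:ℝ) 1 := by
    intro z hz
    refine ⟨Real.sqrt_nonneg _, ?_⟩
    have h := Real.sqrt_le_sqrt (show 4 * (γ * ν * (1 - ν)) + 4 * (γ * (1 - γ)) * (z - ν) ^ 2 ≤ 1
      by rw [hv4]; exact four_v_le_one ⟨hγ0, hγ1⟩ ⟨hν0, hν1⟩ hz)
    simpa [hc] using h
  have hfun : ∀ z : ℝ, Real.binEntropy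
      ((1 + Real.sqrt (1 - 4 * (γ * ν * (1 - ν) + γ * (1 - γ) * (z - ν) ^ 2))) / 2) = wE (c z) := by
    intro z
    unfold wE
    simp only [hc]
    rw [hv4, Real.sq_sqrt (hvnn z)]
  refine ⟨convex_Icc 0 1, fun x hx y hy t u ht hu htu => ?_⟩
  simp only [hfun, smul_eq_mul]
  have hcx := hcmem x hx
  have hcy := hcmem y hy
  have hmid : t * x + u * y ∈ Icc (0:ℝ) 1 := by
    have := (convex_Icc (0:ℝ) 1) hx hy ht hu htu
    simpa [smul_eq_mul] using this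
  have h1 : c (t * x + u * y) ≤ t * c x + u * c y := by
    have := hcconv.2 (mem_univ x) (mem_univ y) ht hu htu
    simpa [smul_eq_mul] using this
  have hcomb : t * c x + u * c y ∈ Icc (0:ℝ) 1 := by
    have := (convex_Icc (0:ℝ) 1) hcx hcy ht hu htu
    simpa [smul_eq_mul] using this
  have h2 : wE (c (t * x + u * y)) ≤ wE (t * c x + u * c y) :=
    monotoneOn_wE (hcmem _ hmid) hcomb h1
  have h3 : wE (t * c x + u * c y) ≤ t * wE (c x) + u * wE (c y) := by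
    have := convexOn_wE.2 hcx hcy ht hu htu
    simpa [smul_eq_mul] using this
  exact h2.trans h3

end Crest.Agent.GAD.W93
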